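import Vale.Agent.P362.Model

/-!
# P362, module AMPALG: the Grover iterate (pure linear algebra and trigonometry)
-/

namespace P362

open scoped BigOperators Matrix

/-- Grover iterate `(2 s s* - 1) (1 - 2 Π)` -/
noncomputable def grov {γ : Type} [Fintype γ] [DecidableEq γ] (s : γ → ℂ) (good : γ → Bool) :
    Matrix γ γ ℂ :=
  ((2 : ℂ) • Matrix.vecMulVec s (star s) - 1) *
    Matrix.diagonal (fun c => if good c then (-1 : ℂ) else 1)

/-- action of the iterate on a vector -/
theorem grov_mulVec {γ : Type} [Fintype γ] [DecidableEq γ] (s : γ → ℂ) (good : γ → Bool)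
    (v : γ → ℂ) (c : γ) :
    (grov s good *ᵥ v) c = 2 * (∑ b, star (s b) * ((if good b then (-1 : ℂ) else 1) * v b)) * s c -
      (if good c then (-1 : ℂ) else 1) * v c := by
  unfold grov
  rw [← Matrix.mulVec_mulVec]
  have h : (Matrix.diagonal (fun c => if good c then (-1 : ℂ) else 1)) *ᵥ v =
      fun b => (if good b then (-1 : ℂ) else 1) * v b := by
    funext b
    rw [Matrix.mulVec_diagonal]
  rw [h, Matrix.sub_mulVec, Matrix.one_mulVec, Matrix.smul_mulVec]
  simp only [Pi.sub_apply, Pi.smul_apply, smul_eq_mul, Matrix.mulVec, dotProduct,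
    Matrix.vecMulVec_apply, Pi.star_apply]
  congr 1
  rw [mul_assoc, Finset.sum_mul]
  congr 1
  refine Finset.sum_congr rfl fun b _ => ?_
  ring

theorem grov_iter {γ : Type} [Fintype γ] [DecidableEq γ] (s : γ → ℂ) (good : γ → Bool)
    (hs : ∑ c, ‖s c‖ ^ 2 = 1) (θ : ℝ) (hθ0 : 0 < θ) (hθ1 : θ < Real.pi / 2)
    (hθ : Real.sin θ ^ 2 = ∑ c, if good c then ‖s c‖ ^ 2 else 0) (j : ℕ) (c : γ) :
    ((grov s good) ^ j *ᵥ s) c =
      (if good c then ((Real.sin ((2 * j + 1) * θ) / Real.sin θ : ℝ) : ℂ)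
        else ((Real.cos ((2 * j + 1) * θ) / Real.cos θ : ℝ) : ℂ)) * s c := by
  have hsin : 0 < Real.sin θ := Real.sin_pos_of_pos_of_lt_pi hθ0 (by linarith [Real.pi_pos])
  have hcos : 0 < Real.cos θ := Real.cos_pos_of_mem_Ioo ⟨by linarith, hθ1⟩
  have hcs : Real.cos θ ^ 2 = ∑ c, if good c then 0 else ‖s c‖ ^ 2 := by
    have h1 : Real.cos θ ^ 2 = 1 - Real.sin θ ^ 2 := by
      have := Real.sin_sq_add_cos_sq θ; linarith
    rw [h1, hθ, ← hs, ← Finset.sum_sub_distrib]
    refine Finset.sum_congr rfl fun c _ => ?_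
    split_ifs <;> simp
  induction j generalizing c with
  | zero =>
    simp only [pow_zero, Matrix.one_mulVec, Nat.cast_zero, mul_zero, zero_add, one_mul]
    rw [div_self hsin.ne', div_self hcos.ne']
    simp
  | succ j ih =>
    rw [pow_succ', ← Matrix.mulVec_mulVec, grov_mulVec]
    set S := Real.sin ((2 * j + 1) * θ) with hS
    set C := Real.cos ((2 * j + 1) * θ) with hC
    have hsum : (∑ b, star (s b) * ((if good b then (-1 : ℂ) else 1) * ((grov s good) ^ j *ᵥ s) b)) =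
        ((C * Real.cos θ - S * Real.sin θ : ℝ) : ℂ) := by
      have e1 : ∀ b, star (s b) * ((if good b then (-1 : ℂ) else 1) * ((grov s good) ^ j *ᵥ s) b) =
          (((C / Real.cos θ) * (if good b then 0 else ‖s b‖ ^ 2) -
            (S / Real.sin θ) * (if good b then ‖s b‖ ^ 2 else 0) : ℝ) : ℂ) := by
        intro b
        rw [ih b]
        have e2 : star (s b) * s b = ((‖s b‖ ^ 2 : ℝ) : ℂ) := by
          have := Complex.conj_mul' (s b)
          rw [← Complex.ofReal_pow] at this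
          exact this
        split_ifs with hg
        · rw [show star (s b) * (-1 * (((S / Real.sin θ : ℝ) : ℂ) * s b)) =
            -(((S / Real.sin θ : ℝ) : ℂ) * (star (s b) * s b)) by ring, e2]
          push_cast
          ring
        · rw [show star (s b) * (1 * (((C / Real.cos θ : ℝ) : ℂ) * s b)) =
            (((C / Real.cos θ : ℝ) : ℂ) * (star (s b) * s b)) by ring, e2]
          push_cast
          ring
      rw [Finset.sum_congr rfl fun b _ => e1 b, ← Complex.ofReal_sum, Finset.sum_sub_distrib,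
        ← Finset.mul_sum, ← Finset.mul_sum, ← hθ, ← hcs]
      congr 1
      field_simp
    rw [hsum, ih c]
    have hS' : Real.sin ((2 * ((j + 1 : ℕ) : ℝ) + 1) * θ) =
        2 * (C * Real.cos θ - S * Real.sin θ) * Real.sin θ + S := by
      have h1 : (2 * ((j + 1 : ℕ) : ℝ) + 1) * θ = (2 * j + 1) * θ + 2 * θ := by push_cast; ring
      rw [h1, Real.sin_add, ← hS, ← hC, Real.sin_two_mul, Real.cos_two_mul]
      have := Real.sin_sq_add_cos_sq θ
      linear_combination (2 * S) * this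
    have hC' : Real.cos ((2 * ((j + 1 : ℕ) : ℝ) + 1) * θ) =
        2 * (C * Real.cos θ - S * Real.sin θ) * Real.cos θ - C := by
      have h1 : (2 * ((j + 1 : ℕ) : ℝ) + 1) * θ = (2 * j + 1) * θ + 2 * θ := by push_cast; ring
      rw [h1, Real.cos_add, ← hS, ← hC, Real.sin_two_mul, Real.cos_two_mul]
      ring
    rw [hS', hC']
    have hs0 : (Real.sin θ : ℂ) ≠ 0 := by exact_mod_cast hsin.ne'
    have hc0 : (Real.cos θ : ℂ) ≠ 0 := by exact_mod_cast hcos.ne'
    split_ifs with hg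
    · push_cast
      push_cast at hs0
      field_simp
      ring
    · push_cast
      push_cast at hc0
      field_simp

theorem grov_norm_step {γ : Type} [Fintype γ] [DecidableEq γ] (s : γ → ℂ) (good : γ → Bool)
    (hs : ∑ c, ‖s c‖ ^ 2 = 1) (v : γ → ℂ) :
    ∑ c, ‖(grov s good *ᵥ v) c‖ ^ 2 = ∑ c, ‖v c‖ ^ 2 := by
  set u : γ → ℂ := fun b => (if good b then (-1 : ℂ) else 1) * v b with hu
  set w : ℂ := ∑ b, star (s b) * u b with hw
  have h1 : ∀ c, (grov s good *ᵥ v) c = 2 * w * s c - u c := fun c => grov_mulVec s good v c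
  have h2 : ∀ c, ‖v c‖ ^ 2 = ‖u c‖ ^ 2 := by
    intro c
    rw [hu]
    simp only [norm_mul]
    split_ifs <;> simp
  have h3 : ∀ z : ℂ, ((‖z‖ ^ 2 : ℝ) : ℂ) = star z * z := by
    intro z
    have := Complex.conj_mul' z
    rw [← Complex.ofReal_pow] at this
    exact this.symm
  have h4 : ((∑ c, ‖(grov s good *ᵥ v) c‖ ^ 2 : ℝ) : ℂ) = ((∑ c, ‖v c‖ ^ 2 : ℝ) : ℂ) := by
    have hs' : ∑ c, star (s c) * s c = (1 : ℂ) := by
      rw [← Finset.sum_congr rfl fun c _ => h3 (s c), ← Complex.ofReal_sum, hs]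
      simp
    have hw' : ∑ b, star (u b) * s b = star w := by
      rw [hw, star_sum]
      refine Finset.sum_congr rfl fun b _ => ?_
      rw [star_mul' (star (s b)) (u b), star_star, mul_comm]
    rw [Complex.ofReal_sum, Complex.ofReal_sum]
    have e1 : ∀ c, ((‖(grov s good *ᵥ v) c‖ ^ 2 : ℝ) : ℂ) =
        4 * (star w * w) * (star (s c) * s c) - 2 * star w * (star (s c) * u c) -
          2 * w * (star (u c) * s c) + star (u c) * u c := by
      intro c
      rw [h3, h1]
      simp only [star_sub, star_mul']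
      have : star (2 : ℂ) = 2 := by simp
      rw [this]
      ring
    have e2 : ∀ c, ((‖v c‖ ^ 2 : ℝ) : ℂ) = star (u c) * u c := by
      intro c
      rw [h2, h3]
    rw [Finset.sum_congr rfl fun c _ => e1 c, Finset.sum_congr rfl fun c _ => e2 c,
      Finset.sum_add_distrib, Finset.sum_sub_distrib, Finset.sum_sub_distrib, ← Finset.mul_sum,
      ← Finset.mul_sum, ← Finset.mul_sum, hs', hw', ← hw]
    ring
  exact_mod_cast h4

theorem grov_norm {γ : Type} [Fintype γ] [DecidableEq γ] (s : γ → ℂ) (good : γ → Bool)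
    (hs : ∑ c, ‖s c‖ ^ 2 = 1) (j : ℕ) : ∑ c, ‖((grov s good) ^ j *ᵥ s) c‖ ^ 2 = 1 := by
  induction j with
  | zero => simpa using hs
  | succ j ih => rw [pow_succ', ← Matrix.mulVec_mulVec, grov_norm_step s good hs, ih]

theorem sum_sin_sq (θ : ℝ) (J : ℕ) :
    Real.sin (2 * θ) * ∑ j ∈ Finset.range J, Real.sin ((2 * j + 1) * θ) ^ 2 =
      J * Real.sin (2 * θ) / 2 - Real.sin (4 * J * θ) / 4 := by
  induction J with
  | zero => simp
  | succ J ih =>
    rw [Finset.sum_range_succ, mul_add, ih]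
    set φ : ℝ := (2 * J + 1) * θ with hφ
    have h1 : 4 * (J : ℝ) * θ = 2 * φ - 2 * θ := by rw [hφ]; ring
    have h2 : 4 * ((J + 1 : ℕ) : ℝ) * θ = 2 * φ + 2 * θ := by rw [hφ]; push_cast; ring
    rw [h1, h2, Real.sin_sub, Real.sin_add, Real.cos_two_mul φ]
    have h3 := Real.sin_sq_add_cos_sq φ
    push_cast
    linear_combination (Real.sin (2 * θ)) * h3

theorem avg_sin_sq (θ : ℝ) (hθ0 : 0 < θ) (hθ1 : θ < Real.pi / 2) (hθ : Real.sin θ ^ 2 ≤ 1 / 4)
    (J : ℕ) (hJ : 1 ≤ J * Real.sin θ) :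
    1 / 4 ≤ (∑ j ∈ Finset.range J, Real.sin ((2 * j + 1) * θ) ^ 2) / J := by
  have hsin : 0 < Real.sin θ := Real.sin_pos_of_pos_of_lt_pi hθ0 (by linarith [Real.pi_pos])
  have hcos : 0 < Real.cos θ := Real.cos_pos_of_mem_Ioo ⟨by linarith, hθ1⟩
  have hJ0 : (0 : ℝ) < J := by
    by_contra h
    push Not at h
    nlinarith
  have hcos2 : 1 / 2 ≤ Real.cos θ := by
    have := Real.sin_sq_add_cos_sq θ
    nlinarith
  have h2 : Real.sin θ ≤ Real.sin (2 * θ) := by
    rw [Real.sin_two_mul]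
    nlinarith
  have hs := sum_sin_sq θ J
  have h2pos : 0 < Real.sin (2 * θ) := by linarith
  rw [le_div_iff₀ hJ0]
  have h3 : Real.sin (4 * J * θ) ≤ 1 := Real.sin_le_one _
  have h4 : 1 ≤ J * Real.sin (2 * θ) := by nlinarith
  have h5 : Real.sin (2 * θ) * (1 / 4 * J) ≤
      Real.sin (2 * θ) * ∑ j ∈ Finset.range J, Real.sin ((2 * j + 1) * θ) ^ 2 := by
    rw [hs]
    nlinarith
  exact le_of_mul_le_mul_left h5 h2pos

end P362
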