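import Vale.Agent.P362.Calc

/-!
# P362, module DTFAM: decision trees inside the calculus; binding
-/

namespace P362

open scoped BigOperators Matrix

variable {ι : Type} [Fintype ι] [DecidableEq ι]
variable {α β γ κ : Type} [Fintype α] [Fintype β] [Fintype γ] [Fintype κ]

/-- the matrix of a map -/
def embF [DecidableEq β] (f : α → β) : Matrix β α ℂ := Matrix.of fun b a => if b = f a then 1 else 0

omit [Fintype β] in
theorem embF_mulVec [DecidableEq β] (f : α → β) (v : α → ℂ) (b : β) :
    (embF f *ᵥ v) b = ∑ a, if b = f a then v a else 0 := by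
  simp [embF, Matrix.mulVec, dotProduct]

theorem IsContr.embF [DecidableEq β] {f : α → β} (hf : Function.Injective f) :
    IsContr (embF f) := by
  classical
  intro v
  refine le_of_eq ?_
  have h1 : ∀ b, ‖(P362.embF f *ᵥ v) b‖ ^ 2 = ∑ a, if b = f a then ‖v a‖ ^ 2 else 0 := by
    intro b
    rw [embF_mulVec]
    by_cases hb : ∃ a, b = f a
    · obtain ⟨a, rfl⟩ := hb
      have e : ∀ a', (f a = f a') = (a = a') := fun a' => by
        rw [hf.eq_iff]
      simp only [e]
      simp
    · push Not at hb
      simp [hb]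
  rw [Finset.sum_congr rfl fun b _ => h1 b, Finset.sum_comm]
  refine Finset.sum_congr rfl fun a _ => ?_
  simp

omit [Fintype β] [Fintype γ] in
/-- composing a family (a column) with the matrix of a map applied to a basis column -/
theorem embF_mul_col [DecidableEq β] [DecidableEq α] (f : α → β) (a : α) :
    (embF f * (Matrix.of fun a' (_ : γ) => if a' = a then (1 : ℂ) else 0) : Matrix β γ ℂ) =
      Matrix.of fun b (_ : γ) => if b = f a then (1 : ℂ) else 0 := by
  ext b c
  simp [embF, Matrix.mul_apply]

/-- trees of depth at most `d` as `d`-query columns -/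
theorem exists_tree_col [Nonempty ι] {L : Type} (d : ℕ) :
    ∃ (β : Type) (_ : Fintype β) (_ : DecidableEq β), ∀ T : DTree ι L, T.depth ≤ d →
      ∃ (M : (ι → Bool) → Matrix β Unit ℂ) (lab : β → L), QFam d β M ∧
        ∀ x, ∃ b, (M x = Matrix.of fun b' (_ : Unit) => if b' = b then (1 : ℂ) else 0) ∧
          lab b = T.eval x := by
  induction d with
  | zero =>
    refine ⟨Unit, inferInstance, inferInstance, fun T hT => ?_⟩
    cases T with
    | leaf a =>
      refine ⟨fun _ => Matrix.of fun b' (_ : Unit) => if b' = () then (1 : ℂ) else 0,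
        fun _ => a, QFam.const (IsContr.col (by simp)), fun x => ⟨(), rfl, rfl⟩⟩
    | node i t0 t1 => simp [DTree.depth] at hT
  | succ d ih =>
    obtain ⟨β, hF, hD, ih⟩ := ih
    refine ⟨Bool × β, inferInstance, inferInstance, fun T hT => ?_⟩
    cases T with
    | leaf a =>
      obtain ⟨M, lab, hM, hx⟩ := ih (DTree.leaf a) (by simp [DTree.depth])
      let E : Matrix (Bool × β) β ℂ := embF (fun b : β => (false, b))
      refine ⟨fun x => E * M x, fun s => lab s.2, ?_, fun x => ?_⟩
      · have h1 : QFam (ι := ι) 0 (Bool × β) (fun _ => E) :=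
          QFam.const (IsContr.embF (fun b b' h => (Prod.ext_iff.mp h).2))
        exact QFam.mono (QFam.mul h1 hM) (by omega)
      · obtain ⟨b, hb, hlab⟩ := hx x
        refine ⟨(false, b), ?_, ?_⟩
        · show E * M x = _
          rw [hb]
          exact embF_mul_col (fun b : β => (false, b)) b
        · exact hlab
    | node i t0 t1 =>
      have hd : t0.depth ≤ d ∧ t1.depth ≤ d := by
        simp only [DTree.depth] at hT
        omega
      obtain ⟨M0, lab0, hM0, hx0⟩ := ih t0 hd.1
      obtain ⟨M1, lab1, hM1, hx1⟩ := ih t1 hd.2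
      refine ⟨fun x => (bd (fun b : Bool => if b then M1 x else M0 x) *
        (embF (fun b : Bool => (b, ())) *
          (Matrix.of fun b (_ : Unit) => if b = x i then 1 else 0 : Matrix Bool Unit ℂ) :
          Matrix (Bool × Unit) Unit ℂ) : Matrix (Bool × β) Unit ℂ),
        fun s => if s.1 then lab1 s.2 else lab0 s.2, ?_, fun x => ?_⟩
      · have h1 : QFam d (Bool × β) (fun x => bd (fun b : Bool => if b then M1 x else M0 x)) := by
          refine QFam.bd (M := fun (b : Bool) x => if b then M1 x else M0 x) fun b => ?_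
          cases b
          · simpa using hM0
          · simpa using hM1
        have h2 : QFam (ι := ι) 0 (Bool × Unit) (fun _ => embF (fun b : Bool => (b, ()))) :=
          QFam.const (IsContr.embF (fun b b' h => (Prod.ext_iff.mp h).1))
        have h3 := QFam.mul h1 (QFam.mul h2 (QFam.query i))
        simpa using h3
      · have key : ∀ (t : Bool) (b : β), x i = t →
            ((if t then M1 x else M0 x) = Matrix.of fun b' (_ : Unit) => if b' = b then (1 : ℂ) else 0) →
            (bd (fun b : Bool => if b then M1 x else M0 x) *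
        (embF (fun b : Bool => (b, ())) *
          (Matrix.of fun b (_ : Unit) => if b = x i then 1 else 0 : Matrix Bool Unit ℂ) :
          Matrix (Bool × Unit) Unit ℂ) : Matrix (Bool × β) Unit ℂ) =
            Matrix.of fun b' (_ : Unit) => if b' = (t, b) then (1 : ℂ) else 0 := by
          intro t b ht hM
          rw [embF_mul_col, ht]
          ext ⟨t', b'⟩ u
          rw [Matrix.mul_apply]
          rw [Finset.sum_eq_single (t, ())]
          · simp only [bd, Matrix.of_apply, if_true, mul_one, Prod.mk.injEq]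
            by_cases h : t' = t
            · subst h
              simp [hM]
            · simp [h]
          · intro s _ hs
            simp only [Matrix.of_apply, if_neg hs, mul_zero]
          · intro h
            exact absurd (Finset.mem_univ _) h
        cases hxi : x i with
        | true =>
          obtain ⟨b, hb, hlab⟩ := hx1 x
          refine ⟨(true, b), ?_, ?_⟩
          · exact key true b hxi (by simpa using hb)
          · simp [DTree.eval, hxi, hlab]
        | false =>
          obtain ⟨b, hb, hlab⟩ := hx0 x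
          refine ⟨(false, b), ?_, ?_⟩
          · exact key false b hxi (by simpa using hb)
          · simp [DTree.eval, hxi, hlab]

/-- diagonal family whose entries are functions of decision tree outputs (compute and
uncompute). -/
theorem QFam.dt_diag [Nonempty ι] [DecidableEq γ] {L : Type} (T : γ → DTree ι L) (d : ℕ)
    (hd : ∀ c, (T c).depth ≤ d) (g : L → ℂ) (hg : ∀ b, ‖g b‖ ≤ 1) :
    QFam (2 * d) γ (fun x => Matrix.diagonal fun c => g ((T c).eval x)) := by
  obtain ⟨β, hF, hD, hT⟩ := exists_tree_col (ι := ι) (L := L) d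
  choose M lab hM hx using fun c => hT (T c) (hd c)
  have h1 : QFam d (γ × β) (fun x => P362.bd fun c => M c x) := QFam.bd hM
  have h2 : QFam (ι := ι) 0 (γ × β) (fun _ => Matrix.diagonal fun s : γ × β => g (lab s.1 s.2)) :=
    QFam.const (IsContr.diag fun s => hg _)
  have h3 : QFam (ι := ι) 0 (γ × Unit) (fun _ => embF (fun c : γ => (c, ()))) :=
    QFam.const (IsContr.embF (fun b b' h => (Prod.ext_iff.mp h).1))
  have h4 := QFam.mul h1 h3
  have h5 := QFam.mul (QFam.adj h4) (QFam.mul h2 h4)
  have e : d + 0 + (0 + (d + 0)) = 2 * d := by ring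
  rw [e] at h5
  have hcol : ∀ x, ((P362.bd fun c => M c x) * embF (fun c : γ => (c, ())) : Matrix (γ × β) γ ℂ) =
      Matrix.of fun (s : γ × β) (c : γ) => if s.1 = c then M c x s.2 () else 0 := by
    intro x
    ext ⟨c', b⟩ c
    rw [Matrix.mul_apply, Finset.sum_eq_single (c, ())]
    · simp only [P362.bd, embF, Matrix.of_apply, if_true, mul_one]
      by_cases h : c' = c
      · subst h; simp
      · simp [h]
    · intro s _ hs
      simp only [embF, Matrix.of_apply, if_neg hs, mul_zero]
    · intro h
      exact absurd (Finset.mem_univ _) h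
  convert h5 using 2 with x
  rw [hcol x]
  ext c c'
  rw [Matrix.mul_apply]
  simp only [Matrix.conjTranspose_apply, Matrix.of_apply, Matrix.diagonal_mul,
    Matrix.diagonal_apply]
  obtain ⟨b, hb, hlab⟩ := hx c x
  have hMb : ∀ b', M c x b' () = if b' = b then 1 else 0 := fun b' => by rw [hb]; rfl
  rw [Finset.sum_eq_single (c, b)]
  · by_cases h : c = c'
    · subst h
      simp [hMb, hlab]
    · simp [h]
  · rintro ⟨c'', b''⟩ _ hs
    by_cases h : c'' = c
    · subst h
      have hb' : b'' ≠ b := fun h => hs (by rw [h])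
      simp [hMb, hb']
    · simp [h]
  · intro h
    exact absurd (Finset.mem_univ _) h

theorem AccFam.const (p : ℝ) (h0 : 0 ≤ p) (h1 : p ≤ 1) : AccFam (ι := ι) 0 (fun _ => p) := by
  have e : ‖((Real.sqrt p : ℝ) : ℂ)‖ ^ 2 = p := by
    rw [Complex.norm_real, Real.norm_eq_abs, sq_abs, Real.sq_sqrt h0]
  refine ⟨Unit, inferInstance, fun _ _ => ((Real.sqrt p : ℝ) : ℂ), ?_, fun x => ?_⟩
  · refine QFam.const (IsContr.col ?_)
    rw [Finset.univ_unique, Finset.sum_singleton, e]
    exact h1
  · rw [Finset.univ_unique, Finset.sum_singleton, e]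

theorem AccFam.mono [Nonempty ι] {q q' : ℕ} {p : (ι → Bool) → ℝ} (h : AccFam q p)
    (hq : q ≤ q') : AccFam q' p := by
  obtain ⟨β, hF, v, hv, hp⟩ := h
  exact ⟨β, hF, v, QFam.mono hv hq, hp⟩

/-- sequential composition of a vector family with a family of vector families -/
theorem QVec.bind {q q' : ℕ} {v : (ι → Bool) → β → ℂ} (h : QVec q v)
    {w : β → (ι → Bool) → γ → ℂ} (h' : ∀ b, QVec q' (w b)) :
    QVec (q + q') (fun x (s : β × γ) => v x s.1 * w s.1 x s.2) := by
  classical
  have h1 : QFam q' (β × γ) (fun x => P362.bd fun b => Matrix.of fun c (_ : Unit) => w b x c) :=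
    QFam.bd (M := fun b x => Matrix.of fun c (_ : Unit) => w b x c) h'
  have h2 : QFam (ι := ι) 0 (β × Unit) (fun _ => embF (fun b : β => (b, ()))) :=
    QFam.const (IsContr.embF (fun b b' h => (Prod.ext_iff.mp h).1))
  have h3 := QFam.mul h1 (QFam.mul h2 h)
  have e : q' + (0 + q) = q + q' := by ring
  rw [e] at h3
  unfold QVec
  convert h3 using 2 with x
  ext ⟨b, c⟩ u
  have e2 : (embF (fun b : β => (b, ())) * (Matrix.of fun b (_ : Unit) => v x b) :
      Matrix (β × Unit) Unit ℂ) =
      Matrix.of fun (s : β × Unit) (_ : Unit) => v x s.1 := by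
    ext ⟨b', u'⟩ u''
    rw [Matrix.mul_apply, Finset.sum_eq_single b']
    · simp [embF]
    · intro b'' _ hb''
      have : (b', u') ≠ (b'', ()) := fun h => hb'' (Prod.ext_iff.mp h).1.symm
      simp only [embF, Matrix.of_apply, if_neg this, zero_mul]
    · intro h
      exact absurd (Finset.mem_univ _) h
  rw [e2, Matrix.mul_apply, Finset.sum_eq_single (b, ())]
  · simp [P362.bd, mul_comm]
  · rintro ⟨b', u'⟩ _ hb'
    have : b ≠ b' := fun h => hb' (by rw [h])
    simp [P362.bd, this]
  · intro h
    exact absurd (Finset.mem_univ _) h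

theorem AccFam.mul {q q' : ℕ} {p p' : (ι → Bool) → ℝ} (h : AccFam q p) (h' : AccFam q' p') :
    AccFam (q + q') (fun x => p x * p' x) := by
  obtain ⟨β, hF, v, hv, hp⟩ := h
  obtain ⟨β', hF', v', hv', hp'⟩ := h'
  refine ⟨β × β', inferInstance, _, QVec.bind hv (w := fun _ => v') (fun _ => hv'),
    fun x => ?_⟩
  show p x * p' x = _
  rw [hp, hp', Finset.sum_mul_sum, Fintype.sum_prod_type]
  refine Finset.sum_congr rfl fun b _ => Finset.sum_congr rfl fun b' _ => ?_
  rw [norm_mul, mul_pow]

theorem AccFam.dt [Nonempty ι] (T : DTree ι Bool) (d : ℕ) (hd : T.depth ≤ d) :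
    AccFam d (fun x => if T.eval x then (1 : ℝ) else 0) := by
  obtain ⟨β, hF, hD, hT⟩ := exists_tree_col (ι := ι) (L := Bool) d
  obtain ⟨M, lab, hM, hx⟩ := hT T hd
  have h1 : QFam (ι := ι) 0 β (fun _ => Matrix.diagonal fun b : β => if lab b then (1 : ℂ) else 0) :=
    QFam.const (IsContr.diag fun b => by split_ifs <;> simp)
  have h2 := QFam.mul h1 hM
  rw [zero_add] at h2
  refine ⟨β, hF, fun x b => (if lab b then (1 : ℂ) else 0) * M x b (), ?_, fun x => ?_⟩
  · unfold QVec
    convert h2 using 2 with x
    ext b u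
    simp [Matrix.diagonal_mul]
  · obtain ⟨b, hb, hlab⟩ := hx x
    have hMb : ∀ b', M x b' () = if b' = b then 1 else 0 := fun b' => by rw [hb]; rfl
    simp only [hMb]
    rw [Finset.sum_eq_single b]
    · simp only [if_true, mul_one, hlab]
      split_ifs <;> simp
    · intro b' _ hb'
      simp [hb']
    · intro h
      exact absurd (Finset.mem_univ _) h

/-- `AccFam` does not depend on representation of `p` -/
theorem AccFam.congr {q : ℕ} {p p' : (ι → Bool) → ℝ} (h : AccFam q p) (hp : ∀ x, p x = p' x) :
    AccFam q p' := by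
  have : p = p' := funext hp
  rwa [← this]

/-- run a sampler, then (depending on its outcome `c`) a `q'`-query algorithm -/
theorem Samp.bind {q q' : ℕ} {pr : (ι → Bool) → γ → ℝ} (h : Samp q pr)
    {p : γ → (ι → Bool) → ℝ} (h' : ∀ c, AccFam q' (p c)) :
    AccFam (q + q') (fun x => ∑ c, pr x c * p c x) := by
  classical
  obtain ⟨κ, hF, v, hv, hpr⟩ := h
  choose β hFβ w hw hp using h'
  -- uniform output space
  let w' : κ × γ → (ι → Bool) → (Σ c, β c) → ℂ := fun s x t =>
    if h : t.1 = s.2 then w s.2 x (h ▸ t.2) else 0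
  have hw' : ∀ s, QVec q' (w' s) := by
    intro s
    have h1 : QFam (ι := ι) 0 (Σ c, β c) (fun _ => embF (fun b : β s.2 => (⟨s.2, b⟩ : Σ c, β c))) :=
      QFam.const (IsContr.embF (fun b b' h => by simpa using h))
    have h2 := QFam.mul h1 (hw s.2)
    rw [zero_add] at h2
    unfold QVec
    convert h2 using 2 with x
    ext ⟨c, b⟩ u
    rw [Matrix.mul_apply]
    by_cases hc : c = s.2
    · subst hc
      rw [Finset.sum_eq_single b]
      · simp [embF, w']
      · intro b' _ hb'
        have : (⟨s.2, b⟩ : Σ c, β c) ≠ ⟨s.2, b'⟩ := fun h => hb' (by simpa using h.symm)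
        simp only [embF, Matrix.of_apply, if_neg this, zero_mul]
      · intro h
        exact absurd (Finset.mem_univ _) h
    · rw [Finset.sum_eq_zero]
      · simp [w', hc]
      · intro b' _
        have : (⟨c, b⟩ : Σ c, β c) ≠ ⟨s.2, b'⟩ := fun h => hc (congrArg Sigma.fst h)
        simp only [embF, Matrix.of_apply, if_neg this, zero_mul]
  refine ⟨(κ × γ) × (Σ c, β c), inferInstance, _, QVec.bind hv (w := w') hw', fun x => ?_⟩
  rw [Fintype.sum_prod_type]
  have h3 : ∀ s : κ × γ, ∑ t : (Σ c, β c), ‖v x s * w' s x t‖ ^ 2 = ‖v x s‖ ^ 2 * p s.2 x := by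
    intro s
    have h4 : ∑ t : (Σ c, β c), ‖w' s x t‖ ^ 2 = p s.2 x := by
      rw [Fintype.sum_sigma, Finset.sum_eq_single s.2, hp]
      · simp [w']
      · intro c _ hc
        simp [w', hc]
      · intro h
        exact absurd (Finset.mem_univ _) h
    rw [← h4, Finset.mul_sum]
    refine Finset.sum_congr rfl fun t _ => ?_
    rw [norm_mul, mul_pow]
  rw [Finset.sum_congr rfl fun s _ => h3 s, Fintype.sum_prod_type, Finset.sum_comm]
  refine Finset.sum_congr rfl fun c _ => ?_
  rw [hpr, Finset.sum_mul]

end P362
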