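import Vale.Agent.P362.AmpAlg
import Vale.Agent.P362.DTFam

/-!
# P362, module AMPSAMPLE: amplitude-amplified sampling with a random number of iterations
-/

namespace P362

open scoped BigOperators Matrix

variable {ι : Type} [Fintype ι] [DecidableEq ι]

namespace AmpS

variable {γ : Type} [Fintype γ] [DecidableEq γ]

theorem norm_mulVec_unitary {U : Matrix γ γ ℂ} (hU : U ∈ Matrix.unitaryGroup γ ℂ) (v : γ → ℂ) :
    ∑ c, ‖(U *ᵥ v) c‖ ^ 2 = ∑ c, ‖v c‖ ^ 2 := by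
  apply le_antisymm
  · exact IsContr.of_unitary hU v
  · have hU' : Uᴴ ∈ Matrix.unitaryGroup γ ℂ := Unitary.star_mem hU
    have h := IsContr.of_unitary hU' (U *ᵥ v)
    have e : Uᴴ *ᵥ (U *ᵥ v) = v := by
      rw [Matrix.mulVec_mulVec]
      have : Uᴴ * U = 1 := by
        have := Matrix.mem_unitaryGroup_iff'.mp hU
        rwa [Matrix.star_eq_conjTranspose] at this
      rw [this, Matrix.one_mulVec]
    rw [e] at h
    exact h

/-- the reflection about a unit vector -/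
noncomputable def refl (s : γ → ℂ) : Matrix γ γ ℂ := (2 : ℂ) • Matrix.vecMulVec s (star s) - 1

theorem refl_conj (s : γ → ℂ) (U : Matrix γ γ ℂ) (hU : U ∈ Matrix.unitaryGroup γ ℂ) :
    U * (refl s * Uᴴ) = refl (U *ᵥ s) := by
  have h1 : U * Uᴴ = 1 := by
    have := Matrix.mem_unitaryGroup_iff.mp hU
    rwa [Matrix.star_eq_conjTranspose] at this
  unfold refl
  rw [Matrix.sub_mul, Matrix.mul_sub, Matrix.one_mul, h1, Matrix.smul_mul, Matrix.mul_smul]
  congr 2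
  rw [Matrix.vecMulVec_mul, Matrix.mul_vecMulVec]
  congr 1
  ext c
  simp [Matrix.vecMul, Matrix.mulVec, dotProduct, Matrix.conjTranspose_apply, mul_comm]

theorem refl_unitary (s : γ → ℂ) (hs : ∑ c, ‖s c‖ ^ 2 = 1) :
    refl s ∈ Matrix.unitaryGroup γ ℂ := by
  have hss : star s ⬝ᵥ s = 1 := by
    have : star s ⬝ᵥ s = ((∑ c, ‖s c‖ ^ 2 : ℝ) : ℂ) := by
      simp only [dotProduct, Pi.star_apply]
      push_cast
      refine Finset.sum_congr rfl fun c _ => ?_
      rw [← Complex.conj_mul']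
      rfl
    rw [this, hs]; simp
  rw [Matrix.mem_unitaryGroup_iff]
  have hh : star (refl s) = refl s := by
    rw [Matrix.star_eq_conjTranspose]
    unfold refl
    rw [Matrix.conjTranspose_sub, Matrix.conjTranspose_smul, Matrix.conjTranspose_vecMulVec]
    simp
  rw [hh]
  unfold refl
  rw [Matrix.sub_mul, Matrix.mul_sub, Matrix.one_mul, Matrix.mul_one, Matrix.smul_mul,
    Matrix.mul_smul, Matrix.vecMulVec_mul_vecMulVec, hss]
  simp only [one_smul]
  ext a b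
  simp
  ring

theorem grov_eq (s : γ → ℂ) (good : γ → Bool) :
    grov s good = refl s * Matrix.diagonal (fun c => if good c then (-1 : ℂ) else 1) := rfl

end AmpS

open AmpS

variable {γ : Type} [Fintype γ] [DecidableEq γ]

theorem qfam_grov [Nonempty ι] {qM : ℕ}
    (M : (ι → Bool) → Matrix γ γ ℂ) (hM : QFam qM γ M)
    (hMu : ∀ x, M x ∈ Matrix.unitaryGroup γ ℂ) (s0 : γ → ℂ) (hs0 : ∑ c, ‖s0 c‖ ^ 2 = 1)
    (T : γ → DTree ι Bool) (d : ℕ) (hd : ∀ c, (T c).depth ≤ d) :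
    QFam (2 * qM + 2 * d) γ (fun x => grov (M x *ᵥ s0) (fun c => (T c).eval x)) := by
  have h1 : QFam (ι := ι) 0 γ (fun _ => refl s0) :=
    QFam.const (IsContr.of_unitary (refl_unitary s0 hs0))
  have h2 := QFam.mul hM (QFam.mul h1 (QFam.adj hM))
  have h3 := QFam.dt_diag T d hd (fun b => if b then (-1 : ℂ) else 1)
    (fun b => by cases b <;> simp)
  have h4 := QFam.mul h2 h3
  have e : 2 * qM + 2 * d = (qM + (0 + qM)) + 2 * d := by ring
  rw [e]
  convert h4 using 2 with x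
  rw [grov_eq, ← refl_conj s0 (M x) (hMu x)]

theorem qfam_grov_pow [Nonempty ι] {qM : ℕ}
    (M : (ι → Bool) → Matrix γ γ ℂ) (hM : QFam qM γ M)
    (hMu : ∀ x, M x ∈ Matrix.unitaryGroup γ ℂ) (s0 : γ → ℂ) (hs0 : ∑ c, ‖s0 c‖ ^ 2 = 1)
    (T : γ → DTree ι Bool) (d : ℕ) (hd : ∀ c, (T c).depth ≤ d) (j : ℕ) :
    QVec (qM + j * (2 * qM + 2 * d))
      (fun x => (grov (M x *ᵥ s0) (fun c => (T c).eval x)) ^ j *ᵥ (M x *ᵥ s0)) := by
  induction j with
  | zero =>
    have h1 : QFam (ι := ι) 0 γ (fun _ => Matrix.of fun c (_ : Unit) => s0 c) :=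
      QFam.const (IsContr.col hs0.le)
    have h2 := QFam.mul hM h1
    unfold QVec
    convert h2 using 2 with x
    · simp
    · ext c u
      rw [Matrix.of_apply]
      beta_reduce
      rw [pow_zero, Matrix.one_mulVec]
      rfl
  | succ j ih =>
    have h1 := QFam.mul (qfam_grov M hM hMu s0 hs0 T d hd) ih
    unfold QVec
    have e : qM + (j + 1) * (2 * qM + 2 * d) = (2 * qM + 2 * d) + (qM + j * (2 * qM + 2 * d)) := by
      ring
    rw [e]
    convert h1 using 2 with x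
    ext c u
    simp only [Matrix.of_apply, Matrix.mul_apply]
    rw [pow_succ', ← Matrix.mulVec_mulVec]
    rfl

omit [DecidableEq γ] in
/-- superposition over the number of iterations -/
theorem samp_avg {q J : ℕ} (hJ : 1 ≤ J) (v : Fin J → (ι → Bool) → γ → ℂ)
    (hv : ∀ j, QVec q (v j)) :
    Samp q (fun x c => (∑ j, ‖v j x c‖ ^ 2) / J) := by
  have hJ0 : (0 : ℝ) < J := by exact_mod_cast hJ
  set a : ℂ := (((Real.sqrt J)⁻¹ : ℝ) : ℂ) with ha
  have ha2 : ‖a‖ ^ 2 = 1 / J := by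
    rw [ha, Complex.norm_real, Real.norm_eq_abs, sq_abs, inv_pow, Real.sq_sqrt hJ0.le, one_div]
  have h1 := QFam.bd (κ := Fin J) (M := fun j x => Matrix.of fun b (_ : Unit) => v j x b) hv
  have h2 : QFam (ι := ι) 0 (Fin J × Unit)
      (fun _ => Matrix.of fun (_ : Fin J × Unit) (_ : Unit) => a) := by
    refine QFam.const (IsContr.col (g := fun _ : Fin J × Unit => a) ?_)
    rw [Finset.sum_const, ha2, nsmul_eq_mul]
    simp
    rw [mul_inv_cancel₀ hJ0.ne']
  have h3 := QFam.mul h1 h2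
  refine ⟨Fin J, inferInstance, fun x k => a * v k.1 x k.2, ?_, ?_⟩
  · unfold QVec
    rw [add_zero] at h3
    convert h3 using 2 with x
    ext k u
    simp only [Matrix.of_apply, Matrix.mul_apply, P362.bd, Fintype.sum_prod_type]
    simp [mul_comm]
  · intro x c
    have : ∀ k : Fin J, ‖a * v k x c‖ ^ 2 = (1 / J) * ‖v k x c‖ ^ 2 := by
      intro k
      rw [norm_mul, mul_pow, ha2]
    simp only [this]
    rw [← Finset.mul_sum]
    ring

theorem ampSample [Nonempty ι] {γ : Type} [Fintype γ] [DecidableEq γ] {qM : ℕ}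
    (M : (ι → Bool) → Matrix γ γ ℂ) (hM : QFam qM γ M)
    (hMu : ∀ x, M x ∈ Matrix.unitaryGroup γ ℂ) (s0 : γ → ℂ) (hs0 : ∑ c, ‖s0 c‖ ^ 2 = 1)
    (T : γ → DTree ι Bool) (d : ℕ) (hd : ∀ c, (T c).depth ≤ d) (J : ℕ) (hJ : 1 ≤ J) :
    ∃ pr : (ι → Bool) → γ → ℝ, Samp (qM + J * (2 * qM + 2 * d)) pr ∧
      (∀ x c, 0 ≤ pr x c) ∧ (∀ x, ∑ c, pr x c = 1) ∧
      ∀ x (W : ℝ), W = (∑ c, if (T c).eval x then ‖(M x *ᵥ s0) c‖ ^ 2 else 0) → 0 < W → W ≤ 1 / 4 →
        1 ≤ (J : ℝ) ^ 2 * W → ∃ σ : ℝ, 1 / 4 ≤ σ ∧ σ ≤ 1 ∧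
          ∀ c, (T c).eval x = true → pr x c = σ * (‖(M x *ᵥ s0) c‖ ^ 2 / W) := by
  have hJ0 : (0 : ℝ) < J := by exact_mod_cast hJ
  have hs : ∀ x, ∑ c, ‖(M x *ᵥ s0) c‖ ^ 2 = 1 := fun x => by
    rw [norm_mulVec_unitary (hMu x), hs0]
  set v : Fin J → (ι → Bool) → γ → ℂ := fun j x =>
    (grov (M x *ᵥ s0) (fun c => (T c).eval x)) ^ (j : ℕ) *ᵥ (M x *ᵥ s0) with hv
  refine ⟨fun x c => (∑ j, ‖v j x c‖ ^ 2) / J, samp_avg hJ v ?_, ?_, ?_, ?_⟩
  · intro j
    refine QFam.mono (qfam_grov_pow M hM hMu s0 hs0 T d hd j) ?_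
    exact Nat.add_le_add_left (Nat.mul_le_mul_right _ j.2.le) _
  · intro x c
    positivity
  · intro x
    rw [← Finset.sum_div, Finset.sum_comm]
    have : ∀ j : Fin J, ∑ c, ‖v j x c‖ ^ 2 = 1 := fun j => grov_norm _ _ (hs x) _
    simp only [this]
    rw [Finset.sum_const, Finset.card_univ, Fintype.card_fin, nsmul_eq_mul, mul_one,
      div_self hJ0.ne']
  · intro x W hW hW0 hW1 hJW
    set θ := Real.arcsin (Real.sqrt W) with hθdef
    have hsq : Real.sqrt W ≤ 1 / 2 := by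
      rw [show (1 / 2 : ℝ) = Real.sqrt (1 / 4) by
        rw [show (1 / 4 : ℝ) = (1 / 2) ^ 2 by norm_num, Real.sqrt_sq (by norm_num)]]
      exact Real.sqrt_le_sqrt hW1
    have hsq0 : 0 < Real.sqrt W := Real.sqrt_pos.mpr hW0
    have hsin : Real.sin θ = Real.sqrt W := Real.sin_arcsin (by linarith) (by linarith)
    have hθ0 : 0 < θ := Real.arcsin_pos.mpr hsq0
    have hθ1 : θ < Real.pi / 2 := Real.arcsin_lt_pi_div_two.mpr (by linarith)
    have hsin2 : Real.sin θ ^ 2 = W := by rw [hsin, Real.sq_sqrt hW0.le]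
    have hJs : 1 ≤ (J : ℝ) * Real.sin θ := by
      rw [hsin]
      have h1 : ((J : ℝ) * Real.sqrt W) ^ 2 = (J : ℝ) ^ 2 * W := by
        rw [mul_pow, Real.sq_sqrt hW0.le]
      have h2 : 0 ≤ (J : ℝ) * Real.sqrt W := by positivity
      nlinarith
    have havg := avg_sin_sq θ hθ0 hθ1 (by rw [hsin2]; exact hW1) J hJs
    refine ⟨(∑ j ∈ Finset.range J, Real.sin ((2 * j + 1) * θ) ^ 2) / J, havg, ?_, ?_⟩
    · rw [div_le_one hJ0]
      calc ∑ j ∈ Finset.range J, Real.sin ((2 * j + 1) * θ) ^ 2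
          ≤ ∑ j ∈ Finset.range J, (1 : ℝ) := Finset.sum_le_sum fun j _ => Real.sin_sq_le_one _
        _ = J := by simp
    · intro c hc
      have hg := grov_iter (M x *ᵥ s0) (fun c => (T c).eval x) (hs x) θ hθ0 hθ1
        (by rw [hsin2]; exact hW)
      have h1 : ∀ j : Fin J, ‖v j x c‖ ^ 2 =
          Real.sin ((2 * (j : ℕ) + 1) * θ) ^ 2 * (‖(M x *ᵥ s0) c‖ ^ 2 / W) := by
        intro j
        have h2 := hg j c
        rw [hv]
        simp only
        rw [h2]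
        simp only [hc, if_true]
        rw [norm_mul, Complex.norm_real, Real.norm_eq_abs, mul_pow, sq_abs, div_pow, hsin2]
        ring
      simp only
      rw [Finset.sum_congr rfl fun j _ => h1 j, ← Finset.sum_mul,
        Fin.sum_univ_eq_sum_range (fun j => Real.sin ((2 * (j : ℝ) + 1) * θ) ^ 2) J]
      ring

end P362
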