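import Vale.Agent.P362.CalcDefs

/-!
# P362, module CALC: closure properties of `QFam`
-/

namespace P362

open scoped BigOperators Matrix

variable {ι : Type} [Fintype ι] [DecidableEq ι]
variable {α β γ κ : Type} [Fintype α] [Fintype β] [Fintype γ] [Fintype κ]

/-! ### auxiliary facts -/

theorem star_dot_self (v : α → ℂ) : star v ⬝ᵥ v = ((∑ a, ‖v a‖ ^ 2 : ℝ) : ℂ) := by
  unfold dotProduct
  push_cast
  refine Finset.sum_congr rfl fun a _ => ?_
  rw [Pi.star_apply, Complex.star_def, Complex.conj_mul']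

/-- an isometry preserves the norm -/
theorem nsq_of_isom [DecidableEq α] {C : Matrix β α ℂ} (h : Cᴴ * C = 1) (v : α → ℂ) :
    ∑ b, ‖(C *ᵥ v) b‖ ^ 2 = ∑ a, ‖v a‖ ^ 2 := by
  have h1 : star (C *ᵥ v) ⬝ᵥ (C *ᵥ v) = star v ⬝ᵥ v := by
    rw [Matrix.star_mulVec, Matrix.dotProduct_mulVec, Matrix.vecMul_vecMul, h, Matrix.vecMul_one]
  rw [star_dot_self, star_dot_self] at h1
  exact_mod_cast h1

theorem IsContr.of_isom [DecidableEq α] {C : Matrix β α ℂ} (h : Cᴴ * C = 1) : IsContr C :=
  fun v => (nsq_of_isom h v).le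

theorem IsContr.mul {C : Matrix β γ ℂ} {D : Matrix γ α ℂ} (hC : IsContr C) (hD : IsContr D) :
    IsContr (C * D) := by
  intro v
  rw [← Matrix.mulVec_mulVec]
  exact (hC _).trans (hD v)

theorem IsContr.adj {C : Matrix β α ℂ} (hC : IsContr C) : IsContr Cᴴ := by
  intro w
  have h1 : star (Cᴴ *ᵥ w) ⬝ᵥ (Cᴴ *ᵥ w) = star (C *ᵥ (Cᴴ *ᵥ w)) ⬝ᵥ w := by
    rw [Matrix.star_mulVec C, Matrix.dotProduct_mulVec]
  rw [star_dot_self] at h1
  have h2 := hC (Cᴴ *ᵥ w)
  have h3 : (star (C *ᵥ (Cᴴ *ᵥ w)) ⬝ᵥ w).re ≤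
      (∑ b, ‖(C *ᵥ (Cᴴ *ᵥ w)) b‖ ^ 2 + ∑ b, ‖w b‖ ^ 2) / 2 := by
    unfold dotProduct
    rw [Complex.re_sum, ← Finset.sum_add_distrib, Finset.sum_div]
    refine Finset.sum_le_sum fun b _ => ?_
    refine (Complex.re_le_norm _).trans ?_
    rw [norm_mul, Pi.star_apply, norm_star]
    nlinarith [sq_nonneg (‖(C *ᵥ (Cᴴ *ᵥ w)) b‖ - ‖w b‖)]
  rw [← h1, Complex.ofReal_re] at h3
  linarith

theorem IsContr.of_unitary [DecidableEq α] {C : Matrix α α ℂ}
    (hC : C ∈ Matrix.unitaryGroup α ℂ) : IsContr C :=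
  IsContr.of_isom (Matrix.mem_unitaryGroup_iff'.1 hC)

theorem IsContr.one [DecidableEq α] : IsContr (1 : Matrix α α ℂ) := by
  intro v
  rw [Matrix.one_mulVec]

theorem IsContr.diag [DecidableEq α] {g : α → ℂ} (hg : ∀ a, ‖g a‖ ≤ 1) :
    IsContr (Matrix.diagonal g) := by
  intro v
  refine Finset.sum_le_sum fun a _ => ?_
  rw [Matrix.mulVec_diagonal, norm_mul, mul_pow]
  exact mul_le_of_le_one_left (by positivity) (pow_le_one₀ (norm_nonneg _) (hg a))

theorem IsContr.col {g : α → ℂ} (hg : ∑ a, ‖g a‖ ^ 2 ≤ 1) :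
    IsContr (Matrix.of fun a (_ : Unit) => g a) := by
  intro v
  have h : ∀ a, ((Matrix.of fun a (_ : Unit) => g a) *ᵥ v) a = g a * v () := by
    intro a
    simp [Matrix.mulVec, dotProduct]
  simp only [h, norm_mul, mul_pow]
  rw [← Finset.sum_mul]
  simp only [Finset.univ_unique, PUnit.default_eq_unit, Finset.sum_singleton]
  exact mul_le_of_le_one_left (by positivity) hg

theorem bd_mulVec [DecidableEq κ] (M : κ → Matrix β α ℂ) (v : κ × α → ℂ) (c : κ) (b : β) :
    (bd M *ᵥ v) (c, b) = (M c *ᵥ fun a => v (c, a)) b := by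
  unfold Matrix.mulVec dotProduct bd
  rw [Fintype.sum_prod_type]
  simp only
  rw [Finset.sum_eq_single c]
  · simp
  · intro c' _ hc
    refine Finset.sum_eq_zero fun a _ => ?_
    rw [if_neg (Ne.symm hc), zero_mul]
  · intro h
    exact absurd (Finset.mem_univ c) h

theorem bd_mul [DecidableEq κ] (M : κ → Matrix β γ ℂ) (M' : κ → Matrix γ α ℂ) :
    bd M * bd M' = bd fun c => M c * M' c := by
  ext s t
  obtain ⟨c, b⟩ := s
  obtain ⟨c', a⟩ := t
  rw [Matrix.mul_apply, Fintype.sum_prod_type]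
  unfold bd
  simp only
  rw [Finset.sum_eq_single c]
  · by_cases h : c = c'
    · subst h
      simp [Matrix.mul_apply]
    · simp [h]
  · intro d _ hd
    refine Finset.sum_eq_zero fun a _ => ?_
    rw [if_neg (Ne.symm hd), zero_mul]
  · intro h
    exact absurd (Finset.mem_univ c) h

theorem IsContr.bd [DecidableEq κ] {M : κ → Matrix β α ℂ} (h : ∀ c, IsContr (M c)) :
    IsContr (bd M) := by
  intro v
  rw [Fintype.sum_prod_type, Fintype.sum_prod_type]
  refine Finset.sum_le_sum fun c _ => ?_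
  simp only [bd_mulVec]
  exact h c _

/-! ### embeddings of basis states -/

/-- the 0/1 matrix of a map of basis states -/
def emb [DecidableEq β] (e : α → β) : Matrix β α ℂ := fun s t => if s = e t then 1 else 0

theorem emb_adj_mul [DecidableEq β] (e : α → β) (A : Matrix β γ ℂ) (s : α) (t : γ) :
    ((emb e)ᴴ * A) s t = A (e s) t := by
  rw [Matrix.mul_apply]
  simp [emb, Matrix.conjTranspose_apply]

theorem mul_emb_apply [DecidableEq β] (e : α → β) (A : Matrix γ β ℂ) (s : γ) (t : α) :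
    (A * emb e) s t = A s (e t) := by
  rw [Matrix.mul_apply]
  simp [emb]

theorem emb_conj [DecidableEq β] (e : α → β) (A : Matrix β β ℂ) :
    (emb e)ᴴ * (A * emb e) = A.submatrix e e := by
  ext s t
  rw [emb_adj_mul, mul_emb_apply]
  rfl

theorem emb_isom [DecidableEq α] [DecidableEq β] {e : α → β} (he : Function.Injective e) :
    (emb e)ᴴ * emb e = 1 := by
  ext s t
  rw [emb_adj_mul]
  simp [emb, Matrix.one_apply, he.eq_iff]

theorem IsContr.emb [DecidableEq β] {e : α → β} (he : Function.Injective e) :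
    IsContr (emb e) := by
  classical
  exact IsContr.of_isom (emb_isom he)

/-! ### the oracle -/

theorem oracle_mulVec {Z : Type} [Fintype Z] [DecidableEq Z] (x : ι → Bool)
    (v : ι × Bool × Z → ℂ) (s : ι × Bool × Z) :
    (oracle x *ᵥ v) s = v (s.1, xor s.2.1 (x s.1), s.2.2) := by
  unfold Matrix.mulVec dotProduct oracle
  rw [Finset.sum_eq_single (s.1, xor s.2.1 (x s.1), s.2.2)]
  · simp
  · intro t _ ht
    have h : ¬ s = (t.1, xor t.2.1 (x t.1), t.2.2) := by
      intro h
      apply ht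
      rw [h]
      simp
    simp only [h, if_false, zero_mul]
  · intro h
    exact absurd (Finset.mem_univ _) h

theorem oracle_adj {Z : Type} [Fintype Z] [DecidableEq Z] (x : ι → Bool) :
    (oracle x : Matrix (ι × Bool × Z) (ι × Bool × Z) ℂ)ᴴ = oracle x := by
  ext s t
  obtain ⟨i, b, z⟩ := s
  obtain ⟨j, c, w⟩ := t
  simp only [Matrix.conjTranspose_apply, oracle]
  by_cases h : (j, c, w) = (i, xor b (x i), z)
  · rw [if_pos h]
    simp only [Prod.mk.injEq] at h
    obtain ⟨rfl, rfl, rfl⟩ := h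
    rw [if_pos (by simp), star_one]
  · rw [if_neg h, if_neg, star_zero]
    intro h'
    apply h
    simp only [Prod.mk.injEq] at h' ⊢
    obtain ⟨rfl, rfl, rfl⟩ := h'
    simp

theorem oracle_mul_self {Z : Type} [Fintype Z] [DecidableEq Z] (x : ι → Bool) :
    (oracle x : Matrix (ι × Bool × Z) (ι × Bool × Z) ℂ) * oracle x = 1 := by
  apply Matrix.ext_of_mulVec_single
  intro t
  rw [← Matrix.mulVec_mulVec, Matrix.one_mulVec]
  ext s
  rw [oracle_mulVec, oracle_mulVec]
  simp

theorem oracle_unitary {Z : Type} [Fintype Z] [DecidableEq Z] (x : ι → Bool) :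
    (oracle x : Matrix (ι × Bool × Z) (ι × Bool × Z) ℂ) ∈ Matrix.unitaryGroup (ι × Bool × Z) ℂ := by
  rw [Matrix.mem_unitaryGroup_iff, Matrix.star_eq_conjTranspose, oracle_adj, oracle_mul_self]

theorem IsContr.oracle {Z : Type} [Fintype Z] [DecidableEq Z] (x : ι → Bool) :
    IsContr (oracle x : Matrix (ι × Bool × Z) (ι × Bool × Z) ℂ) :=
  IsContr.of_unitary (oracle_unitary x)

/-! ### query families -/

theorem QFam.const {C : Matrix β α ℂ} (hC : IsContr C) :
    QFam (ι := ι) 0 β (fun _ => C) := ⟨C, hC, fun _ => rfl⟩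

theorem QFam.congr {q : ℕ} {M M' : (ι → Bool) → Matrix β α ℂ} (h : QFam q β M)
    (hM : ∀ x, M x = M' x) : QFam q β M' := by
  have : M = M' := funext hM
  exact this ▸ h

theorem QFam.contr {q : ℕ} {M : (ι → Bool) → Matrix β α ℂ} (h : QFam q β M) (x : ι → Bool) :
    IsContr (M x) := by
  induction q generalizing β with
  | zero =>
    obtain ⟨C, hC, hM⟩ := h
    rw [hM]
    exact hC
  | succ q ih =>
    obtain ⟨Z, fZ, dZ, C, M', hC, hM', hM⟩ := h
    rw [hM]
    exact hC.mul ((IsContr.oracle x).mul (ih hM'))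

/-- post-composition with a fixed contraction -/
theorem QFam.post {q : ℕ} {C : Matrix β γ ℂ} (hC : IsContr C) {M : (ι → Bool) → Matrix γ α ℂ}
    (h : QFam q γ M) : QFam q β (fun x => C * M x) := by
  cases q with
  | zero =>
    obtain ⟨C', hC', hM⟩ := h
    exact ⟨C * C', hC.mul hC', fun x => by simp only [hM]⟩
  | succ q =>
    obtain ⟨Z, fZ, dZ, C', M', hC', hM', hM⟩ := h
    exact ⟨Z, fZ, dZ, C * C', M', hC.mul hC', hM', fun x => by simp only [hM, Matrix.mul_assoc]⟩

theorem QFam.mul {q q' : ℕ} {M : (ι → Bool) → Matrix β γ ℂ} {M' : (ι → Bool) → Matrix γ α ℂ}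
    (h : QFam q β M) (h' : QFam q' γ M') : QFam (q + q') β (fun x => M x * M' x) := by
  induction q generalizing β with
  | zero =>
    obtain ⟨C, hC, hM⟩ := h
    rw [Nat.zero_add]
    exact (QFam.post hC h').congr fun x => by rw [hM]
  | succ q ih =>
    obtain ⟨Z, fZ, dZ, C, N, hC, hN, hM⟩ := h
    rw [Nat.succ_add]
    exact ⟨Z, fZ, dZ, C, fun x => N x * M' x, hC, ih hN, fun x => by
      simp only [hM, Matrix.mul_assoc]⟩

/-- pre-composition with a fixed contraction -/
theorem QFam.pre {q : ℕ} {C : Matrix γ α ℂ} (hC : IsContr C) {M : (ι → Bool) → Matrix β γ ℂ}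
    (h : QFam q β M) : QFam q β (fun x => M x * C) :=
  QFam.mul (q' := 0) h (QFam.const hC)

/-- one oracle call -/
theorem QFam.orac {Z : Type} [Fintype Z] [DecidableEq Z] :
    QFam (ι := ι) 1 (ι × Bool × Z)
      (fun x => (P362.oracle x : Matrix (ι × Bool × Z) (ι × Bool × Z) ℂ)) :=
  ⟨Z, inferInstance, inferInstance, 1, fun _ => 1, IsContr.one, QFam.const IsContr.one,
    fun x => by simp only [Matrix.mul_one, Matrix.one_mul]⟩

theorem QFam.adj {q : ℕ} {M : (ι → Bool) → Matrix β α ℂ} (h : QFam q β M) :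
    QFam q α (fun x => (M x)ᴴ) := by
  induction q generalizing β with
  | zero =>
    obtain ⟨C, hC, hM⟩ := h
    exact ⟨Cᴴ, hC.adj, fun x => by simp only [hM]⟩
  | succ q ih =>
    obtain ⟨Z, fZ, dZ, C, M', hC, hM', hM⟩ := h
    have h1 := (ih hM').mul ((QFam.orac (ι := ι) (Z := Z)).pre hC.adj)
    refine h1.congr fun x => ?_
    rw [hM, Matrix.conjTranspose_mul, Matrix.conjTranspose_mul, oracle_adj, Matrix.mul_assoc]

/-- one padding query -/
theorem QFam.pad_one [Nonempty ι] [DecidableEq α] :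
    QFam (ι := ι) 1 α (fun _ => (1 : Matrix α α ℂ)) := by
  obtain ⟨i₀⟩ := ‹Nonempty ι›
  set c : ℂ := ((Real.sqrt (1 / 2) : ℝ) : ℂ) with hc
  have hcc : star c * c = 1 / 2 := by
    rw [hc, Complex.star_def, Complex.conj_ofReal, ← Complex.ofReal_mul,
      Real.mul_self_sqrt (by norm_num)]
    push_cast
    ring
  let J : Matrix (ι × Bool × α) α ℂ := Matrix.of fun s a => if s.1 = i₀ ∧ s.2.2 = a then c else 0
  have hJa : ∀ s a, J s a = if s.1 = i₀ ∧ s.2.2 = a then c else 0 := fun _ _ => rfl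
  have hJ : Jᴴ * J = 1 := by
    ext a b
    rw [Matrix.mul_apply, Fintype.sum_prod_type, Finset.sum_eq_single i₀]
    · rw [Fintype.sum_prod_type]
      simp only [Fintype.sum_bool, Matrix.conjTranspose_apply, hJa, true_and]
      by_cases hab : a = b
      · subst hab
        rw [Matrix.one_apply_eq, Finset.sum_eq_single a]
        · simp only [if_true, hcc]
          norm_num
        · intro d _ hd
          simp [hd]
        · intro h
          exact absurd (Finset.mem_univ _) h
      · rw [Matrix.one_apply_ne hab]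
        have : ∀ d : α, star (if d = a then c else 0) * (if d = b then c else 0) = 0 := by
          intro d
          by_cases h1 : d = a
          · subst h1; simp [hab]
          · simp [h1]
        simp only [this, Finset.sum_const_zero, add_zero]
    · intro i _ hi
      refine Finset.sum_eq_zero fun s _ => ?_
      simp [hJa, Matrix.conjTranspose_apply, hi]
    · intro h
      exact absurd (Finset.mem_univ _) h
  have hJc : IsContr J := IsContr.of_isom hJ
  refine ⟨α, inferInstance, inferInstance, Jᴴ, fun _ => J, hJc.adj, QFam.const hJc, fun x => ?_⟩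
  have : (oracle x : Matrix (ι × Bool × α) (ι × Bool × α) ℂ) * J = J := by
    ext s a
    have h1 : ((oracle x : Matrix (ι × Bool × α) (ι × Bool × α) ℂ) * J) s a =
      (oracle x *ᵥ fun t => J t a) s := rfl
    rw [h1, oracle_mulVec, hJa, hJa]
  simp only [this, hJ]

theorem QFam.mono [Nonempty ι] {q q' : ℕ} {M : (ι → Bool) → Matrix β α ℂ} (h : QFam q β M)
    (hq : q ≤ q') : QFam q' β M := by
  classical
  induction q', hq using Nat.le_induction with
  | base => exact h
  | succ q' _ ih =>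
    rw [Nat.add_comm]
    exact ((QFam.pad_one (ι := ι) (α := β)).mul ih).congr fun x => by rw [Matrix.one_mul]

/-- changing the workspace of an oracle call along an injection -/
theorem oracle_emb {Z Z' : Type} [Fintype Z] [DecidableEq Z] [Fintype Z'] [DecidableEq Z']
    {e : Z → Z'} (he : Function.Injective e) (x : ι → Bool) :
    (emb (fun t : ι × Bool × Z => ((t.1, t.2.1, e t.2.2) : ι × Bool × Z')))ᴴ *
      ((oracle x : Matrix (ι × Bool × Z') (ι × Bool × Z') ℂ) *
        emb (fun t : ι × Bool × Z => ((t.1, t.2.1, e t.2.2) : ι × Bool × Z'))) =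
      (oracle x : Matrix (ι × Bool × Z) (ι × Bool × Z) ℂ) := by
  rw [emb_conj]
  ext s t
  simp only [Matrix.submatrix_apply, oracle, Prod.mk.injEq, Prod.ext_iff, he.eq_iff]

theorem oracle_bd [DecidableEq κ] {Z : Type} [Fintype Z] [DecidableEq Z] (x : ι → Bool) :
    (emb (fun t : κ × ι × Bool × Z => ((t.2.1, t.2.2.1, (t.1, t.2.2.2)) : ι × Bool × κ × Z)))ᴴ *
      ((oracle x : Matrix (ι × Bool × κ × Z) (ι × Bool × κ × Z) ℂ) * emb
        (fun t : κ × ι × Bool × Z => ((t.2.1, t.2.2.1, (t.1, t.2.2.2)) : ι × Bool × κ × Z))) =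
      bd fun _ => (oracle x : Matrix (ι × Bool × Z) (ι × Bool × Z) ℂ) := by
  rw [emb_conj]
  ext s t
  obtain ⟨c, i, b, z⟩ := s
  obtain ⟨c', i', b', z'⟩ := t
  simp only [Matrix.submatrix_apply, oracle, bd, Prod.mk.injEq]
  by_cases hc : c = c'
  · simp [hc]
  · simp [hc]

theorem QFam.bd [DecidableEq κ] {q : ℕ} {M : κ → (ι → Bool) → Matrix β α ℂ}
    (h : ∀ c, QFam q β (M c)) : QFam q (κ × β) (fun x => P362.bd fun c => M c x) := by
  classical
  induction q generalizing β with
  | zero =>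
    choose C hC hM using h
    exact ⟨P362.bd C, IsContr.bd hC, fun x => by simp only [hM]⟩
  | succ q ih =>
    choose Z fZ dZ C M' hC hM' hM using h
    let W : Type := Σ c, Z c
    let e : ∀ c, ι × Bool × Z c → ι × Bool × W := fun c t => (t.1, t.2.1, ⟨c, t.2.2⟩)
    have he0 : ∀ c, Function.Injective (fun z : Z c => (⟨c, z⟩ : W)) := fun c =>
      sigma_mk_injective
    have he : ∀ c, Function.Injective (e c) := by
      intro c s t hst
      simp only [e, Prod.mk.injEq] at hst
      exact Prod.ext hst.1 (Prod.ext hst.2.1 (he0 c hst.2.2))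
    have h1 : QFam q (κ × (ι × Bool × W)) (fun x => P362.bd fun c => emb (e c) * M' c x) :=
      ih fun c => QFam.post (IsContr.emb (he c)) (hM' c)
    let p : κ × ι × Bool × W → ι × Bool × κ × W := fun t => (t.2.1, t.2.2.1, (t.1, t.2.2.2))
    have hp : Function.Injective p := by
      intro s t hst
      obtain ⟨c, i, b, z⟩ := s
      obtain ⟨c', i', b', z'⟩ := t
      simp only [p, Prod.mk.injEq] at hst
      obtain ⟨rfl, rfl, rfl, rfl⟩ := hst
      rfl
    refine ⟨κ × W, inferInstance, inferInstance,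
      P362.bd (fun c => C c * (emb (e c))ᴴ) * (emb p)ᴴ,
      fun x => emb p * P362.bd (fun c => emb (e c) * M' c x), ?_, QFam.post (IsContr.emb hp) h1, ?_⟩
    · exact (IsContr.bd fun c => (hC c).mul (IsContr.emb (he c)).adj).mul (IsContr.emb hp).adj
    · intro x
      have h2 : (emb p)ᴴ * ((P362.oracle x : Matrix (ι × Bool × κ × W) (ι × Bool × κ × W) ℂ) *
          (emb p * P362.bd (fun c => emb (e c) * M' c x))) =
          P362.bd (fun c => (P362.oracle x : Matrix (ι × Bool × W) (ι × Bool × W) ℂ) *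
            (emb (e c) * M' c x)) := by
        have h3 := oracle_bd (κ := κ) (Z := W) x
        rw [← bd_mul, ← h3]
        simp only [Matrix.mul_assoc]
        rfl
      rw [Matrix.mul_assoc, h2, bd_mul]
      have h5 : ∀ c, M c x = C c * (emb (e c))ᴴ *
          ((P362.oracle x : Matrix (ι × Bool × W) (ι × Bool × W) ℂ) * (emb (e c) * M' c x)) := by
        intro c
        have h4 := oracle_emb (he0 c) x
        rw [hM, ← h4]
        simp only [Matrix.mul_assoc]
        rfl
      simp only [h5]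

/-- one query: the column `(1[x_i = 0], 1[x_i = 1])` -/
theorem QFam.query (i : ι) :
    QFam (ι := ι) 1 Bool (fun x => Matrix.of fun b (_ : Unit) => if b = x i then 1 else 0) := by
  have h1 : Function.Injective (fun b : Bool => ((i, b, ()) : ι × Bool × Unit)) := by
    intro a b h
    simpa using h
  have h2 : Function.Injective (fun _ : Unit => ((i, false, ()) : ι × Bool × Unit)) := by
    intro a b _
    rfl
  refine ((QFam.orac (ι := ι) (Z := Unit)).pre (IsContr.emb h2)).post (IsContr.emb h1).adj |>.congr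
    fun x => ?_
  ext b u
  rw [emb_adj_mul, mul_emb_apply]
  simp [oracle]

end P362
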