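import Vale.Agent.P362.Model

/-!
# P362: calculus of contraction-valued query families (definitions)
-/

namespace P362

open scoped BigOperators Matrix

/-- contraction matrices -/
def IsContr {α β : Type} [Fintype α] [Fintype β] (C : Matrix β α ℂ) : Prop :=
  ∀ v : α → ℂ, ∑ b, ‖(C *ᵥ v) b‖ ^ 2 ≤ ∑ a, ‖v a‖ ^ 2

variable {ι : Type} [Fintype ι] [DecidableEq ι]

/-- `QFam q β M`: the matrix family `x ↦ M x` is a product of fixed contractions interleaved with
exactly `q` oracle calls (each on some `ι × Bool × Z`). -/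
def QFam {α : Type} [Fintype α] : (q : ℕ) → (β : Type) → [Fintype β] →
    ((ι → Bool) → Matrix β α ℂ) → Prop
  | 0, β, _, M => ∃ C : Matrix β α ℂ, IsContr C ∧ ∀ x, M x = C
  | q + 1, β, _, M => ∃ (Z : Type) (_ : Fintype Z) (_ : DecidableEq Z)
      (C : Matrix β (ι × Bool × Z) ℂ) (M' : (ι → Bool) → Matrix (ι × Bool × Z) α ℂ),
      IsContr C ∧ QFam q (ι × Bool × Z) M' ∧
        ∀ x, M x = C * ((oracle x : Matrix (ι × Bool × Z) (ι × Bool × Z) ℂ) * M' x)

/-- vector families -/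
def QVec {β : Type} [Fintype β] (q : ℕ) (v : (ι → Bool) → β → ℂ) : Prop :=
  QFam (α := Unit) q β (fun x => Matrix.of fun b (_ : Unit) => v x b)

/-- `p` is the squared norm of a `q`-query vector family -/
def AccFam (q : ℕ) (p : (ι → Bool) → ℝ) : Prop :=
  ∃ (β : Type) (_ : Fintype β) (v : (ι → Bool) → β → ℂ), QVec q v ∧ ∀ x, p x = ∑ b, ‖v x b‖ ^ 2

/-- `pr x` is the outcome distribution on `γ` of a `q`-query quantum sampler -/
def Samp {γ : Type} [Fintype γ] (q : ℕ) (pr : (ι → Bool) → γ → ℝ) : Prop :=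
  ∃ (κ : Type) (_ : Fintype κ) (v : (ι → Bool) → κ × γ → ℂ), QVec q v ∧
    ∀ x c, pr x c = ∑ k, ‖v x (k, c)‖ ^ 2

/-- block-diagonal matrix -/
def bd {κ α β : Type} [DecidableEq κ] (M : κ → Matrix β α ℂ) : Matrix (κ × β) (κ × α) ℂ :=
  fun s t => if s.1 = t.1 then M s.1 s.2 t.2 else 0

end P362
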