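import Vale.Agent.P362.Func

/-!
# P362: multilinear extensions and their derivatives
-/

namespace P362

open scoped BigOperators

/-- real sign of a bit -/
def sR (b : Bool) : ℝ := if b then -1 else 1

/-- `∂_S` of the multilinear extension of `g`, at the point `z`. -/
noncomputable def mle {I : Type} [Fintype I] [DecidableEq I] (g : (I → Bool) → ℝ) (S : Finset I)
    (z : I → ℝ) : ℝ :=
  ∑ y : I → Bool, g y * ∏ i, (if i ∈ S then sR (y i) / 2 else (1 + sR (y i) * z i) / 2)

/-- the real-valued 0/1 function computed by a decision tree -/
def DTree.ind {I : Type} (T : DTree I Bool) (y : I → Bool) : ℝ := if T.eval y then 1 else 0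

end P362
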