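import Vale.Agent.P362.Link
import Vale.Agent.P362.Mle

/-!
# P362, module CHAIN (sections 3.1, 3.2 of the note): chains of Gaussian links, moments and the
interpolation identity
-/

namespace P362

open MeasureTheory ProbabilityTheory
open Vale.Agent.P150
open scoped BigOperators

namespace Link

set_option linter.unusedSectionVars false

variable {V : Type} [Fintype V] [DecidableEq V]

/-- Interpolation parameter of link `l`. -/
noncomputable def tv {r : ℕ} (τ : ℝ) (l : Fin r) : ℝ := if l.val = 0 then τ else 1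

/-- The left factor of `z`. -/
noncomputable def fA {r : ℕ} (η : ℝ) (ω : Fin r → V × Bool → ℝ) (l : Fin (r + 1)) (i : V) : ℝ :=
  Fin.lastCases (motive := fun _ => ℝ) 1 (fun l' => η * u (ω l') i) l

/-- The right factor of `z`. -/
noncomputable def fB {r : ℕ} (H : V → V → ℝ) (η τ : ℝ) (ω : Fin r → V × Bool → ℝ)
    (l : Fin (r + 1)) (i : V) : ℝ :=
  Fin.cases (motive := fun _ => ℝ) 1 (fun l' => η * v H (tv τ l') (ω l') i) l

/-- The random mean vector. -/
noncomputable def zz {r : ℕ} (H : V → V → ℝ) (η τ : ℝ) (ω : Fin r → V × Bool → ℝ)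
    (x : Fin (r + 1) × V) : ℝ :=
  fA η ω x.1 x.2 * fB H η τ ω x.1 x.2

/-- The law of `r` independent links. -/
noncomputable def links (V : Type) [Fintype V] (r : ℕ) : Measure (Fin r → V × Bool → ℝ) :=
  Measure.pi (fun _ : Fin r => stdG (V × Bool))

instance instProbLinks (r : ℕ) : IsProbabilityMeasure (links V r) := by
  unfold links; infer_instance

/-- Slices. -/
def sl {r : ℕ} (S : Finset (Fin (r + 1) × V)) (l : Fin (r + 1)) : Finset V :=
  Finset.univ.filter fun i => (l, i) ∈ S

theorem mem_sl {r : ℕ} {S : Finset (Fin (r + 1) × V)} {l : Fin (r + 1)} {i : V} :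
    i ∈ sl S l ↔ (l, i) ∈ S := by
  unfold sl; simp

/-- The moment of the chain. -/
noncomputable def mm {r : ℕ} (H : V → V → ℝ) (η τ : ℝ) (S : Finset (Fin (r + 1) × V)) : ℝ :=
  ∏ l : Fin r, w H η (tv τ l) (sl S l.castSucc) (sl S l.succ)

variable {H : V → V → ℝ} {η τ : ℝ} {r : ℕ}

theorem prod_sl (S : Finset (Fin (r + 1) × V)) (f : Fin (r + 1) × V → ℝ) :
    ∏ x ∈ S, f x = ∏ l, ∏ i ∈ sl S l, f (l, i) := by
  have h : ∏ x ∈ S, f x = ∏ x, if x ∈ S then f x else 1 := by
    rw [Finset.prod_ite_mem, Finset.univ_inter]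
  rw [h, Fintype.prod_prod_type]
  refine Finset.prod_congr rfl fun l _ => ?_
  unfold sl
  rw [Finset.prod_filter]

theorem prod_zz (S : Finset (Fin (r + 1) × V)) (ω : Fin r → V × Bool → ℝ) :
    ∏ x ∈ S, zz H η τ ω x =
      ∏ l : Fin r, mon H η (tv τ l) (sl S l.castSucc) (sl S l.succ) (ω l) := by
  have hA : ∏ l : Fin (r + 1), ∏ i ∈ sl S l, fA η ω l i =
      ∏ l : Fin r, ∏ i ∈ sl S l.castSucc, η * u (ω l) i := by
    rw [Fin.prod_univ_castSucc]
    simp only [fA, Fin.lastCases_castSucc, Fin.lastCases_last, Finset.prod_const_one, mul_one]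
  have hB : ∏ l : Fin (r + 1), ∏ i ∈ sl S l, fB H η τ ω l i =
      ∏ l : Fin r, ∏ i ∈ sl S l.succ, η * v H (tv τ l) (ω l) i := by
    rw [Fin.prod_univ_succ]
    simp only [fB, Fin.cases_succ, Fin.cases_zero, Finset.prod_const_one, one_mul]
  rw [prod_sl]
  unfold zz
  simp only [Finset.prod_mul_distrib]
  rw [hA, hB, ← Finset.prod_mul_distrib]
  rfl

theorem integrable_prod_zz (S : Finset (Fin (r + 1) × V)) :
    Integrable (fun ω => ∏ x ∈ S, zz H η τ ω x) (links V r) := by
  simp only [prod_zz]
  unfold links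
  exact Integrable.fintype_prod (f := fun (l : Fin r) (ω : V × Bool → ℝ) =>
    mon H η (tv τ l) (sl S l.castSucc) (sl S l.succ) ω) fun l => integrable_mon _ _

theorem integral_prod_zz (S : Finset (Fin (r + 1) × V)) :
    ∫ ω, ∏ x ∈ S, zz H η τ ω x ∂(links V r) = mm H η τ S := by
  simp only [prod_zz]
  unfold links
  rw [integral_fintype_prod_eq_prod (fun (l : Fin r) (ω : V × Bool → ℝ) =>
    mon H η (tv τ l) (sl S l.castSucc) (sl S l.succ) ω)]
  rfl

/-- Expansion of the multilinear extension. -/
theorem mle_expand {I : Type} [Fintype I] [DecidableEq I] (g : (I → Bool) → ℝ) (S : Finset I)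
    (z : I → ℝ) :
    mle g S z = ∑ y : I → Bool, g y * ((1 / 2) ^ Fintype.card I * ((∏ i ∈ S, sR (y i)) *
      ∑ T ∈ Sᶜ.powerset, (∏ i ∈ T, sR (y i)) * ∏ i ∈ T, z i)) := by
  unfold mle
  refine Finset.sum_congr rfl fun y _ => ?_
  congr 1
  have h1 : ∀ i, (if i ∈ S then sR (y i) / 2 else (1 + sR (y i) * z i) / 2) =
      (1 / 2) * (if i ∈ S then sR (y i) else 1 + sR (y i) * z i) := by
    intro i; split_ifs <;> ring
  simp only [h1]
  rw [Finset.prod_mul_distrib, Finset.prod_const, Finset.card_univ]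
  congr 1
  rw [Finset.prod_ite]
  have e1 : Finset.univ.filter (fun i => i ∈ S) = S := by ext; simp
  have e2 : Finset.univ.filter (fun i => i ∉ S) = Sᶜ := by ext; simp
  rw [e1, e2, Finset.prod_one_add]
  congr 1
  refine Finset.sum_congr rfl fun T _ => ?_
  rw [Finset.prod_mul_distrib]

/-- Expectation of the `S`-derivative of the multilinear extension. -/
noncomputable def F (H : V → V → ℝ) (η τ : ℝ) (r : ℕ) (g : (Fin (r + 1) × V → Bool) → ℝ)
    (S : Finset (Fin (r + 1) × V)) : ℝ :=
  ∫ ω, mle g S (zz H η τ ω) ∂(links V r)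

theorem integrable_mle (g : (Fin (r + 1) × V → Bool) → ℝ) (S : Finset (Fin (r + 1) × V)) :
    Integrable (fun ω => mle g S (zz H η τ ω)) (links V r) := by
  simp only [mle_expand]
  refine integrable_finsetSum _ fun y _ => ?_
  refine Integrable.const_mul ?_ _
  refine Integrable.const_mul ?_ _
  refine Integrable.const_mul ?_ _
  refine integrable_finsetSum _ fun T _ => ?_
  exact (integrable_prod_zz T).const_mul _

theorem F_expand (g : (Fin (r + 1) × V → Bool) → ℝ) (S : Finset (Fin (r + 1) × V)) :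
    F H η τ r g S = ∑ y : (Fin (r + 1) × V) → Bool,
      g y * ((1 / 2) ^ Fintype.card (Fin (r + 1) × V) * ((∏ i ∈ S, sR (y i)) *
      ∑ T ∈ Sᶜ.powerset, (∏ i ∈ T, sR (y i)) * mm H η τ T)) := by
  unfold F
  simp only [mle_expand]
  rw [integral_finsetSum]
  · refine Finset.sum_congr rfl fun y _ => ?_
    rw [integral_const_mul, integral_const_mul, integral_const_mul, integral_finsetSum]
    · congr 3
      refine Finset.sum_congr rfl fun T _ => ?_
      rw [integral_const_mul, integral_prod_zz]
    · exact fun T _ => (integrable_prod_zz T).const_mul _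
  · intro y _
    refine Integrable.const_mul ?_ _
    refine Integrable.const_mul ?_ _
    refine Integrable.const_mul ?_ _
    refine integrable_finsetSum _ fun T _ => ?_
    exact (integrable_prod_zz T).const_mul _

/-- A transfer lemma: sums over paths of products of kernels. -/
theorem path_sum : ∀ (r : ℕ) (κ : Fin r → V → V → ℝ) (W : Fin r → ℝ) (a : Fin (r + 1) → Finset V)
    (_ : ∀ l x, x ∈ a l.castSucc → ∑ y, κ l x y = W l)
    (_ : ∀ l x y, y ∉ a l.succ → κ l x y = 0) (x : V) (_ : x ∈ a 0),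
    ∑ i : Fin r → V, ∏ l, κ l ((Fin.cons x i : Fin (r + 1) → V) l.castSucc) (i l) = ∏ l, W l := by
  intro r
  induction r with
  | zero => intro κ W a _ _ x _; simp
  | succ r ih =>
      intro κ W a h hs x hx
      rw [← (Fin.consEquiv (fun _ : Fin (r + 1) => V)).sum_comp, Fintype.sum_prod_type]
      have h1 : ∀ (y : V) (i : Fin r → V),
          ∏ l : Fin (r + 1), κ l ((Fin.cons x ((Fin.consEquiv (fun _ : Fin (r + 1) => V)) (y, i)) :
            Fin (r + 2) → V) l.castSucc) ((Fin.consEquiv (fun _ : Fin (r + 1) => V)) (y, i) l) =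
          κ 0 x y * ∏ l : Fin r, κ l.succ ((Fin.cons y i : Fin (r + 1) → V) l.castSucc) (i l) := by
        intro y i
        rw [Fin.prod_univ_succ]
        rfl
      simp only [h1]
      rw [Fin.prod_univ_succ, ← h 0 x hx, Finset.sum_mul]
      refine Finset.sum_congr rfl fun y _ => ?_
      rw [← Finset.mul_sum]
      by_cases hy : y ∈ a 1
      · rw [ih (fun l => κ l.succ) (fun l => W l.succ) (fun l => a l.succ)
          (fun l x hx => h l.succ x (by simpa using hx)) (fun l x y hy => hs l.succ x y hy) y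
          (by simpa using hy)]
      · rw [hs 0 x y hy, zero_mul, zero_mul]

/-- The graph of a path. -/
def graph (i : Fin (r + 1) → V) : Finset (Fin (r + 1) × V) :=
  Finset.univ.filter fun x => x.2 = i x.1

theorem mem_graph {i : Fin (r + 1) → V} {x : Fin (r + 1) × V} :
    x ∈ graph i ↔ x.2 = i x.1 := by unfold graph; simp

theorem graph_subset {i : Fin (r + 1) → V} {S : Finset (Fin (r + 1) × V)} :
    graph i ⊆ S ↔ ∀ l, i l ∈ sl S l := by
  constructor
  · intro h l
    exact mem_sl.2 (h (mem_graph.2 rfl))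
  · rintro h ⟨l, x⟩ hx
    rw [mem_graph] at hx
    simp only at hx
    subst hx
    exact mem_sl.1 (h l)

theorem sl_sdiff (i : Fin (r + 1) → V) (S : Finset (Fin (r + 1) × V)) (l : Fin (r + 1)) :
    sl (S \ graph i) l = (sl S l).erase (i l) := by
  ext x
  simp only [mem_sl, Finset.mem_sdiff, mem_graph, Finset.mem_erase]
  tauto

/-- The derivative of the chain moment. -/
theorem mm_hasDerivAt (horth : ∀ i j, ∑ k, H i k * H j k = if i = j then 1 else 0)
    (hr : 1 ≤ r) (S : Finset (Fin (r + 1) × V)) (τ : ℝ) :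
    HasDerivAt (fun t => mm H η t S)
      (η ^ (2 * r) * ∑ i : Fin (r + 1) → V, (∏ l : Fin r, H (i l.succ) (i l.castSucc)) *
        (if graph i ⊆ S then mm H η τ (S \ graph i) else 0)) τ := by
  obtain ⟨r, rfl⟩ : ∃ r', r = r' + 1 := ⟨r - 1, by omega⟩
  set a : Fin (r + 2) → Finset V := fun l => sl S l with ha
  set W : Fin r → ℝ := fun l => w H η 1 (a l.succ.castSucc) (a l.succ.succ) with hW
  set κ : ℝ → Fin (r + 1) → V → V → ℝ := fun t l x y =>
    if x ∈ a l.castSucc ∧ y ∈ a l.succ then
      η ^ 2 * (H y x * w H η (tv t l) ((a l.castSucc).erase x) ((a l.succ).erase y)) else 0 with hκ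
  have htv0 : ∀ t : ℝ, tv t (0 : Fin (r + 1)) = t := fun t => by simp [tv]
  have htvs : ∀ (t : ℝ) (l : Fin r), tv t l.succ = 1 := fun t l => by simp [tv]
  -- the function
  have e1 : (fun t => mm H η t S) = fun t => w H η t (a 0) (a 1) * ∏ l, W l := by
    funext t
    unfold mm
    rw [Fin.prod_univ_succ, htv0]
    simp only [htvs]
    rfl
  rw [e1]
  refine ((w_hasDerivAt horth (a 0) (a 1) τ).mul_const _).congr_deriv ?_
  -- the sum over paths
  have e2 : ∀ i : Fin (r + 2) → V, η ^ (2 * (r + 1)) * ((∏ l : Fin (r + 1),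
      H (i l.succ) (i l.castSucc)) * (if graph i ⊆ S then mm H η τ (S \ graph i) else 0)) =
      ∏ l : Fin (r + 1), κ τ l (i l.castSucc) (i l.succ) := by
    intro i
    by_cases h : graph i ⊆ S
    · rw [if_pos h]
      rw [graph_subset] at h
      have h2 : ∀ l : Fin (r + 1), κ τ l (i l.castSucc) (i l.succ) =
          η ^ 2 * (H (i l.succ) (i l.castSucc) * w H η (tv τ l)
            ((a l.castSucc).erase (i l.castSucc)) ((a l.succ).erase (i l.succ))) := by
        intro l
        simp only [hκ]
        rw [if_pos ⟨h _, h _⟩]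
      simp only [h2]
      rw [Finset.prod_mul_distrib, Finset.prod_const, Finset.card_univ, Fintype.card_fin,
        Finset.prod_mul_distrib, ← pow_mul]
      unfold mm
      simp only [sl_sdiff]
      rfl
    · rw [if_neg h, mul_zero, mul_zero]
      rw [graph_subset] at h
      push Not at h
      obtain ⟨l, hl⟩ := h
      symm
      -- some factor vanishes
      rcases Fin.eq_castSucc_or_eq_last l with ⟨l', rfl⟩ | rfl
      · refine Finset.prod_eq_zero (Finset.mem_univ l') ?_
        simp only [hκ]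
        rw [if_neg fun h => hl h.1]
      · refine Finset.prod_eq_zero (Finset.mem_univ (Fin.last r)) ?_
        simp only [hκ]
        rw [if_neg fun h => hl (by simpa using h.2)]
  have e2' : η ^ (2 * (r + 1)) * ∑ i : Fin (r + 2) → V, (∏ l : Fin (r + 1),
      H (i l.succ) (i l.castSucc)) * (if graph i ⊆ S then mm H η τ (S \ graph i) else 0) =
      ∑ i : Fin (r + 2) → V, ∏ l : Fin (r + 1), κ τ l (i l.castSucc) (i l.succ) := by
    rw [Finset.mul_sum]
    exact Finset.sum_congr rfl fun i _ => e2 i
  rw [e2']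
  -- split off the first two vertices
  rw [← (Fin.consEquiv (fun _ : Fin (r + 2) => V)).sum_comp, Fintype.sum_prod_type]
  have e3 : ∀ (x : V), ∑ i : Fin (r + 1) → V, ∏ l : Fin (r + 1),
      κ τ l (((Fin.consEquiv (fun _ : Fin (r + 2) => V)) (x, i) : Fin (r + 2) → V) l.castSucc)
        (((Fin.consEquiv (fun _ : Fin (r + 2) => V)) (x, i) : Fin (r + 2) → V) l.succ) =
      ∑ y, κ τ 0 x y * ∏ l, W l := by
    intro x
    rw [← (Fin.consEquiv (fun _ : Fin (r + 1) => V)).sum_comp, Fintype.sum_prod_type]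
    refine Finset.sum_congr rfl fun y _ => ?_
    have h1 : ∀ i : Fin r → V, ∏ l : Fin (r + 1),
        κ τ l (((Fin.consEquiv (fun _ : Fin (r + 2) => V)) (x,
          (Fin.consEquiv (fun _ : Fin (r + 1) => V)) (y, i)) : Fin (r + 2) → V) l.castSucc)
          (((Fin.consEquiv (fun _ : Fin (r + 2) => V)) (x,
          (Fin.consEquiv (fun _ : Fin (r + 1) => V)) (y, i)) : Fin (r + 2) → V) l.succ) =
        κ τ 0 x y * ∏ l : Fin r, κ τ l.succ ((Fin.cons y i : Fin (r + 1) → V) l.castSucc)
          (i l) := by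
      intro i
      rw [Fin.prod_univ_succ]
      rfl
    simp only [h1]
    rw [← Finset.mul_sum]
    by_cases hy : y ∈ a 1
    · rw [path_sum r (fun l => κ τ l.succ) W (fun l => a l.succ) ?_ ?_ y (by simpa using hy)]
      · intro l x hx
        simp only [hκ, htvs]
        have hx' : x ∈ a l.succ.castSucc := by simpa using hx
        have h3 : ∀ y, (if x ∈ a l.succ.castSucc ∧ y ∈ a l.succ.succ then
            η ^ 2 * (H y x * w H η 1 ((a l.succ.castSucc).erase x) ((a l.succ.succ).erase y))
            else 0) = if y ∈ a l.succ.succ then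
            η ^ 2 * (H y x * w H η 1 ((a l.succ.castSucc).erase x) ((a l.succ.succ).erase y))
            else 0 := by
          intro y
          simp only [hx', true_and]
        simp only [h3]
        rw [Finset.sum_ite_mem, Finset.univ_inter, ← Finset.mul_sum]
        simp only [hW]
        rw [w_stein hx', one_mul]
      · intro l x y hy
        simp only [hκ]
        rw [if_neg fun h => hy h.2]
    · have : κ τ 0 x y = 0 := by
        simp only [hκ]
        rw [if_neg fun h => hy (by simpa using h.2)]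
      rw [this, zero_mul, zero_mul]
  simp only [e3]
  simp only [← Finset.sum_mul]
  congr 1
  rw [Finset.mul_sum]
  have e4 : ∀ x y, κ τ 0 x y = if x ∈ a 0 then (if y ∈ a 1 then
      η ^ 2 * (H y x * w H η τ ((a 0).erase x) ((a 1).erase y)) else 0) else 0 := by
    intro x y
    simp only [hκ, htv0]
    by_cases hx : x ∈ a 0
    · by_cases hy : y ∈ a 1
      · rw [if_pos ⟨by simpa using hx, by simpa using hy⟩, if_pos hx, if_pos hy]
        rfl
      · rw [if_neg fun h => hy (by simpa using h.2), if_pos hx, if_neg hy]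
    · rw [if_neg fun h => hx (by simpa using h.1), if_neg hx]
  have e5 : ∀ x, ∑ y, κ τ 0 x y = if x ∈ a 0 then η ^ 2 * ∑ y ∈ a 1, H y x *
      w H η τ ((a 0).erase x) ((a 1).erase y) else 0 := by
    intro x
    simp only [e4]
    by_cases hx : x ∈ a 0
    · simp only [hx, if_true]
      rw [Finset.sum_ite_mem, Finset.univ_inter, ← Finset.mul_sum]
    · simp only [hx, if_false, Finset.sum_const_zero]
  simp only [e5]
  rw [Finset.sum_ite_mem, Finset.univ_inter]

end Link

end P362
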