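import Vale.Agent.P362.Stein
import Vale.Agent.P362.LinkChain

/-!
# P362, module CHAIN (3.2): the derivative identity (only uses `w1_rec`, `w1_nil`)
-/

namespace P362

open scoped BigOperators

theorem mm_eq_link {n r : ℕ} (hr : 1 ≤ r) (η τ : ℝ) (S : Finset (Fin (r + 1) × V n)) :
    mm η τ S = Link.mm Hd η τ S := by
  obtain ⟨r, rfl⟩ : ∃ r', r = r' + 1 := ⟨r - 1, by omega⟩
  unfold mm Link.mm
  rw [Fin.prod_univ_succ, Fin.prod_univ_succ]
  have h0 : Link.tv τ (0 : Fin (r + 1)) = τ := by simp [Link.tv]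
  have hs : ∀ l : Fin r, Link.tv τ l.succ = 1 := fun l => by simp [Link.tv]
  rw [h0]
  simp only [hs]
  rw [Link.w_scale (τ := τ) Hd_orth' (Link.sl S (0 : Fin (r + 1)).castSucc)
    (Link.sl S (0 : Fin (r + 1)).succ), mul_assoc]
  simp only [w1_eq]
  rfl

theorem gr_eq_graph {n r : ℕ} (i : Fin (r + 1) → V n) : gr i = Link.graph i := by
  unfold gr Link.graph
  ext t
  simp only [Finset.mem_filter, Finset.mem_univ, true_and]
  exact eq_comm

theorem mm_deriv {n r : ℕ} (hr : 1 ≤ r) (η τ : ℝ) (S : Finset (Fin (r + 1) × V n)) :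
    HasDerivAt (fun τ => mm η τ S)
      (∑ i : Fin (r + 1) → V n, if gr i ⊆ S then
        (∏ l : Fin r, (η ^ 2 * Hd (i l.castSucc) (i l.succ))) * mm η τ (S \ gr i) else 0) τ := by
  have h := Link.mm_hasDerivAt (η := η) Hd_orth' hr S τ
  have e1 : (fun t => Link.mm Hd η t S) = fun t => mm η t S := by
    funext t
    exact (mm_eq_link hr η t S).symm
  rw [e1] at h
  refine h.congr_deriv ?_
  rw [Finset.mul_sum]
  refine Finset.sum_congr rfl fun i _ => ?_
  rw [gr_eq_graph, ← mm_eq_link hr]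
  have h2 : ∏ l : Fin r, (η ^ 2 * Hd (i l.castSucc) (i l.succ)) =
      η ^ (2 * r) * ∏ l : Fin r, Hd (i l.succ) (i l.castSucc) := by
    rw [Finset.prod_mul_distrib, Finset.prod_const, Finset.card_univ, Fintype.card_fin, ← pow_mul]
    congr 1
    exact Finset.prod_congr rfl fun l _ => Hd_symm _ _
  rw [h2]
  split_ifs
  · ring
  · ring

theorem mm_zero {n r : ℕ} (hr : 1 ≤ r) (η : ℝ) (S : Finset (Fin (r + 1) × V n)) :
    mm η 0 S = if S = ∅ then 1 else 0 := by
  split_ifs with hS
  · subst hS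
    unfold mm
    have h : ∀ l : Fin (r + 1), lev (∅ : Finset (Fin (r + 1) × V n)) l = ∅ := by
      intro l
      ext i
      rw [mem_lev]
      simp
    simp only [h, Finset.card_empty, pow_zero, one_mul, w1_nil, if_true, Finset.prod_const_one]
  · by_contra hne
    unfold mm at hne
    have h0 : lev S 0 = ∅ := by
      by_contra h
      apply hne
      rw [zero_pow, zero_mul]
      exact Finset.card_ne_zero.mpr (Finset.nonempty_iff_ne_empty.mpr h)
    have hp : ∀ l : Fin r, w1 η (lev S l.castSucc) (lev S l.succ) ≠ 0 := by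
      intro l hl
      apply hne
      rw [Finset.prod_eq_zero (Finset.mem_univ l) hl, mul_zero]
    have hall : ∀ l : Fin (r + 1), lev S l = ∅ := by
      intro l
      induction l using Fin.induction with
      | zero => exact h0
      | succ l ih =>
        have h1 := hp l
        rw [ih, w1_nil] at h1
        by_contra h2
        exact h1 (if_neg h2)
    apply hS
    rw [Finset.eq_empty_iff_forall_notMem]
    rintro ⟨l, i⟩ hx
    have := mem_lev.mpr hx
    rw [hall l] at this
    exact Finset.notMem_empty _ this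

theorem FF_deriv {n r : ℕ} (hr : 1 ≤ r) (η τ : ℝ) (g : (Fin (r + 1) × V n → Bool) → ℝ) :
    HasDerivAt (fun τ => FF η τ g ∅)
      (∑ i : Fin (r + 1) → V n,
        (∏ l : Fin r, (η ^ 2 * Hd (i l.castSucc) (i l.succ))) * FF η τ g (gr i)) τ := by
  unfold FF
  have h1 : ∀ T ∈ (Finset.univ \ (∅ : Finset (Fin (r + 1) × V n))).powerset,
      HasDerivAt (fun τ => fc g (T ∪ ∅) * mm η τ T)
        (fc g (T ∪ ∅) * ∑ i : Fin (r + 1) → V n, if gr i ⊆ T then
        (∏ l : Fin r, (η ^ 2 * Hd (i l.castSucc) (i l.succ))) * mm η τ (T \ gr i) else 0) τ :=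
    fun T _ => (mm_deriv hr η τ T).const_mul _
  refine (HasDerivAt.fun_sum h1).congr_deriv ?_
  simp only [Finset.mul_sum]
  rw [Finset.sum_comm]
  refine Finset.sum_congr rfl fun i _ => ?_
  have h2 : ∀ T : Finset (Fin (r + 1) × V n), (fc g (T ∪ ∅) * if gr i ⊆ T then
        (∏ l : Fin r, (η ^ 2 * Hd (i l.castSucc) (i l.succ))) * mm η τ (T \ gr i) else 0) =
      if gr i ⊆ T then fc g T *
        ((∏ l : Fin r, (η ^ 2 * Hd (i l.castSucc) (i l.succ))) * mm η τ (T \ gr i)) else 0 := by
    intro T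
    rw [Finset.union_empty]
    split_ifs <;> ring
  simp only [h2]
  rw [← Finset.sum_filter]
  symm
  refine Finset.sum_bij (fun T _ => T ∪ gr i) ?_ ?_ ?_ ?_
  · intro T _
    rw [Finset.mem_filter, Finset.mem_powerset]
    refine ⟨?_, Finset.subset_union_right⟩
    intro x _
    simp
  · intro T hT T' hT' h
    rw [Finset.mem_powerset] at hT hT'
    have h3 : ∀ T'' : Finset (Fin (r + 1) × V n), T'' ⊆ Finset.univ \ gr i →
        (T'' ∪ gr i) \ gr i = T'' := by
      intro T'' hT''
      rw [Finset.union_sdiff_right, Finset.sdiff_eq_self_iff_disjoint]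
      rw [Finset.disjoint_left]
      intro x hx
      exact (Finset.mem_sdiff.mp (hT'' hx)).2
    have h4 : T ∪ gr i = T' ∪ gr i := h
    rw [← h3 T hT, ← h3 T' hT', h4]
  · intro T hT
    rw [Finset.mem_filter] at hT
    refine ⟨T \ gr i, ?_, ?_⟩
    · rw [Finset.mem_powerset]
      exact Finset.sdiff_subset_sdiff (Finset.subset_univ T) (le_refl _)
    · exact Finset.sdiff_union_of_subset hT.2
  · intro T hT
    rw [Finset.mem_powerset] at hT
    have h3 : (T ∪ gr i) \ gr i = T := by
      rw [Finset.union_sdiff_right, Finset.sdiff_eq_self_iff_disjoint, Finset.disjoint_left]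
      intro x hx
      exact (Finset.mem_sdiff.mp (hT hx)).2
    rw [h3]
    ring

theorem FF_zero {n r : ℕ} (hr : 1 ≤ r) (η : ℝ) (g : (Fin (r + 1) × V n → Bool) → ℝ) :
    FF η 0 g ∅ = (1 / 2) ^ Fintype.card (Fin (r + 1) × V n) * ∑ y, g y := by
  unfold FF
  rw [Finset.sum_eq_single ∅]
  · rw [mm_zero hr, if_pos rfl, mul_one, Finset.union_empty]
    unfold fc
    simp
  · intro T _ hT
    rw [mm_zero hr, if_neg hT, mul_zero]
  · intro h
    exact absurd (Finset.mem_powerset.mpr (Finset.empty_subset _)) h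

end P362
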