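import Vale.Agent.P362.Func

/-!
# P362, module CHECKTREES: survival relation, and decision trees for all local tests
-/

namespace P362

open scoped BigOperators

/-- evidence of the pair `P` kills block `j` -/
def kills {n r : ℕ} (x : Idx n r → Bool) (P : V n × V n) (j : V n) : Prop :=
  x (.flag j (ptrv x P.1 P.2 j)) = false

/-- `P` survives the reference `R` -/
def surv {n r : ℕ} (x : Idx n r → Bool) (P R : V n × V n) : Prop :=
  P.1 = R.1 ∨ (kills x P R.1 ∧ ¬ kills x R P.1)

/-- the valid pair survives every reference -/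
theorem surv_of_valid {n r : ℕ} {δ : ℝ} {x : Idx n r → Bool} {p a : V n}
    (h : valid δ x p a) (R : V n × V n) : surv x (p, a) R := by
  by_cases hp : p = R.1
  · exact Or.inl hp
  · refine Or.inr ⟨?_, ?_⟩
    · exact h (.evid R.1) (fun h' => hp h'.symm)
    · have h2 : x (.flag p (ptrv x R.1 R.2 p)) = true := h (.flag _)
      unfold kills
      rw [h2]
      simp

theorem surv_antisymm {n r : ℕ} {x : Idx n r → Bool} {P R : V n × V n} (h : P.1 ≠ R.1) :
    ¬ (surv x P R ∧ surv x R P) := by
  rintro ⟨h1, h2⟩
  rcases h1 with h1 | h1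
  · exact h h1
  · rcases h2 with h2 | h2
    · exact h h2.symm
    · exact h1.2 h2.1

theorem surv_self_block {n r : ℕ} {x : Idx n r → Bool} {P R : V n × V n} (h : P.1 = R.1) :
    surv x P R := Or.inl h

/-- sequential composition of decision trees -/
private def ctBind {ι α β : Type} : DTree ι α → (α → DTree ι β) → DTree ι β
  | .leaf a, k => k a
  | .node i t0 t1, k => .node i (ctBind t0 k) (ctBind t1 k)

private theorem ctBind_eval {ι α β : Type} (T : DTree ι α) (k : α → DTree ι β) (x : ι → Bool) :
    (ctBind T k).eval x = (k (T.eval x)).eval x := by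
  induction T with
  | leaf a => rfl
  | node i t0 t1 ih0 ih1 =>
    simp only [ctBind, DTree.eval]
    by_cases h : x i = true
    · simp [h, ih1]
    · simp [h, ih0]

private theorem ctBind_depth {ι α β : Type} (T : DTree ι α) (k : α → DTree ι β) (e : ℕ)
    (hk : ∀ a, (k a).depth ≤ e) : (ctBind T k).depth ≤ T.depth + e := by
  induction T with
  | leaf a => simpa [ctBind, DTree.depth] using hk a
  | node i t0 t1 ih0 ih1 =>
    simp only [ctBind, DTree.depth]
    omega

/-- `f` is computed by a decision tree of depth at most `d` -/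
private def CT {ι β : Type} (d : ℕ) (f : (ι → Bool) → β) : Prop :=
  ∃ T : DTree ι β, T.depth ≤ d ∧ ∀ x, T.eval x = f x

private theorem CT.const {ι β : Type} (d : ℕ) (b : β) : CT d (fun _ : ι → Bool => b) :=
  ⟨.leaf b, by simp [DTree.depth], fun _ => rfl⟩

private theorem CT.mono {ι β : Type} {d e : ℕ} {f : (ι → Bool) → β} (h : CT d f) (hde : d ≤ e) :
    CT e f := by
  obtain ⟨T, hT, hf⟩ := h
  exact ⟨T, hT.trans hde, hf⟩

private theorem CT.bind {ι α β : Type} {d e : ℕ} {f : (ι → Bool) → α} {g : α → (ι → Bool) → β}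
    (hf : CT d f) (hg : ∀ a, CT e (g a)) : CT (d + e) (fun x => g (f x) x) := by
  obtain ⟨T, hT, hf⟩ := hf
  choose S hS hgS using hg
  refine ⟨ctBind T S, ?_, ?_⟩
  · exact (ctBind_depth T S e hS).trans (by omega)
  · intro x
    rw [ctBind_eval, hf, hgS]

private theorem CT.map {ι α β : Type} {d : ℕ} {f : (ι → Bool) → α} (hf : CT d f) (g : α → β) :
    CT d (fun x => g (f x)) := by
  have := hf.bind (g := fun a _ => g a) (fun a => CT.const 0 (g a))
  simpa using this

private theorem CT.query {ι : Type} (i : ι) : CT 1 (fun x : ι → Bool => x i) := by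
  refine ⟨.node i (.leaf false) (.leaf true), by simp [DTree.depth], ?_⟩
  intro x
  simp only [DTree.eval]
  by_cases h : x i = true
  · simp [h]
  · simp [h]

private theorem CT.vec {ι : Type} : ∀ (k : ℕ) (q : Fin k → ι),
    CT k (fun (x : ι → Bool) => fun b : Fin k => x (q b))
  | 0, q => ⟨.leaf Fin.elim0, by simp [DTree.depth], fun x => by funext b; exact b.elim0⟩
  | k + 1, q => by
    have h1 := CT.vec k (fun b => q b.castSucc)
    have h2 : CT (k + 1) (fun x : ι → Bool =>
        (fun (v : Fin k → Bool) (x : ι → Bool) => (Fin.snoc v (x (q (Fin.last k))) :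
          Fin (k + 1) → Bool)) (fun b => x (q b.castSucc)) x) :=
      h1.bind (fun v => (CT.query (q (Fin.last k))).map (fun c => (Fin.snoc v c :
          Fin (k + 1) → Bool)))
    obtain ⟨T, hT, hTx⟩ := h2
    refine ⟨T, hT, fun x => ?_⟩
    rw [hTx]
    funext b
    refine Fin.lastCases ?_ (fun b => ?_) b
    · simp
    · simp

private theorem CT.and {ι : Type} {d e : ℕ} {f g : (ι → Bool) → Bool}
    (hf : CT d f) (hg : CT e g) : CT (d + e) (fun x => f x && g x) :=
  hf.bind (g := fun a x => a && g x) (fun a => hg.map (fun b => a && b))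

private theorem ct_ptr {n r : ℕ} (p a j : V n) : CT n (fun x : Idx n r → Bool => ptrv x p a j) :=
  CT.vec n (fun b => Idx.ptr p a j b)

open Classical in
private theorem ct_kills {n r : ℕ} (P : V n × V n) (j : V n) :
    CT (n + 1) (fun x : Idx n r → Bool => decide (kills x P j)) := by
  have h : CT (n + 1) (fun x : Idx n r → Bool => x (.flag j (ptrv x P.1 P.2 j))) :=
    (ct_ptr P.1 P.2 j).bind (g := fun v x => x (.flag j v)) (fun v => CT.query _)
  obtain ⟨T, hT, hx⟩ := h.map (fun b => !b)
  refine ⟨T, hT, fun x => ?_⟩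
  rw [hx]
  unfold kills
  cases x (.flag j (ptrv x P.1 P.2 j)) <;> simp

open Classical in
private theorem ct_surv {n r : ℕ} (P R : V n × V n) :
    CT (2 * n + 2) (fun x : Idx n r → Bool => decide (surv x P R)) := by
  by_cases hPR : P.1 = R.1
  · have : (fun x : Idx n r → Bool => decide (surv x P R)) = fun _ => true := by
      funext x
      simp [surv, hPR]
    rw [this]
    exact CT.const _ _
  · have h := (ct_kills (r := r) P R.1).and ((ct_kills (r := r) R P.1).map (fun b => !b))
    have h2 := h.mono (show n + 1 + (n + 1) ≤ 2 * n + 2 by omega)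
    obtain ⟨T, hT, hx⟩ := h2
    refine ⟨T, hT, fun x => ?_⟩
    rw [hx]
    simp [surv, hPR]

open Classical in
theorem surv_tree {n r : ℕ} (P : V n × V n) (L : List (V n × V n)) :
    ∃ T : DTree (Idx n r) Bool, T.depth ≤ L.length * (2 * n + 2) ∧
      ∀ x, T.eval x = decide (∀ R ∈ L, surv x P R) := by
  induction L with
  | nil => exact ⟨.leaf true, by simp [DTree.depth], fun x => by simp [DTree.eval]⟩
  | cons R L ih =>
    have h := (ct_surv (r := r) P R).and (show CT _ _ from ih)
    have h2 := h.mono (show 2 * n + 2 + L.length * (2 * n + 2) ≤ (R :: L).length * (2 * n + 2) by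
      rw [List.length_cons]; ring_nf; omega)
    obtain ⟨T, hT, hx⟩ := h2
    refine ⟨T, hT, fun x => ?_⟩
    rw [hx]
    simp

/-- depth of a local check -/
def cdepth (n r : ℕ) : ℕ := 3 * wlen n r + n + 2

private theorem ct_tw {n r : ℕ} (p a : V n) (l : Fin (r + 1)) (s : Fin (n + 1)) (i : V n) :
    CT (wlen n r) (fun x : Idx n r → Bool => tw x p a l s i) :=
  (CT.vec (wlen n r) (fun b => Idx.word p a l s i b)).map dec

private theorem ct_prevw {n r : ℕ} (p a : V n) (l : Fin (r + 1)) (i : V n) :
    CT (wlen n r) (fun x : Idx n r → Bool => prevw x p a l i) := by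
  unfold prevw
  by_cases h : l = 0
  · simp only [h, dite_true]
    exact CT.const _ _
  · simp only [h, dite_false]
    exact ct_tw _ _ _ _ _

open Classical in
theorem chk_tree {n r : ℕ} (δ : ℝ) (p a : V n) (c : Chk n r) :
    ∃ T : DTree (Idx n r) Bool, T.depth ≤ cdepth n r ∧
      ∀ x, T.eval x = decide (chkOK δ x p a c) := by
  change CT (cdepth n r) (fun x : Idx n r → Bool => decide (chkOK δ x p a c))
  unfold cdepth
  cases c with
  | mask l i =>
    have h := (ct_tw (r := r) p a l 0 i).bind (e := 1 + wlen n r)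
      (g := fun (u : ℤ) (x : Idx n r → Bool) =>
        decide (u = sg (x (.data p l i)) * prevw x p a l i))
      (fun u => (CT.query (Idx.data p l i)).bind
        (g := fun (b : Bool) (x : Idx n r → Bool) => decide (u = sg b * prevw x p a l i))
        (fun b => (ct_prevw (r := r) p a l i).map (fun w => decide (u = sg b * w))))
    obtain ⟨T, hT, hx⟩ := h
    refine ⟨T, hT.trans (by omega), fun x => ?_⟩
    rw [hx]
    exact decide_eq_decide.mpr Iff.rfl
  | bfly l s i =>
    have h := (ct_tw (r := r) p a l s.succ i).bind (e := wlen n r + wlen n r)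
      (g := fun (u : ℤ) (x : Idx n r → Bool) =>
        decide (u = tw x p a l s.castSucc (Function.update i s false) +
      (if i s then -1 else 1) * tw x p a l s.castSucc (Function.update i s true)))
      (fun u => (ct_tw (r := r) p a l s.castSucc (Function.update i s false)).bind
        (g := fun (v : ℤ) (x : Idx n r → Bool) => decide (u = v +
      (if i s then -1 else 1) * tw x p a l s.castSucc (Function.update i s true)))
        (fun v => (ct_tw (r := r) p a l s.castSucc (Function.update i s true)).map
          (fun w => decide (u = v + (if i s then -1 else 1) * w))))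
    obtain ⟨T, hT, hx⟩ := h
    refine ⟨T, hT.trans (by omega), fun x => ?_⟩
    rw [hx]
    exact decide_eq_decide.mpr Iff.rfl
  | fin =>
    have h := (ct_tw (r := r) p a (Fin.last r) (Fin.last n) a).map
      (fun u => decide (δ * sN n ^ (r + 2) ≤ (u : ℝ)))
    obtain ⟨T, hT, hx⟩ := h
    refine ⟨T, hT.trans (by omega), fun x => ?_⟩
    rw [hx]
    exact decide_eq_decide.mpr Iff.rfl
  | flag i =>
    have h := (CT.query (Idx.flag (r := r) p i))
    obtain ⟨T, hT, hx⟩ := h
    refine ⟨T, hT.trans (by omega), fun x => ?_⟩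
    rw [hx]
    beta_reduce
    have hiff : chkOK δ x p a (.flag i) ↔ x (.flag p i) = true := Iff.rfl
    rcases Bool.eq_false_or_eq_true (x (.flag p i)) with h1 | h1
    · rw [decide_eq_true (hiff.mpr h1)]
      exact h1
    · rw [decide_eq_false (fun h2 => by rw [hiff.mp h2] at h1; exact absurd h1 (by simp))]
      exact h1
  | evid j =>
    by_cases hj : j = p
    · have : (fun x : Idx n r → Bool => decide (chkOK δ x p a (.evid j))) = fun _ => true := by
        funext x
        simp [chkOK, hj]
      rw [this]
      exact CT.const _ _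
    · have h := ct_kills (r := r) (p, a) j
      obtain ⟨T, hT, hx⟩ := h
      refine ⟨T, hT.trans (by omega), fun x => ?_⟩
      rw [hx]
      exact decide_eq_decide.mpr (by simp [chkOK, kills, hj])

theorem card_Chk (n r : ℕ) : Fintype.card (Chk n r) = (r + 1) * 2 ^ n * (n + 1) + 1 + 2 * 2 ^ n := by
  have e : Chk n r ≃ (Fin (r + 1) × V n) ⊕ (Fin (r + 1) × Fin n × V n) ⊕ Unit ⊕ V n ⊕ V n :=
    { toFun := fun
        | .mask l i => Sum.inl (l, i)
        | .bfly l s i => Sum.inr (Sum.inl (l, s, i))
        | .fin => Sum.inr (Sum.inr (Sum.inl ()))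
        | .flag i => Sum.inr (Sum.inr (Sum.inr (Sum.inl i)))
        | .evid j => Sum.inr (Sum.inr (Sum.inr (Sum.inr j)))
      invFun := fun
        | Sum.inl (l, i) => .mask l i
        | Sum.inr (Sum.inl (l, s, i)) => .bfly l s i
        | Sum.inr (Sum.inr (Sum.inl ())) => .fin
        | Sum.inr (Sum.inr (Sum.inr (Sum.inl i))) => .flag i
        | Sum.inr (Sum.inr (Sum.inr (Sum.inr j))) => .evid j
      left_inv := by
        intro c
        cases c <;> rfl
      right_inv := by
        rintro (⟨l, i⟩ | ⟨l, s, i⟩ | ⟨⟩ | i | j) <;> rfl }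
  rw [Fintype.card_congr e]
  simp only [Fintype.card_sum, Fintype.card_prod, Fintype.card_fin, Fintype.card_unit,
    Fintype.card_fun, Fintype.card_bool]
  ring

end P362
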