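import Vale.Agent.P362.TV

/-!
# P362, module HARDASYMP: parameters
-/

namespace P362

open Filter Topology

/-- the constant `C_r` -/
def Cr (r : ℕ) : ℕ := 160 * (r + 2)

/-- `δ(n) = ½ (C_r n)^{-r}` -/
noncomputable def del (n r : ℕ) : ℝ := (1 / ((Cr r : ℝ) * n)) ^ r / 2

/-- `m(n) = ⌊N^{1 - 1/(r+1) - ε}⌋` -/
noncomputable def mm' (n r : ℕ) (ε : ℝ) : ℕ := ⌊((2 : ℝ) ^ n) ^ (1 - 1 / ((r : ℝ) + 1) - ε)⌋₊

/-- the parameter `η` -/
noncomputable def hEta (n r : ℕ) : ℝ := Real.sqrt (1 / ((Cr r : ℝ) * n))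

theorem Cr_pos (r : ℕ) : (0 : ℝ) < Cr r := by
  unfold Cr
  positivity

theorem hEta_sq {n r : ℕ} : hEta n r ^ 2 = 1 / ((Cr r : ℝ) * n) := by
  unfold hEta
  rw [Real.sq_sqrt]
  have := Cr_pos r
  positivity

theorem hEta_pow {n r : ℕ} : hEta n r ^ (2 * r) = (1 / ((Cr r : ℝ) * n)) ^ r := by
  rw [pow_mul, hEta_sq]

theorem hEta_pos {n r : ℕ} (hn : 1 ≤ n) : 0 < hEta n r := by
  unfold hEta
  have := Cr_pos r
  have hn' : (0 : ℝ) < n := by exact_mod_cast hn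
  positivity

theorem hEta_le {n r : ℕ} (hn : 1 ≤ n) : hEta n r ≤ 1 / 2 := by
  have h1 : hEta n r ^ 2 ≤ (1 / 2) ^ 2 := by
    rw [hEta_sq]
    have hn' : (1 : ℝ) ≤ n := by exact_mod_cast hn
    have hC : (4 : ℝ) ≤ Cr r := by
      unfold Cr
      push_cast
      have : (0 : ℝ) ≤ r := Nat.cast_nonneg r
      linarith
    have h2 : (4 : ℝ) ≤ (Cr r : ℝ) * n := by nlinarith
    calc 1 / ((Cr r : ℝ) * n) ≤ 1 / 4 := one_div_le_one_div_of_le (by norm_num) h2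
      _ = (1 / 2) ^ 2 := by norm_num
  exact (sq_le_sq₀ (hEta_pos hn).le (by norm_num)).1 h1

theorem two_pow_le_exp (n : ℕ) : (2 : ℝ) ^ n ≤ Real.exp n := by
  have h1 : (2 : ℝ) ≤ Real.exp 1 := by
    have := Real.add_one_le_exp (1 : ℝ)
    linarith
  calc (2 : ℝ) ^ n ≤ (Real.exp 1) ^ n := pow_le_pow_left₀ (by norm_num) h1 n
    _ = Real.exp n := by rw [← Real.exp_nat_mul, mul_one]

theorem exp_neg_le (n : ℕ) : Real.exp (-(n : ℝ)) ≤ (1 / 2) ^ n := by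
  rw [Real.exp_neg, one_div, inv_pow]
  exact inv_anti₀ (by positivity) (two_pow_le_exp n)

theorem rho_bound {n r : ℕ} (hn : 1 ≤ n) :
    rho (hEta n r) ≤ 11 * Real.exp (-((10 * (r : ℝ) + 20) * n)) := by
  refine (rho_le _ (hEta_pos hn) (hEta_le hn)).trans (le_of_eq ?_)
  have hn' : (n : ℝ) ≠ 0 := by
    have : (0 : ℝ) < n := by exact_mod_cast hn
    exact this.ne'
  have hC := (Cr_pos r).ne'
  rw [hEta_sq]
  congr 2
  rw [neg_inj]
  field_simp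
  unfold Cr
  push_cast
  ring

theorem eps1_bound {n r : ℕ} (hn : 1 ≤ n) :
    eps1 n r (hEta n r) ≤ 24 * r * Real.exp (-((5 * (r : ℝ) + 9) * n)) := by
  have hρ0 := rho_nonneg (hEta n r)
  have hρ := rho_bound (r := r) hn
  have hn' : (1 : ℝ) ≤ n := by exact_mod_cast hn
  have hr0 : (0 : ℝ) ≤ r := Nat.cast_nonneg r
  set ρ := rho (hEta n r) with hρdef
  have h1 : (2 : ℝ) ^ n * ρ ≤ 11 * Real.exp (-((10 * (r : ℝ) + 19) * n)) := by
    calc (2 : ℝ) ^ n * ρ ≤ Real.exp n * (11 * Real.exp (-((10 * (r : ℝ) + 20) * n))) :=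
          mul_le_mul (two_pow_le_exp n) hρ hρ0 (Real.exp_nonneg _)
      _ = 11 * (Real.exp n * Real.exp (-((10 * (r : ℝ) + 20) * n))) := by ring
      _ = 11 * Real.exp (-((10 * (r : ℝ) + 19) * n)) := by
          rw [← Real.exp_add]
          congr 2
          ring
  have h2 : Real.sqrt (2 ^ n * ρ) ≤ 4 * Real.exp (-((5 * (r : ℝ) + 9) * n)) := by
    apply Real.sqrt_le_iff.2
    refine ⟨by positivity, h1.trans ?_⟩
    rw [mul_pow, ← Real.exp_nat_mul]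
    have h3 : Real.exp (-((10 * (r : ℝ) + 19) * n)) ≤
        Real.exp (((2 : ℕ) : ℝ) * -((5 * (r : ℝ) + 9) * n)) := by
      apply Real.exp_le_exp.2
      push_cast
      nlinarith
    have h4 := Real.exp_nonneg (-((10 * (r : ℝ) + 19) * n))
    nlinarith
  have h5 : (2 : ℝ) ^ n * r * ρ ≤ 1 := by
    have h6 : (2 : ℝ) ^ n * ρ ≤ 11 * Real.exp (-(10 * (r : ℝ) + 19)) := by
      refine h1.trans ?_
      have : Real.exp (-((10 * (r : ℝ) + 19) * n)) ≤ Real.exp (-(10 * (r : ℝ) + 19)) := by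
        apply Real.exp_le_exp.2
        nlinarith
      linarith
    have h7 : 11 * (r : ℝ) ≤ Real.exp (10 * (r : ℝ) + 19) := by
      rw [Real.exp_add]
      have a1 := Real.add_one_le_exp (10 * (r : ℝ))
      have a2 := Real.add_one_le_exp (19 : ℝ)
      have a3 : (10 * (r : ℝ) + 1) * (19 + 1) ≤ Real.exp (10 * (r : ℝ)) * Real.exp 19 :=
        mul_le_mul a1 a2 (by norm_num) (Real.exp_nonneg _)
      nlinarith
    have h8 : Real.exp (-(10 * (r : ℝ) + 19)) * Real.exp (10 * (r : ℝ) + 19) = 1 := by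
      rw [← Real.exp_add]
      simp
    calc (2 : ℝ) ^ n * r * ρ = r * ((2 : ℝ) ^ n * ρ) := by ring
      _ ≤ r * (11 * Real.exp (-(10 * (r : ℝ) + 19))) := mul_le_mul_of_nonneg_left h6 hr0
      _ = Real.exp (-(10 * (r : ℝ) + 19)) * (11 * r) := by ring
      _ ≤ Real.exp (-(10 * (r : ℝ) + 19)) * Real.exp (10 * (r : ℝ) + 19) :=
          mul_le_mul_of_nonneg_left h7 (Real.exp_nonneg _)
      _ = 1 := h8
  have h9 : (1 + ρ) ^ (2 ^ n * r) ≤ 3 := by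
    calc (1 + ρ) ^ (2 ^ n * r) ≤ (Real.exp ρ) ^ (2 ^ n * r) := by
          apply pow_le_pow_left₀ (by linarith)
          have := Real.add_one_le_exp ρ
          linarith
      _ = Real.exp (((2 ^ n * r : ℕ) : ℝ) * ρ) := by rw [← Real.exp_nat_mul]
      _ ≤ Real.exp 1 := by
          apply Real.exp_le_exp.2
          push_cast
          exact h5
      _ ≤ 3 := by
          have := Real.exp_one_lt_d9
          linarith
  unfold eps1
  calc 2 * (r : ℝ) * Real.sqrt (2 ^ n * ρ) * (1 + ρ) ^ (2 ^ n * r)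
      ≤ 2 * (r : ℝ) * (4 * Real.exp (-((5 * (r : ℝ) + 9) * n))) * 3 := by
        refine mul_le_mul (mul_le_mul_of_nonneg_left h2 (by positivity)) h9 (by positivity)
          (by positivity)
    _ = 24 * r * Real.exp (-((5 * (r : ℝ) + 9) * n)) := by ring

theorem eps1_nonneg (n r : ℕ) (η : ℝ) : 0 ≤ eps1 n r η := by
  unfold eps1
  have := rho_nonneg η
  positivity

theorem eps1_bound1 {n r : ℕ} (hn : 1 ≤ n) :
    eps1 n r (hEta n r) ≤ 24 * r * Real.exp (-(n : ℝ)) := by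
  refine (eps1_bound hn).trans ?_
  have hn' : (1 : ℝ) ≤ n := by exact_mod_cast hn
  have hr0 : (0 : ℝ) ≤ r := Nat.cast_nonneg r
  refine mul_le_mul_of_nonneg_left (Real.exp_le_exp.2 ?_) (by positivity)
  nlinarith [mul_nonneg hr0 (by linarith : (0 : ℝ) ≤ n)]

theorem eps1_bound2 {n r : ℕ} (hn : 1 ≤ n) :
    ((2 : ℝ) ^ n) ^ (r + 1) * eps1 n r (hEta n r) ≤ 24 * r * Real.exp (-(n : ℝ)) := by
  have hn' : (1 : ℝ) ≤ n := by exact_mod_cast hn
  have hr0 : (0 : ℝ) ≤ r := Nat.cast_nonneg r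
  have h1 : ((2 : ℝ) ^ n) ^ (r + 1) ≤ Real.exp ((r + 1) * n) := by
    calc ((2 : ℝ) ^ n) ^ (r + 1) ≤ (Real.exp n) ^ (r + 1) :=
          pow_le_pow_left₀ (by positivity) (two_pow_le_exp n) _
      _ = Real.exp ((r + 1) * n) := by
          rw [← Real.exp_nat_mul]
          push_cast
          rfl
  calc ((2 : ℝ) ^ n) ^ (r + 1) * eps1 n r (hEta n r)
      ≤ Real.exp ((r + 1) * n) * (24 * r * Real.exp (-((5 * (r : ℝ) + 9) * n))) :=
        mul_le_mul h1 (eps1_bound hn) (eps1_nonneg _ _ _) (Real.exp_nonneg _)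
    _ = 24 * r * (Real.exp ((r + 1) * n) * Real.exp (-((5 * (r : ℝ) + 9) * n))) := by ring
    _ = 24 * r * Real.exp ((r + 1) * n + -((5 * (r : ℝ) + 9) * n)) := by rw [Real.exp_add]
    _ ≤ 24 * r * Real.exp (-(n : ℝ)) := by
        refine mul_le_mul_of_nonneg_left (Real.exp_le_exp.2 ?_) (by positivity)
        nlinarith [mul_nonneg hr0 (by linarith : (0 : ℝ) ≤ n)]

theorem sN_rpow (n : ℕ) : sN n = ((2 : ℝ) ^ n) ^ ((1 : ℝ) / 2) := by
  unfold sN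
  rw [Real.sqrt_eq_rpow, ← Real.rpow_natCast, ← Real.rpow_natCast, ← Real.rpow_mul (by norm_num),
    ← Real.rpow_mul (by norm_num), mul_comm]

theorem sN_one_le (n : ℕ) : 1 ≤ sN n := by
  unfold sN
  apply one_le_pow₀
  rw [Real.one_le_sqrt]
  norm_num

/-- the main term of the total variation bound -/
theorem main_term {n r p : ℕ} (hp : 1 ≤ p) (ε : ℝ) :
    (((((4 : ℝ) ^ p * (mm' n r ε : ℕ)) ^ p * 4 ^ p * ((r + 1) * 2 ^ n)) ^ (r + 1)) ^
        ((1 : ℝ) / (2 * p))) / sN n ^ r ≤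
      (((((4 : ℝ) ^ p) ^ p * 4 ^ p * (r + 1)) ^ (r + 1)) ^ ((1 : ℝ) / (2 * p))) *
        ((2 : ℝ) ^ (-((((r : ℝ) + 1) / 2) * (ε - 1 / p)))) ^ n := by
  have hp0 : (0 : ℝ) < p := by exact_mod_cast hp
  set N : ℝ := (2 : ℝ) ^ n with hN
  have hN0 : 0 < N := by positivity
  set θ : ℝ := 1 - 1 / ((r : ℝ) + 1) - ε with hθ
  set A : ℝ := ((4 : ℝ) ^ p) ^ p * 4 ^ p * (r + 1) with hA
  have hA0 : 0 < A := by positivity
  have hr1 : (0 : ℝ) < (r : ℝ) + 1 := by positivity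
  have hm : ((mm' n r ε : ℕ) : ℝ) ≤ N ^ θ := Nat.floor_le (by positivity)
  have hsN : sN n ^ r = N ^ ((r : ℝ) / 2) := by
    rw [sN_rpow, ← Real.rpow_natCast, ← Real.rpow_mul hN0.le]
    congr 1
    ring
  have h1 : (((4 : ℝ) ^ p * (mm' n r ε : ℕ)) ^ p * 4 ^ p * ((r + 1) * N)) ≤
      A * N ^ (θ * p + 1) := by
    rw [Real.rpow_add hN0, Real.rpow_mul hN0.le, Real.rpow_one, Real.rpow_natCast, mul_pow]
    calc ((4 : ℝ) ^ p) ^ p * ((mm' n r ε : ℕ) : ℝ) ^ p * 4 ^ p * ((r + 1) * N)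
        ≤ ((4 : ℝ) ^ p) ^ p * (N ^ θ) ^ p * 4 ^ p * ((r + 1) * N) := by
          gcongr
      _ = A * ((N ^ θ) ^ p * N) := by rw [hA]; ring
  have h2 : (((4 : ℝ) ^ p * (mm' n r ε : ℕ)) ^ p * 4 ^ p * ((r + 1) * N)) ^ (r + 1) ≤
      A ^ (r + 1) * N ^ ((θ * p + 1) * (r + 1)) := by
    refine (pow_le_pow_left₀ (by positivity) h1 (r + 1)).trans (le_of_eq ?_)
    rw [mul_pow, ← Real.rpow_natCast (N ^ (θ * p + 1)), ← Real.rpow_mul hN0.le]
    push_cast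
    rfl
  have h3 : ((((4 : ℝ) ^ p * (mm' n r ε : ℕ)) ^ p * 4 ^ p * ((r + 1) * N)) ^ (r + 1)) ^
      ((1 : ℝ) / (2 * p)) ≤
      (A ^ (r + 1)) ^ ((1 : ℝ) / (2 * p)) * N ^ ((r : ℝ) / 2 -
        (((r : ℝ) + 1) / 2) * (ε - 1 / p)) := by
    refine (Real.rpow_le_rpow (by positivity) h2 (by positivity)).trans (le_of_eq ?_)
    rw [Real.mul_rpow (by positivity) (by positivity), ← Real.rpow_mul hN0.le]
    congr 2
    rw [hθ]
    field_simp
    ring
  rw [hsN, div_le_iff₀ (by positivity)]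
  refine h3.trans (le_of_eq ?_)
  have h4 : ((2 : ℝ) ^ (-((((r : ℝ) + 1) / 2) * (ε - 1 / p)))) ^ n =
      N ^ (-((((r : ℝ) + 1) / 2) * (ε - 1 / p))) := by
    rw [hN, ← Real.rpow_natCast, ← Real.rpow_mul (by norm_num), ← Real.rpow_natCast (2 : ℝ) n,
      ← Real.rpow_mul (by norm_num), mul_comm]
  rw [h4, mul_assoc, ← Real.rpow_add hN0]
  congr 2
  ring

theorem hardDist_exists (r : ℕ) (hr : 1 ≤ r) (ε : ℝ) (hε : 0 < ε) :
    ∀ᶠ n : ℕ in atTop, Nonempty (HardDist n r (mm' n r ε) (del n r)) := by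
  -- the parameter `p`
  obtain ⟨p, hp⟩ := exists_nat_gt (1 / ε)
  have hp0 : (0 : ℝ) < p := (by positivity : 0 < 1 / ε).trans hp
  have hp1 : 1 ≤ p := by
    have : (0 : ℕ) < p := by exact_mod_cast hp0
    exact this
  have hκ : 0 < (((r : ℝ) + 1) / 2) * (ε - 1 / p) := by
    have : 1 / (p : ℝ) < ε := by
      rw [div_lt_iff₀ hp0]
      rw [div_lt_iff₀ hε] at hp
      linarith
    have h2 : 0 < ε - 1 / p := by linarith
    positivity
  set κ := (((r : ℝ) + 1) / 2) * (ε - 1 / p) with hκdef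
  set A : ℝ := ((((4 : ℝ) ^ p) ^ p * 4 ^ p * (r + 1)) ^ (r + 1)) ^ ((1 : ℝ) / (2 * p)) with hA
  have hb : |(2 : ℝ) ^ (-κ)| < 1 := by
    rw [abs_of_pos (by positivity)]
    exact Real.rpow_lt_one_of_one_lt_of_neg (by norm_num) (by linarith)
  have t1 : Tendsto (fun n : ℕ => A * ((2 : ℝ) ^ (-κ)) ^ n) atTop (𝓝 0) := by
    have := (tendsto_pow_atTop_nhds_zero_of_abs_lt_one hb).const_mul A
    simpa using this
  have t2 : Tendsto (fun n : ℕ => 24 * (r : ℝ) * Real.exp (-(n : ℝ))) atTop (𝓝 0) := by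
    have h1 : Tendsto (fun n : ℕ => Real.exp (-(n : ℝ))) atTop (𝓝 0) :=
      Real.tendsto_exp_neg_atTop_nhds_zero.comp tendsto_natCast_atTop_atTop
    have := h1.const_mul (24 * (r : ℝ))
    simpa using this
  have t3 : Tendsto (fun n : ℕ => 4 * (Cr r : ℝ) ^ (2 * r) * (1 + 192 * r) *
      ((n : ℝ) ^ (2 * r) * (1 / 2 : ℝ) ^ n)) atTop (𝓝 0) := by
    have h1 := tendsto_pow_const_mul_const_pow_of_abs_lt_one (2 * r) (r := (1 / 2 : ℝ))
      (by rw [abs_of_pos] <;> norm_num)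
    have := h1.const_mul (4 * (Cr r : ℝ) ^ (2 * r) * (1 + 192 * r))
    simpa using this
  have e1 : ∀ᶠ n : ℕ in atTop, A * ((2 : ℝ) ^ (-κ)) ^ n < 1 / 400 :=
    t1.eventually_lt_const (by norm_num)
  have e2 : ∀ᶠ n : ℕ in atTop, 24 * (r : ℝ) * Real.exp (-(n : ℝ)) < 1 / 400 :=
    t2.eventually_lt_const (by norm_num)
  have e3 : ∀ᶠ n : ℕ in atTop, 4 * (Cr r : ℝ) ^ (2 * r) * (1 + 192 * r) *
      ((n : ℝ) ^ (2 * r) * (1 / 2 : ℝ) ^ n) < 1 / 100 :=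
    t3.eventually_lt_const (by norm_num)
  filter_upwards [e1, e2, e3, eventually_ge_atTop 1] with n h1 h2 h3 hn
  have hn' : (1 : ℝ) ≤ n := by exact_mod_cast hn
  have hn0 : (0 : ℝ) < n := by linarith
  have hη0 := hEta_pos (r := r) hn
  have hη1 := hEta_le (r := r) hn
  have hC := Cr_pos r
  have hηp : hEta n r ^ (2 * r) ≤ 1 := pow_le_one₀ hη0.le (by linarith)
  have hηp0 : 0 < hEta n r ^ (2 * r) := by positivity
  have hs := sN_one_le n
  have hsr : 1 ≤ sN n ^ r := one_le_pow₀ hs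
  refine ⟨{ D := Dtr (hEta n r), nonneg := Dtr_nonneg hr _, sum_one := Dtr_sum hr _,
            hide := fun T hT => ?_, large := ?_ }⟩
  · refine (tv_bound hr (hEta n r) hη0.le (mm' n r ε) p hp1 T hT).trans ?_
    have m1 := main_term (n := n) (r := r) hp1 ε
    rw [← hA] at m1
    set X : ℝ := ((((4 : ℝ) ^ p * (mm' n r ε : ℕ)) ^ p * 4 ^ p * ((r + 1) * 2 ^ n)) ^ (r + 1)) ^
        ((1 : ℝ) / (2 * p)) with hX
    have hX0 : 0 ≤ X := by positivity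
    have b1 := eps1_bound1 (r := r) hn
    have b2 := eps1_bound2 (r := r) hn
    have b0 := eps1_nonneg n r (hEta n r)
    have b3 : 0 ≤ ((2 : ℝ) ^ n) ^ (r + 1) * eps1 n r (hEta n r) := by positivity
    have b4 : hEta n r ^ (2 * r) / sN n ^ r * (X + ((2 : ℝ) ^ n) ^ (r + 1) *
        eps1 n r (hEta n r)) ≤ X / sN n ^ r + ((2 : ℝ) ^ n) ^ (r + 1) *
        eps1 n r (hEta n r) := by
      have hs0 : 0 < sN n ^ r := by linarith
      rw [mul_add]
      have c1 : hEta n r ^ (2 * r) / sN n ^ r * X ≤ X / sN n ^ r := by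
        rw [div_mul_eq_mul_div]
        apply div_le_div_of_nonneg_right _ hs0.le
        nlinarith
      have c2 : hEta n r ^ (2 * r) / sN n ^ r ≤ 1 := by
        rw [div_le_one hs0]
        linarith
      have c3 := mul_le_mul_of_nonneg_right c2 b3
      linarith
    linarith
  · have e : del n r = hEta n r ^ (2 * r) / 2 := by rw [hEta_pow, del]
    rw [e]
    refine (large_bound hr (hEta n r) hη0 (by linarith)).trans ?_
    have b1 := eps1_bound1 (r := r) hn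
    have b5 := exp_neg_le n
    have hr0 : (0 : ℝ) ≤ r := Nat.cast_nonneg r
    have c1 : 1 / (2 : ℝ) ^ n + 8 * eps1 n r (hEta n r) ≤ (1 + 192 * r) * (1 / 2 : ℝ) ^ n := by
      have : 1 / (2 : ℝ) ^ n = (1 / 2 : ℝ) ^ n := by rw [one_div, one_div, inv_pow]
      rw [this]
      have c2 : 24 * (r : ℝ) * Real.exp (-(n : ℝ)) ≤ 24 * r * (1 / 2 : ℝ) ^ n :=
        mul_le_mul_of_nonneg_left b5 (by positivity)
      linarith
    have c3 : 4 / (hEta n r ^ (2 * r)) ^ 2 = 4 * (Cr r : ℝ) ^ (2 * r) * (n : ℝ) ^ (2 * r) := by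
      rw [hEta_pow, one_div, inv_pow, inv_pow, div_inv_eq_mul, ← pow_mul, mul_comm r 2, mul_pow]
      ring
    rw [c3]
    calc 4 * (Cr r : ℝ) ^ (2 * r) * (n : ℝ) ^ (2 * r) *
          (1 / (2 : ℝ) ^ n + 8 * eps1 n r (hEta n r))
        ≤ 4 * (Cr r : ℝ) ^ (2 * r) * (n : ℝ) ^ (2 * r) * ((1 + 192 * r) * (1 / 2 : ℝ) ^ n) :=
          mul_le_mul_of_nonneg_left c1 (by positivity)
      _ = 4 * (Cr r : ℝ) ^ (2 * r) * (1 + 192 * r) * ((n : ℝ) ^ (2 * r) * (1 / 2 : ℝ) ^ n) := by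
          ring
      _ ≤ 1 / 100 := h3.le

end P362
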