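import Vale.Agent.P362.QAnalysis
import Vale.Agent.P362.HardAsymp

/-!
# P362, module COSTASYMP: `qcost n r δ(n) ≤ poly(n) 2^{n/2}`
-/

namespace P362

open Filter

/-- `f n ≤ C n^c (2^{n/2})^e` for `n ≥ 1` -/
def PB (e : ℕ) (f : ℕ → ℝ) : Prop :=
  ∃ (C : ℝ) (c : ℕ), 0 < C ∧ ∀ n : ℕ, 1 ≤ n → f n ≤ C * (n : ℝ) ^ c * sN n ^ e

theorem PB.add {e : ℕ} {f g : ℕ → ℝ} (hf : PB e f) (hg : PB e g) :
    PB e (fun n => f n + g n) := by
  obtain ⟨C, c, hC, h1⟩ := hf
  obtain ⟨D, d, hD, h2⟩ := hg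
  refine ⟨C + D, c + d, by positivity, fun n hn => ?_⟩
  have hn' : (1 : ℝ) ≤ n := by exact_mod_cast hn
  have a1 : (n : ℝ) ^ c ≤ (n : ℝ) ^ (c + d) := pow_le_pow_right₀ hn' (by omega)
  have a2 : (n : ℝ) ^ d ≤ (n : ℝ) ^ (c + d) := pow_le_pow_right₀ hn' (by omega)
  have hs := sN_pos n
  have b1 : C * (n : ℝ) ^ c * sN n ^ e ≤ C * (n : ℝ) ^ (c + d) * sN n ^ e := by gcongr
  have b2 : D * (n : ℝ) ^ d * sN n ^ e ≤ D * (n : ℝ) ^ (c + d) * sN n ^ e := by gcongr
  have := h1 n hn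
  have := h2 n hn
  calc f n + g n ≤ C * (n : ℝ) ^ (c + d) * sN n ^ e + D * (n : ℝ) ^ (c + d) * sN n ^ e := by
        linarith
    _ = (C + D) * (n : ℝ) ^ (c + d) * sN n ^ e := by ring

theorem PB.mul {e e' : ℕ} {f g : ℕ → ℝ} (hf : PB e f) (hg : PB e' g)
    (g0 : ∀ n, 0 ≤ g n) : PB (e + e') (fun n => f n * g n) := by
  obtain ⟨C, c, hC, h1⟩ := hf
  obtain ⟨D, d, hD, h2⟩ := hg
  refine ⟨C * D, c + d, by positivity, fun n hn => ?_⟩
  have hs := sN_pos n
  calc f n * g n ≤ (C * (n : ℝ) ^ c * sN n ^ e) * (D * (n : ℝ) ^ d * sN n ^ e') :=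
        mul_le_mul (h1 n hn) (h2 n hn) (g0 n) (by positivity)
    _ = C * D * (n : ℝ) ^ (c + d) * sN n ^ (e + e') := by rw [pow_add, pow_add]; ring

theorem PB.const {x : ℝ} : PB 0 (fun _ => x) := by
  refine ⟨|x| + 1, 0, by positivity, fun n _ => ?_⟩
  have := le_abs_self x
  simp only [pow_zero, mul_one]
  linarith

theorem PB.id : PB 0 (fun n => (n : ℝ)) := by
  refine ⟨1, 1, by positivity, fun n _ => ?_⟩
  simp

theorem PB.sqN : PB 1 (fun n => sN n) := by
  refine ⟨1, 0, by positivity, fun n _ => ?_⟩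
  simp

theorem PB.mono {e : ℕ} {f g : ℕ → ℝ} (hf : PB e f) (h : ∀ n, 1 ≤ n → g n ≤ f n) : PB e g := by
  obtain ⟨C, c, hC, h1⟩ := hf
  exact ⟨C, c, hC, fun n hn => (h n hn).trans (h1 n hn)⟩

theorem PB.lift {e : ℕ} {f : ℕ → ℝ} (hf : PB 0 f) : PB e f := by
  obtain ⟨C, c, hC, h1⟩ := hf
  refine ⟨C, c, hC, fun n hn => (h1 n hn).trans ?_⟩
  have : 1 ≤ sN n ^ e := one_le_pow₀ (sN_one_le n)
  simp only [pow_zero, mul_one]
  exact le_mul_of_one_le_right (by positivity) this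

theorem PB.ceil {e : ℕ} {f : ℕ → ℝ} (hf : PB e f) (h0 : ∀ n, 1 ≤ n → 0 ≤ f n) :
    PB e (fun n => ((⌈f n⌉₊ : ℕ) : ℝ)) := by
  refine (hf.add (PB.lift (PB.const (x := 1)))).mono fun n hn => ?_
  exact (Nat.ceil_lt_add_one (h0 n hn)).le

theorem PB.pow {f : ℕ → ℝ} (hf : PB 0 f) (f0 : ∀ n, 0 ≤ f n) (k : ℕ) :
    PB 0 (fun n => f n ^ k) := by
  induction k with
  | zero => simpa using (PB.const (x := 1))
  | succ k ih => simpa [pow_succ] using ih.mul hf f0

theorem inv_del {n r : ℕ} : (del n r)⁻¹ = 2 * ((Cr r : ℝ) * n) ^ r := by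
  unfold del
  rw [inv_div, one_div, inv_pow, div_inv_eq_mul]

theorem PB.inv_del (r : ℕ) : PB 0 (fun n => (del n r)⁻¹) := by
  have h1 : PB 0 (fun n => ((Cr r : ℝ) * n) ^ r) :=
    PB.pow (PB.mul PB.const PB.id (fun n => by positivity)) (fun n => by positivity) r
  have h2 := (PB.const (x := 2)).mul h1 (fun n => by positivity)
  refine PB.mono h2 fun n _ => ?_
  rw [P362.inv_del]

theorem del_nonneg (n r : ℕ) : 0 ≤ del n r := by
  unfold del
  positivity

theorem qcost_le (r : ℕ) : ∃ (C : ℝ) (c : ℕ), 0 < C ∧ ∀ᶠ n : ℕ in atTop,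
    (qcost n r (del n r) : ℝ) ≤ C * (n : ℝ) ^ c * sN n := by
  have d0 := fun n => del_nonneg n r
  have hi := PB.inv_del r
  have hi0 : ∀ n, 0 ≤ (del n r)⁻¹ := fun n => inv_nonneg.2 (d0 n)
  have hi2 : PB 0 (fun n => ((del n r)⁻¹) ^ 2) := hi.pow hi0 2
  -- `Jn`
  have hJ : PB 1 (fun n => ((Jn n (del n r) : ℕ) : ℝ)) := by
    unfold Jn
    refine PB.ceil ?_ (fun n _ => div_nonneg (by have := sN_pos n; positivity) (d0 n))
    have h := ((PB.const (x := 2)).mul hi hi0).mul PB.sqN (fun n => (sN_pos n).le)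
    refine PB.mono h fun n _ => le_of_eq ?_
    rw [div_eq_mul_inv]
    ring
  -- `cdepth`
  have hlin : ∀ a b : ℝ, PB 0 (fun n => a * (n : ℝ) + b) := fun a b =>
    ((PB.const (x := a)).mul PB.id (fun n => by positivity)).add PB.const
  have hcd : PB 0 (fun n => ((cdepth n r : ℕ) : ℝ)) := by
    refine PB.mono (hlin (3 * (r + 1) + 1) 8) fun n _ => ?_
    unfold cdepth wlen
    push_cast
    linarith
  -- `sampleCost`
  have hS : PB 1 (fun n => ((sampleCost n r (del n r) : ℕ) : ℝ)) := by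
    unfold sampleCost
    have h1 : PB 0 (fun n : ℕ => 2 * (2 * ((r : ℝ) + 1)) + 2 * (6 * n * (2 * n + 2))) := by
      refine PB.add PB.const (PB.mul PB.const (PB.mul (PB.mul PB.const PB.id ?_) (hlin 2 2) ?_) ?_)
      · intro n; positivity
      · intro n; positivity
      · intro n; positivity
    have h2 := PB.add (PB.lift (e := 1) (PB.const (x := 2 * ((r : ℝ) + 1))))
      (hJ.mul h1 (fun n => by positivity))
    refine PB.mono h2 fun n _ => ?_
    push_cast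
    exact le_rfl
  -- `Jc`
  have hJc : PB 1 (fun n => ((Jc n r : ℕ) : ℝ)) := by
    unfold Jc
    refine PB.ceil ?_ (fun n _ => by positivity)
    have h := PB.mul (PB.const (x := 2)) (PB.mul (PB.mul (PB.const (x := 2 * (r : ℝ) + 5)) PB.id
      (fun n => by positivity)) PB.sqN (fun n => (sN_pos n).le)) (fun n => by
        have := sN_pos n
        positivity)
    refine PB.mono h fun n hn => ?_
    have hn' : (1 : ℝ) ≤ n := by exact_mod_cast hn
    have hr0 : (0 : ℝ) ≤ r := Nat.cast_nonneg r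
    refine mul_le_mul_of_nonneg_left ?_ (by norm_num)
    have hs := sN_pos n
    apply Real.sqrt_le_iff.2
    refine ⟨by positivity, ?_⟩
    rw [card_Chk]
    push_cast
    have e1 : ((2 * (r : ℝ) + 5) * n * sN n) ^ 2 = (2 * (r : ℝ) + 5) ^ 2 * (n : ℝ) ^ 2 * 2 ^ n := by
      rw [← sN_sq]; ring
    rw [e1]
    have hp : (1 : ℝ) ≤ 2 ^ n := one_le_pow₀ (by norm_num)
    have hp0 : (0 : ℝ) < 2 ^ n := by positivity
    have e2 : ((r : ℝ) + 1) * 2 ^ n * (n + 1) + 1 + 2 * 2 ^ n ≤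
        (((r : ℝ) + 1) * (n + 1) + 3) * 2 ^ n := by nlinarith
    refine e2.trans (mul_le_mul_of_nonneg_right ?_ hp0.le)
    have e3 : ((r : ℝ) + 1) * (n + 1) + 3 ≤ (2 * r + 5) * n := by nlinarith
    have e4 : (2 * (r : ℝ) + 5) * n ≤ (2 * (r : ℝ) + 5) ^ 2 * (n : ℝ) ^ 2 := by
      have : (1 : ℝ) ≤ (2 * (r : ℝ) + 5) * n := by nlinarith
      calc (2 * (r : ℝ) + 5) * n = (2 * (r : ℝ) + 5) * n * 1 := by ring
        _ ≤ (2 * (r : ℝ) + 5) * n * ((2 * (r : ℝ) + 5) * n) :=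
            mul_le_mul_of_nonneg_left this (by linarith)
        _ = (2 * (r : ℝ) + 5) ^ 2 * (n : ℝ) ^ 2 := by ring
    linarith
  -- `rep`
  have hrep : PB 0 (fun n => ((rep (del n r) : ℕ) : ℝ)) := by
    unfold rep
    have h1 := (PB.const (x := 3200)).mul hi2 (fun n => by have := hi0 n; positivity)
    have h2 := h1.add (PB.const (x := 1))
    refine PB.mono h2 fun n _ => ?_
    have h3 : 4 * Real.log (800 / del n r ^ 2) ≤ 3200 * ((del n r)⁻¹) ^ 2 := by
      have h4 : Real.log (800 / del n r ^ 2) ≤ 800 / del n r ^ 2 :=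
        Real.log_le_self (by have := d0 n; positivity)
      have h5 : 800 / del n r ^ 2 = 800 * ((del n r)⁻¹) ^ 2 := by
        rw [div_eq_mul_inv, inv_pow]
      linarith
    by_cases h : 0 ≤ 4 * Real.log (800 / del n r ^ 2)
    · have := (Nat.ceil_lt_add_one h).le
      linarith
    · push Not at h
      rw [Nat.ceil_eq_zero.2 h.le]
      have := hi0 n
      push_cast
      positivity
  -- `checkCost`
  have hC : PB 1 (fun n => ((checkCost n r (del n r) : ℕ) : ℝ)) := by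
    unfold checkCost
    have h1 := hrep.mul (e' := 1) ((hJc.mul (PB.mul (PB.const (x := 2)) hcd
      (fun n => by positivity)) (fun n => by positivity)).add (PB.lift hcd))
      (fun n => by positivity)
    refine PB.mono h1 fun n _ => ?_
    push_cast
    exact le_rfl
  -- total
  have hT : PB 1 (fun n => ((qcost n r (del n r) : ℕ) : ℝ)) := by
    unfold qcost
    have h0 : PB 0 (fun n => ((⌈2 / (del n r ^ 2 / 8)⌉₊ : ℕ) : ℝ)) := by
      refine PB.ceil ?_ (fun n _ => by have := d0 n; positivity)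
      have h1 := (PB.const (x := 16)).mul hi2 (fun n => by have := hi0 n; positivity)
      refine PB.mono h1 fun n _ => le_of_eq ?_
      rw [inv_pow, div_div_eq_mul_div, div_eq_mul_inv]
      norm_num
    have h1 := h0.mul (e' := 1) (((hlin 6 1).mul hS (fun n => by positivity)).add hC)
      (fun n => by positivity)
    refine PB.mono h1 fun n _ => ?_
    push_cast
    exact le_rfl
  obtain ⟨C, c, hC0, h⟩ := hT
  refine ⟨C, c, hC0, ?_⟩
  filter_upwards [eventually_ge_atTop 1] with n hn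
  simpa using h n hn

end P362
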