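import Vale.Agent.P362.Mle

/-!
# P362, module DTDERIV (section 4 of the note): decision tree derivative bound
-/

namespace P362

open scoped BigOperators

section dt

variable {I : Type} [Fintype I] [DecidableEq I]

/-- density factor -/
noncomputable def dtw (z : I → ℝ) (y : I → Bool) : ℝ := ∏ i, (1 + sR (y i) * z i) / 2

/-- normalised centred coordinate -/
noncomputable def dphi (z : I → ℝ) (i : I) (b : Bool) : ℝ := sR b / (1 + sR b * z i)

/-- homogeneous polynomial in the centred coordinates of `Q` -/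
noncomputable def dP (z : I → ℝ) (c : Finset I → ℝ) (d : ℕ) (Q : Finset I) (y : I → Bool) : ℝ :=
  ∑ S ∈ Finset.powersetCard d Q, c S * ∏ i ∈ S, dphi z i (y i)

/-- one step of the run of a tree -/
def dstp (y : I → Bool) : DTree I Bool × Finset I → DTree I Bool × Finset I
  | (.leaf a, Q) => (.leaf a, Q)
  | (.node i t0 t1, Q) => (if y i then t1 else t0, insert i Q)

/-- state after `t` steps -/
def drun (T : DTree I Bool) (y : I → Bool) : ℕ → DTree I Bool × Finset I
  | 0 => (T, ∅)
  | t + 1 => dstp y (drun T y t)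

/-- flip one coordinate -/
def dflip (i : I) (y : I → Bool) : I → Bool := Function.update y i (!y i)

omit [Fintype I] in
theorem dflip_flip (i : I) (y : I → Bool) : dflip i (dflip i y) = y := by
  unfold dflip
  funext j
  by_cases h : j = i
  · subst h; simp
  · simp [h]

omit [Fintype I] in
theorem dflip_ne (i : I) (y : I → Bool) : dflip i y ≠ y := by
  intro h
  have := congrFun h i
  simp [dflip] at this

omit [Fintype I] in
theorem dflip_of_ne {i j : I} (h : j ≠ i) (y : I → Bool) : dflip i y j = y j := by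
  simp [dflip, h]

omit [Fintype I] in
theorem sub_drun (T : DTree I Bool) (y : I → Bool) (t : ℕ) :
    (drun T y t).2 ⊆ (drun T y (t + 1)).2 := by
  show (drun T y t).2 ⊆ (dstp y (drun T y t)).2
  rcases h : drun T y t with ⟨R, Q⟩
  cases R with
  | leaf a => exact subset_rfl
  | node i t0 t1 => exact Finset.subset_insert _ _

omit [Fintype I] in
/-- flipping a coordinate that is not queried does not change the run -/
theorem drun_flip (T : DTree I Bool) (y : I → Bool) (i : I) (t : ℕ) (hi : i ∉ (drun T y t).2) :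
    drun T (dflip i y) t = drun T y t := by
  induction t with
  | zero => rfl
  | succ t ih =>
    have h1 : i ∉ (drun T y t).2 := fun h => hi (sub_drun T y t h)
    have h2 := ih h1
    show dstp (dflip i y) (drun T (dflip i y) t) = dstp y (drun T y t)
    rw [h2]
    have h3 : i ∉ (dstp y (drun T y t)).2 := hi
    rcases h : drun T y t with ⟨R, Q⟩
    rw [h] at h3
    cases R with
    | leaf a => rfl
    | node j t0 t1 =>
      have h4 : j ≠ i := by
        rintro rfl
        exact h3 (Finset.mem_insert_self _ _)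
      simp only [dstp, dflip_of_ne h4]

omit [Fintype I] [DecidableEq I] in
theorem one_add_pos' (z : I → ℝ) (hz : ∀ i, |z i| ≤ 1 / 2) (i : I) (b : Bool) :
    1 / 2 ≤ 1 + sR b * z i := by
  have := abs_le.mp (hz i)
  unfold sR
  cases b <;> simp <;> linarith

omit [DecidableEq I] in
theorem dtw_pos (z : I → ℝ) (hz : ∀ i, |z i| ≤ 1 / 2) (y : I → Bool) : 0 < dtw z y := by
  unfold dtw
  apply Finset.prod_pos
  intro i _
  have := one_add_pos' z hz i (y i)
  linarith

theorem dtw_sum (z : I → ℝ) : ∑ y : I → Bool, dtw z y = 1 := by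
  unfold dtw
  have h := Finset.prod_univ_sum (fun _ : I => (Finset.univ : Finset Bool))
    (fun (i : I) (b : Bool) => (1 + sR b * z i) / 2)
  rw [Fintype.piFinset_univ] at h
  rw [← h]
  apply Finset.prod_eq_one
  intro i _
  simp [sR]
  ring

omit [Fintype I] [DecidableEq I] in
theorem dphi_le (z : I → ℝ) (hz : ∀ i, |z i| ≤ 1 / 2) (i : I) (b : Bool) :
    (dphi z i b) ^ 2 ≤ 4 := by
  have h := one_add_pos' z hz i b
  unfold dphi
  rw [div_pow, div_le_iff₀ (by positivity)]
  have h1 : sR b ^ 2 = 1 := by unfold sR; cases b <;> norm_num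
  rw [h1]
  nlinarith

theorem dtw_flip (z : I → ℝ) (hz : ∀ i, |z i| ≤ 1 / 2) (i : I) (y : I → Bool) :
    dtw z y * dphi z i (y i) + dtw z (dflip i y) * dphi z i (dflip i y i) = 0 := by
  have key : ∀ y : I → Bool, dtw z y * dphi z i (y i) =
      sR (y i) / 2 * ∏ j ∈ Finset.univ.erase i, (1 + sR (y j) * z j) / 2 := by
    intro y
    unfold dtw dphi
    rw [← Finset.mul_prod_erase Finset.univ _ (Finset.mem_univ i)]
    have h := one_add_pos' z hz i (y i)
    have h0 : (1 + sR (y i) * z i) ≠ 0 := by positivity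
    field_simp
  rw [key, key]
  have h1 : ∏ j ∈ Finset.univ.erase i, (1 + sR (dflip i y j) * z j) / 2 =
      ∏ j ∈ Finset.univ.erase i, (1 + sR (y j) * z j) / 2 := by
    apply Finset.prod_congr rfl
    intro j hj
    rw [dflip_of_ne (Finset.ne_of_mem_erase hj)]
  rw [h1]
  have h2 : sR (dflip i y i) = - sR (y i) := by
    simp only [dflip, Function.update_self]
    unfold sR
    cases y i <;> simp
  rw [h2]
  ring

omit [Fintype I] in
theorem dP_flip (z : I → ℝ) (c : Finset I → ℝ) (d : ℕ) (Q : Finset I) (y : I → Bool) (i : I)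
    (hi : i ∉ Q) : dP z c d Q (dflip i y) = dP z c d Q y := by
  unfold dP
  apply Finset.sum_congr rfl
  intro S hS
  rw [Finset.mem_powersetCard] at hS
  congr 1
  apply Finset.prod_congr rfl
  intro j hj
  rw [dflip_of_ne]
  rintro rfl
  exact hi (hS.1 hj)

omit [Fintype I] in
theorem dP_insert (z : I → ℝ) (c : Finset I → ℝ) (d : ℕ) (Q : Finset I) (y : I → Bool) (i : I)
    (hi : i ∉ Q) : dP z c (d + 1) (insert i Q) y =
      dP z c (d + 1) Q y + dphi z i (y i) * dP z (fun S => c (insert i S)) d Q y := by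
  unfold dP
  rw [Finset.powersetCard_succ_insert hi, Finset.sum_union]
  · congr 1
    rw [Finset.sum_image]
    · rw [Finset.mul_sum]
      apply Finset.sum_congr rfl
      intro S hS
      rw [Finset.mem_powersetCard] at hS
      have h1 : i ∉ S := fun h => hi (hS.1 h)
      rw [Finset.prod_insert h1]
      ring
    · intro S hS S' hS' h
      have hS1 := (Finset.mem_powersetCard.mp hS).1
      have hS2 := (Finset.mem_powersetCard.mp hS').1
      have h1 : i ∉ S := fun h => hi (hS1 h)
      have h2 : i ∉ S' := fun h => hi (hS2 h)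
      rw [← Finset.erase_insert h1, ← Finset.erase_insert h2, h]
  · rw [Finset.disjoint_left]
    intro S hS hS'
    rw [Finset.mem_image] at hS'
    obtain ⟨S', _, rfl⟩ := hS'
    exact hi ((Finset.mem_powersetCard.mp hS).1 (Finset.mem_insert_self _ _))

/-- pointwise binomial estimate -/
theorem pow_add_le (p : ℕ) (hp : 1 ≤ p) (S D : ℝ) :
    (S + D) ^ (2 * p) ≤ S ^ (2 * p) + 2 * p * (S ^ (2 * p - 1) * D) +
      ((4 : ℝ) ^ p - 1 - 2 * p) * (S ^ (2 * p - 2) * D ^ 2 + D ^ (2 * p)) := by
  obtain ⟨n, hn⟩ : ∃ n, 2 * p = n + 2 := ⟨2 * p - 2, by omega⟩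
  have h2p : (2 : ℝ) * p = n + 2 := by exact_mod_cast hn
  have h4 : (4 : ℝ) ^ p = 2 ^ (n + 2) := by
    rw [← hn, pow_mul]; norm_num
  rw [add_pow, hn]
  have e1 : n + 2 - 1 = n + 1 := by omega
  have e2 : n + 2 - 2 = n := by omega
  rw [e1, e2, h4, h2p]
  have hbin : ∑ m ∈ Finset.range (n + 2 + 1), ((n + 2).choose m : ℝ) = 2 ^ (n + 2) := by
    have := Nat.sum_range_choose (n + 2)
    exact_mod_cast this
  -- reindex: the terms S^0.. ; use the top two terms in S
  have hterm : ∀ m ∈ Finset.range (n + 1), S ^ m * D ^ (n + 2 - m) * ((n + 2).choose m : ℝ) ≤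
      (S ^ n * D ^ 2 + D ^ (n + 2)) * ((n + 2).choose m : ℝ) := by
    intro m hm
    rw [Finset.mem_range] at hm
    apply mul_le_mul_of_nonneg_right _ (by positivity)
    have hev : Even n := ⟨p - 1, by omega⟩
    have hev2 : Even (n + 2) := ⟨p, by omega⟩
    have hS : S ^ n = |S| ^ n := (hev.pow_abs S).symm
    have hD : D ^ (n + 2) = |D| ^ (n + 2) := (hev2.pow_abs D).symm
    have hD2 : D ^ 2 = |D| ^ 2 := (sq_abs D).symm
    have h1 : S ^ m * D ^ (n + 2 - m) ≤ |S| ^ m * |D| ^ (n + 2 - m) := by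
      calc S ^ m * D ^ (n + 2 - m) ≤ |S ^ m * D ^ (n + 2 - m)| := le_abs_self _
        _ = |S| ^ m * |D| ^ (n + 2 - m) := by rw [abs_mul, abs_pow, abs_pow]
    refine h1.trans ?_
    rw [hS, hD, hD2]
    have hs0 := abs_nonneg S
    have hd0 := abs_nonneg D
    rcases le_total |D| |S| with h | h
    · have e : |D| ^ (n + 2 - m) = |D| ^ (n - m) * |D| ^ 2 := by
        rw [← pow_add]; congr 1; omega
      have e' : |S| ^ n = |S| ^ m * |S| ^ (n - m) := by
        rw [← pow_add]; congr 1; omega
      have h3 : |D| ^ (n - m) ≤ |S| ^ (n - m) := pow_le_pow_left₀ hd0 h _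
      calc |S| ^ m * |D| ^ (n + 2 - m) = |S| ^ m * |D| ^ (n - m) * |D| ^ 2 := by rw [e]; ring
        _ ≤ |S| ^ m * |S| ^ (n - m) * |D| ^ 2 := by gcongr
        _ = |S| ^ n * |D| ^ 2 := by rw [e']
        _ ≤ |S| ^ n * |D| ^ 2 + |D| ^ (n + 2) := by
          have : 0 ≤ |D| ^ (n + 2) := by positivity
          linarith
    · have e : |D| ^ (n + 2) = |D| ^ m * |D| ^ (n + 2 - m) := by
        rw [← pow_add]; congr 1; omega
      have h3 : |S| ^ m ≤ |D| ^ m := pow_le_pow_left₀ hs0 h _
      calc |S| ^ m * |D| ^ (n + 2 - m) ≤ |D| ^ m * |D| ^ (n + 2 - m) := by gcongr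
        _ = |D| ^ (n + 2) := e.symm
        _ ≤ |S| ^ n * |D| ^ 2 + |D| ^ (n + 2) := by
          have : 0 ≤ |S| ^ n * |D| ^ 2 := by positivity
          linarith
  rw [Finset.sum_range_succ, Finset.sum_range_succ] at hbin ⊢
  have c1 : ((n + 2).choose (n + 1) : ℝ) = n + 2 := by
    have : (n + 2).choose (n + 1) = n + 2 := Nat.choose_succ_self_right (n + 1)
    rw [this]; push_cast; ring
  have c2 : ((n + 2).choose (n + 2) : ℝ) = 1 := by simp
  rw [c1, c2] at hbin
  rw [c1, c2]
  have hsum := Finset.sum_le_sum hterm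
  rw [← Finset.mul_sum] at hsum
  have e3 : n + 2 - (n + 1) = 1 := by omega
  rw [e3, Nat.sub_self, pow_zero, pow_one]
  have hb : ∑ m ∈ Finset.range (n + 1), ((n + 2).choose m : ℝ) = 2 ^ (n + 2) - 1 - (n + 2) := by
    linarith
  rw [hb] at hsum
  linarith

/-- tangent line inequality -/
theorem tangent_pow (p : ℕ) (a b : ℝ) (ha : 0 ≤ a) (hb : 0 ≤ b) :
    (p + 1) * (a ^ p * b) ≤ p * a ^ (p + 1) + b ^ (p + 1) := by
  rcases ha.eq_or_lt with h | h
  · subst h
    rcases Nat.eq_zero_or_pos p with h0 | h0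
    · subst h0; simp
    · rw [zero_pow (by omega), zero_pow (by omega)]
      simp
      positivity
  · have h1 : -2 ≤ b / a - 1 := by
      have : 0 ≤ b / a := by positivity
      linarith
    have h2 := one_add_mul_le_pow h1 (p + 1)
    have h3 : (1 + (b / a - 1)) = b / a := by ring
    rw [h3, div_pow, le_div_iff₀ (by positivity)] at h2
    push_cast at h2
    have h4 : (1 + ((p : ℝ) + 1) * (b / a - 1)) * a ^ (p + 1) =
        (p + 1) * (a ^ p * b) - p * a ^ (p + 1) := by
      field_simp
      ring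
    linarith

/-- the next coordinate that is queried for the first time -/
def dnx (s : DTree I Bool × Finset I) : Option I :=
  match s.1 with
  | .leaf _ => none
  | .node i _ _ => if i ∈ s.2 then none else some i

omit [Fintype I] in
theorem dnx_not_mem (s : DTree I Bool × Finset I) (i : I) (h : dnx s = some i) : i ∉ s.2 := by
  rcases s with ⟨R, Q⟩
  cases R with
  | leaf a => simp [dnx] at h
  | node j t0 t1 =>
    simp only [dnx] at h
    by_cases hj : j ∈ Q
    · rw [if_pos hj] at h; exact absurd h (by simp)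
    · rw [if_neg hj] at h
      simp only [Option.some.injEq] at h
      subst h; exact hj

/-- increment of the polynomial at step `t` -/
noncomputable def dD (z : I → ℝ) (c : Finset I → ℝ) (d : ℕ) (T : DTree I Bool) (t : ℕ)
    (y : I → Bool) : ℝ :=
  match dnx (drun T y t) with
  | none => 0
  | some i => dphi z i (y i) * dP z (fun S => c (insert i S)) d (drun T y t).2 y

omit [Fintype I] in
theorem dP_succ (z : I → ℝ) (c : Finset I → ℝ) (d : ℕ) (T : DTree I Bool) (t : ℕ)
    (y : I → Bool) : dP z c (d + 1) (drun T y (t + 1)).2 y =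
      dP z c (d + 1) (drun T y t).2 y + dD z c d T t y := by
  show dP z c (d + 1) (dstp y (drun T y t)).2 y = _
  unfold dD
  rcases h : drun T y t with ⟨R, Q⟩
  cases R with
  | leaf a => simp [dstp, dnx]
  | node i t0 t1 =>
    simp only [dstp, dnx]
    by_cases hi : i ∈ Q
    · rw [Finset.insert_eq_of_mem hi, if_pos hi, add_zero]
    · rw [dP_insert z c d Q y i hi, if_neg hi]

/-- the involution flipping the next queried coordinate -/
def dinv (T : DTree I Bool) (t : ℕ) (y : I → Bool) : I → Bool :=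
  match dnx (drun T y t) with
  | none => y
  | some i => dflip i y

omit [Fintype I] in
theorem drun_dinv (T : DTree I Bool) (t : ℕ) (y : I → Bool) :
    drun T (dinv T t y) t = drun T y t := by
  unfold dinv
  rcases h : dnx (drun T y t) with _ | i
  · rfl
  · exact drun_flip T y i t (dnx_not_mem _ _ h)

omit [Fintype I] in
theorem dinv_dinv (T : DTree I Bool) (t : ℕ) (y : I → Bool) :
    dinv T t (dinv T t y) = y := by
  have h2 : dinv T t (dinv T t y) = match dnx (drun T y t) with
      | none => dinv T t y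
      | some i => dflip i (dinv T t y) := by
    show (match dnx (drun T (dinv T t y) t) with
      | none => dinv T t y
      | some i => dflip i (dinv T t y)) = _
    rw [drun_dinv]
  rw [h2]
  unfold dinv
  rcases h : dnx (drun T y t) with _ | i
  · rfl
  · simp only [dflip_flip]

theorem d_orth (z : I → ℝ) (hz : ∀ i, |z i| ≤ 1 / 2) (c : Finset I → ℝ) (d k : ℕ)
    (T : DTree I Bool) (t : ℕ) :
    ∑ y : I → Bool, dtw z y * (dP z c (d + 1) (drun T y t).2 y ^ k * dD z c d T t y) = 0 := by
  refine Finset.sum_involution (fun y _ => dinv T t y) ?_ ?_ (fun _ _ => Finset.mem_univ _)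
    (fun y _ => dinv_dinv T t y)
  · intro y _
    have h1 := drun_dinv T t y
    have hD : ∀ y', drun T y' t = drun T y t → dD z c d T t y' =
        (match dnx (drun T y t) with
          | none => 0
          | some i => dphi z i (y' i) * dP z (fun S => c (insert i S)) d (drun T y t).2 y') := by
      intro y' hy'
      unfold dD
      rw [hy']
    rw [hD _ h1, hD y rfl, h1]
    unfold dinv
    rcases h : dnx (drun T y t) with _ | i
    · simp
    · have hi := dnx_not_mem _ _ h
      simp only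
      rw [dP_flip z c (d + 1) _ y i hi, dP_flip z _ d _ y i hi]
      have h2 := dtw_flip z hz i y
      calc _ = (dtw z y * dphi z i (y i) + dtw z (dflip i y) * dphi z i (dflip i y i)) *
            (dP z c (d + 1) (drun T y t).2 y ^ k *
              dP z (fun S => c (insert i S)) d (drun T y t).2 y) := by ring
        _ = 0 := by rw [h2, zero_mul]
  · intro y _ hne heq
    apply hne
    have hh : dD z c d T t y = 0 := by
      unfold dD
      unfold dinv at heq
      rcases h : dnx (drun T y t) with _ | i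
      · rfl
      · rw [h] at heq
        exact absurd heq (dflip_ne i y)
    rw [hh]; ring

/-- one step of the moment recursion -/
theorem moment_step {ι : Type} (A : Finset ι) (w S D : ι → ℝ) (hw : ∀ i ∈ A, 0 ≤ w i) (p : ℕ)
    (hp : 1 ≤ p) (s b : ℝ) (hs : 1 ≤ s) (hb : 0 ≤ b)
    (hS : ∑ i ∈ A, w i * S i ^ (2 * p) ≤ s ^ p * b) (hD : ∑ i ∈ A, w i * D i ^ (2 * p) ≤ b)
    (h0 : ∑ i ∈ A, w i * (S i ^ (2 * p - 1) * D i) = 0) :
    ∑ i ∈ A, w i * (S i + D i) ^ (2 * p) ≤ (s + 4 ^ p) ^ p * b := by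
  obtain ⟨q, rfl⟩ : ∃ q, p = q + 1 := ⟨p - 1, by omega⟩
  have hs0 : 0 < s := by linarith
  set K : ℝ := (4 : ℝ) ^ (q + 1) - 1 - 2 * ((q + 1 : ℕ) : ℝ) with hK
  have hK0 : 0 ≤ K := by
    have h1 : (1 : ℝ) + ((q + 1 : ℕ) : ℝ) * 3 ≤ (1 + 3) ^ (q + 1) :=
      one_add_mul_le_pow (by norm_num) (q + 1)
    have h2 : (1 : ℝ) + 3 = 4 := by norm_num
    rw [h2] at h1
    have h3 : (0 : ℝ) ≤ ((q + 1 : ℕ) : ℝ) := by positivity
    rw [hK]; linarith
  have hK2 : 2 * K ≤ (q + 1) * 4 ^ (q + 1) := by
    rcases Nat.eq_zero_or_pos q with h | h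
    · subst h; rw [hK]; norm_num
    · have h1 : (1 : ℝ) ≤ q := by exact_mod_cast h
      have h2 : (0 : ℝ) < 4 ^ (q + 1) := by positivity
      have h3 : (0 : ℝ) ≤ ((q + 1 : ℕ) : ℝ) := by positivity
      rw [hK]; nlinarith
  -- mixed term
  have hmix : ∑ i ∈ A, w i * (S i ^ (2 * (q + 1) - 2) * D i ^ 2) ≤ s ^ q * b := by
    have e : 2 * (q + 1) - 2 = 2 * q := by omega
    rw [e]
    have hpt : ∀ i ∈ A, w i * (S i ^ (2 * q) * D i ^ 2) ≤
        s ^ q / (q + 1) * (q / s ^ (q + 1) * (w i * S i ^ (2 * (q + 1))) +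
          w i * D i ^ (2 * (q + 1))) := by
      intro i hi
      have h1 := tangent_pow q (S i ^ 2 / s) (D i ^ 2) (by positivity) (by positivity)
      rw [div_pow, div_pow, ← pow_mul, ← pow_mul, ← pow_mul] at h1
      have h2 : S i ^ (2 * q) * D i ^ 2 ≤
          s ^ q / (q + 1) * (q / s ^ (q + 1) * S i ^ (2 * (q + 1)) + D i ^ (2 * (q + 1))) := by
        have h3 : S i ^ (2 * q) * D i ^ 2 =
            s ^ q / (q + 1) * ((q + 1) * (S i ^ (2 * q) / s ^ q * D i ^ 2)) := by
          field_simp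
        rw [h3]
        apply mul_le_mul_of_nonneg_left _ (by positivity)
        refine h1.trans (le_of_eq ?_)
        ring
      calc w i * (S i ^ (2 * q) * D i ^ 2) ≤ w i * _ := mul_le_mul_of_nonneg_left h2 (hw i hi)
        _ = _ := by ring
    calc _ ≤ ∑ i ∈ A, s ^ q / (q + 1) * (q / s ^ (q + 1) * (w i * S i ^ (2 * (q + 1))) +
          w i * D i ^ (2 * (q + 1))) := Finset.sum_le_sum hpt
      _ = s ^ q / (q + 1) * (q / s ^ (q + 1) * ∑ i ∈ A, w i * S i ^ (2 * (q + 1)) +
          ∑ i ∈ A, w i * D i ^ (2 * (q + 1))) := by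
        rw [← Finset.mul_sum, Finset.sum_add_distrib, ← Finset.mul_sum]
      _ ≤ s ^ q / (q + 1) * (q / s ^ (q + 1) * (s ^ (q + 1) * b) + b) := by
        apply mul_le_mul_of_nonneg_left _ (by positivity)
        apply add_le_add _ hD
        exact mul_le_mul_of_nonneg_left hS (by positivity)
      _ = s ^ q * b := by field_simp
  have hpt : ∀ i ∈ A, w i * (S i + D i) ^ (2 * (q + 1)) ≤
      w i * S i ^ (2 * (q + 1)) + 2 * ((q + 1 : ℕ) : ℝ) * (w i * (S i ^ (2 * (q + 1) - 1) * D i)) +
      K * (w i * (S i ^ (2 * (q + 1) - 2) * D i ^ 2) + w i * D i ^ (2 * (q + 1))) := by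
    intro i hi
    have h1 := mul_le_mul_of_nonneg_left (pow_add_le (q + 1) hp (S i) (D i)) (hw i hi)
    refine h1.trans (le_of_eq ?_)
    rw [hK]
    ring
  have htan := tangent_pow q s (s + 4 ^ (q + 1)) hs0.le (by positivity)
  calc _ ≤ ∑ i ∈ A, (w i * S i ^ (2 * (q + 1)) +
        2 * ((q + 1 : ℕ) : ℝ) * (w i * (S i ^ (2 * (q + 1) - 1) * D i)) +
        K * (w i * (S i ^ (2 * (q + 1) - 2) * D i ^ 2) + w i * D i ^ (2 * (q + 1)))) :=
        Finset.sum_le_sum hpt
    _ = ∑ i ∈ A, w i * S i ^ (2 * (q + 1)) +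
        2 * ((q + 1 : ℕ) : ℝ) * ∑ i ∈ A, (w i * (S i ^ (2 * (q + 1) - 1) * D i)) +
        K * (∑ i ∈ A, w i * (S i ^ (2 * (q + 1) - 2) * D i ^ 2) +
          ∑ i ∈ A, w i * D i ^ (2 * (q + 1))) := by
        rw [Finset.sum_add_distrib, Finset.sum_add_distrib, ← Finset.mul_sum, ← Finset.mul_sum,
          Finset.sum_add_distrib]
    _ ≤ s ^ (q + 1) * b + 2 * ((q + 1 : ℕ) : ℝ) * 0 + K * (s ^ q * b + b) := by
        rw [h0]
        have := mul_le_mul_of_nonneg_left (add_le_add hmix hD) hK0
        linarith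
    _ ≤ s ^ (q + 1) * b + 2 * K * (s ^ q * b) := by
        have h1 : (1 : ℝ) ≤ s ^ q := one_le_pow₀ hs
        have h2 : b ≤ s ^ q * b := by nlinarith
        have h3 := mul_le_mul_of_nonneg_left h2 hK0
        linarith
    _ ≤ s ^ (q + 1) * b + ((q + 1) * 4 ^ (q + 1)) * (s ^ q * b) := by
        have h1 : 0 ≤ s ^ q * b := by positivity
        have := mul_le_mul_of_nonneg_right hK2 h1
        linarith
    _ = (s ^ (q + 1) + (q + 1) * 4 ^ (q + 1) * s ^ q) * b := by ring
    _ ≤ (s + 4 ^ (q + 1)) ^ (q + 1) * b := by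
        apply mul_le_mul_of_nonneg_right _ hb
        have e1 : ((q : ℝ) + 1) * (s ^ q * (s + 4 ^ (q + 1))) =
            (q + 1) * s ^ (q + 1) + (q + 1) * 4 ^ (q + 1) * s ^ q := by ring
        rw [e1] at htan
        linarith

theorem dD_le (z : I → ℝ) (hz : ∀ i, |z i| ≤ 1 / 2) (c : Finset I → ℝ) (d p : ℕ) (hp : 1 ≤ p)
    (T : DTree I Bool) (t : ℕ) (y : I → Bool) :
    dD z c d T t y ^ (2 * p) ≤ 4 ^ p * ∑ j : I,
      dP z (fun S => c (insert j S)) d (drun T y t).2 y ^ (2 * p) := by
  have hnn : ∀ j : I, 0 ≤ dP z (fun S => c (insert j S)) d (drun T y t).2 y ^ (2 * p) := by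
    intro j
    rw [pow_mul]; positivity
  unfold dD
  rcases h : dnx (drun T y t) with _ | i
  · simp only
    rw [zero_pow (by omega)]
    exact mul_nonneg (by positivity) (Finset.sum_nonneg fun j _ => hnn j)
  · simp only
    rw [mul_pow]
    have h1 : dphi z i (y i) ^ (2 * p) ≤ 4 ^ p := by
      rw [pow_mul]
      exact pow_le_pow_left₀ (by positivity) (dphi_le z hz i (y i)) p
    exact mul_le_mul h1 (Finset.single_le_sum (fun j _ => hnn j) (Finset.mem_univ i)) (hnn i)
      (by positivity)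

omit [Fintype I] [DecidableEq I] in
theorem dP_empty_succ (z : I → ℝ) (c : Finset I → ℝ) (d : ℕ) (y : I → Bool) :
    dP z c (d + 1) ∅ y = 0 := by
  unfold dP
  rw [Finset.powersetCard_eq_empty.mpr (by simp), Finset.sum_empty]

omit [Fintype I] [DecidableEq I] in
theorem dP_zero (z : I → ℝ) (c : Finset I → ℝ) (Q : Finset I) (y : I → Bool) :
    dP z c 0 Q y = c ∅ := by
  unfold dP
  simp

/-- moment bound for degree `d + 1` from degree `d` -/
theorem d_moment_succ (z : I → ℝ) (hz : ∀ i, |z i| ≤ 1 / 2) (T : DTree I Bool) (d p m : ℕ)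
    (hp : 1 ≤ p) (c : Finset I → ℝ) (B : ℝ)
    (ih : ∀ t ≤ m, ∀ j : I, ∑ y : I → Bool, dtw z y *
      dP z (fun S => c (insert j S)) d (drun T y t).2 y ^ (2 * p) ≤ B) (hB : 0 ≤ B) :
    ∀ t ≤ m, ∑ y : I → Bool, dtw z y * dP z c (d + 1) (drun T y t).2 y ^ (2 * p) ≤
      ((4 : ℝ) ^ p * t) ^ p * (4 ^ p * Fintype.card I * B) := by
  have hDb : ∀ t ≤ m, ∑ y : I → Bool, dtw z y * dD z c d T t y ^ (2 * p) ≤
      4 ^ p * Fintype.card I * B := by
    intro t ht
    calc _ ≤ ∑ y : I → Bool, ∑ j : I, 4 ^ p * (dtw z y *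
          dP z (fun S => c (insert j S)) d (drun T y t).2 y ^ (2 * p)) := by
          apply Finset.sum_le_sum
          intro y _
          have h1 := mul_le_mul_of_nonneg_left (dD_le z hz c d p hp T t y) (dtw_pos z hz y).le
          refine h1.trans (le_of_eq ?_)
          rw [← mul_assoc, Finset.mul_sum]
          apply Finset.sum_congr rfl
          intro j _
          ring
      _ = ∑ j : I, 4 ^ p * ∑ y : I → Bool, (dtw z y *
          dP z (fun S => c (insert j S)) d (drun T y t).2 y ^ (2 * p)) := by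
          rw [Finset.sum_comm]
          apply Finset.sum_congr rfl
          intro j _
          rw [Finset.mul_sum]
      _ ≤ ∑ j : I, 4 ^ p * B := by
          apply Finset.sum_le_sum
          intro j _
          exact mul_le_mul_of_nonneg_left (ih t ht j) (by positivity)
      _ = 4 ^ p * Fintype.card I * B := by
          rw [Finset.sum_const, Finset.card_univ, nsmul_eq_mul]; ring
  have hb : 0 ≤ 4 ^ p * Fintype.card I * B := by positivity
  intro t
  induction t with
  | zero =>
    intro _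
    have h1 : ∀ y : I → Bool, dtw z y * dP z c (d + 1) (drun T y 0).2 y ^ (2 * p) = 0 := by
      intro y
      show dtw z y * dP z c (d + 1) ∅ y ^ (2 * p) = 0
      rw [dP_empty_succ, zero_pow (by omega), mul_zero]
    rw [Finset.sum_eq_zero (fun y _ => h1 y)]
    positivity
  | succ t iht =>
    intro ht
    have h1 : ∀ y : I → Bool, dtw z y * dP z c (d + 1) (drun T y (t + 1)).2 y ^ (2 * p) =
        dtw z y * (dP z c (d + 1) (drun T y t).2 y + dD z c d T t y) ^ (2 * p) := by
      intro y; rw [dP_succ]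
    rw [Finset.sum_congr rfl (fun y _ => h1 y)]
    rcases Nat.eq_zero_or_pos t with h0 | h0
    · subst h0
      have h2 : ∀ y : I → Bool, dtw z y * (dP z c (d + 1) (drun T y 0).2 y + dD z c d T 0 y) ^ (2 * p)
          = dtw z y * dD z c d T 0 y ^ (2 * p) := by
        intro y
        show dtw z y * (dP z c (d + 1) ∅ y + dD z c d T 0 y) ^ (2 * p) = _
        rw [dP_empty_succ, zero_add]
      rw [Finset.sum_congr rfl (fun y _ => h2 y)]
      refine (hDb 0 (by omega)).trans ?_
      have h3 : (1 : ℝ) ≤ ((4 : ℝ) ^ p * ((0 + 1 : ℕ) : ℝ)) ^ p := by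
        apply one_le_pow₀
        have : (1 : ℝ) ≤ 4 ^ p := one_le_pow₀ (by norm_num)
        push_cast
        linarith
      nlinarith
    · have h3 : (1 : ℝ) ≤ (4 : ℝ) ^ p * t := by
        have e1 : (1 : ℝ) ≤ 4 ^ p := one_le_pow₀ (by norm_num)
        have e2 : (1 : ℝ) ≤ t := by exact_mod_cast h0
        nlinarith
      have h4 := moment_step Finset.univ (fun y => dtw z y)
        (fun y => dP z c (d + 1) (drun T y t).2 y) (fun y => dD z c d T t y)
        (fun y _ => (dtw_pos z hz y).le) p hp (4 ^ p * t) (4 ^ p * Fintype.card I * B) h3 hb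
        (iht (by omega)) (hDb t (by omega)) (d_orth z hz c d (2 * p - 1) T t)
      refine h4.trans (le_of_eq ?_)
      push_cast
      ring

theorem d_moment (z : I → ℝ) (hz : ∀ i, |z i| ≤ 1 / 2) (T : DTree I Bool) (p m : ℕ)
    (hp : 1 ≤ p) : ∀ d : ℕ, ∀ c : Finset I → ℝ, (∀ S, |c S| ≤ 1) → ∀ t ≤ m,
      ∑ y : I → Bool, dtw z y * dP z c d (drun T y t).2 y ^ (2 * p) ≤
      (((4 : ℝ) ^ p * m) ^ p * 4 ^ p * Fintype.card I) ^ d := by
  intro d
  induction d with
  | zero =>
    intro c hc t _
    have h1 : ∀ y : I → Bool, dtw z y * dP z c 0 (drun T y t).2 y ^ (2 * p) ≤ dtw z y := by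
      intro y
      rw [dP_zero]
      have h2 : c ∅ ^ (2 * p) ≤ 1 := by
        rw [pow_mul, ← sq_abs]
        exact pow_le_one₀ (by positivity) (pow_le_one₀ (abs_nonneg _) (hc ∅))
      have := (dtw_pos z hz y).le
      nlinarith
    calc _ ≤ ∑ y : I → Bool, dtw z y := Finset.sum_le_sum (fun y _ => h1 y)
      _ = 1 := dtw_sum z
      _ ≤ _ := by simp
  | succ d ih =>
    intro c hc t ht
    have hB : 0 ≤ (((4 : ℝ) ^ p * m) ^ p * 4 ^ p * Fintype.card I) ^ d := by positivity
    have h1 := d_moment_succ z hz T d p m hp c _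
      (fun t ht j => ih (fun S => c (insert j S)) (fun S => hc _) t ht) hB t ht
    refine h1.trans ?_
    rw [pow_succ]
    have h2 : ((4 : ℝ) ^ p * t) ^ p ≤ (4 ^ p * m) ^ p := by
      apply pow_le_pow_left₀ (by positivity)
      have : (t : ℝ) ≤ m := by exact_mod_cast ht
      apply mul_le_mul_of_nonneg_left this (by positivity)
    calc ((4 : ℝ) ^ p * t) ^ p * (4 ^ p * Fintype.card I *
          (((4 : ℝ) ^ p * m) ^ p * 4 ^ p * Fintype.card I) ^ d)
        ≤ (4 ^ p * m) ^ p * (4 ^ p * Fintype.card I *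
          (((4 : ℝ) ^ p * m) ^ p * 4 ^ p * Fintype.card I) ^ d) :=
          mul_le_mul_of_nonneg_right h2 (by positivity)
      _ = _ := by ring

omit [Fintype I] in
theorem drun_eval (T : DTree I Bool) (y : I → Bool) (t : ℕ) :
    (drun T y t).1.eval y = T.eval y ∧ (drun T y t).1.depth ≤ T.depth - t := by
  induction t with
  | zero => exact ⟨rfl, le_refl _⟩
  | succ t ih =>
    obtain ⟨h1, h2⟩ := ih
    show (dstp y (drun T y t)).1.eval y = _ ∧ (dstp y (drun T y t)).1.depth ≤ _
    rcases h : drun T y t with ⟨R, Q⟩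
    rw [h] at h1 h2
    cases R with
    | leaf a => exact ⟨h1, by simp [dstp, DTree.depth]⟩
    | node i t0 t1 =>
      simp only [dstp]
      simp only [DTree.eval, DTree.depth] at h1 h2
      by_cases hy : y i = true
      · simp only [hy, if_true] at h1 ⊢
        exact ⟨h1, by omega⟩
      · simp only [hy] at h1 ⊢
        exact ⟨h1, by simp only [Bool.false_eq_true, if_false]; omega⟩

omit [Fintype I] in
theorem eval_flip (T : DTree I Bool) (m : ℕ) (hT : T.depth ≤ m) (y : I → Bool) (i : I)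
    (hi : i ∉ (drun T y m).2) : T.eval (dflip i y) = T.eval y := by
  have h1 := drun_flip T y i m hi
  obtain ⟨h2, h3⟩ := drun_eval T y m
  obtain ⟨h4, -⟩ := drun_eval T (dflip i y) m
  rw [h1] at h4
  have h5 : (drun T y m).1.depth = 0 := by omega
  rcases h : (drun T y m).1 with a | ⟨j, t0, t1⟩
  · rw [h] at h2 h4
    rw [← h2, ← h4]
    rfl
  · rw [h] at h5
    simp [DTree.depth] at h5

theorem mle_eq (z : I → ℝ) (hz : ∀ i, |z i| ≤ 1 / 2) (g : (I → Bool) → ℝ) (S : Finset I) :
    mle g S z = ∑ y : I → Bool, dtw z y * (g y * ∏ i ∈ S, dphi z i (y i)) := by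
  unfold mle
  apply Finset.sum_congr rfl
  intro y _
  have h1 : ∏ i ∈ S, dphi z i (y i) = ∏ i, (if i ∈ S then dphi z i (y i) else 1) := by
    rw [Finset.prod_ite_mem, Finset.univ_inter]
  have h2 : ∏ i, (if i ∈ S then sR (y i) / 2 else (1 + sR (y i) * z i) / 2) =
      dtw z y * ∏ i ∈ S, dphi z i (y i) := by
    rw [h1]
    unfold dtw
    rw [← Finset.prod_mul_distrib]
    apply Finset.prod_congr rfl
    intro i _
    by_cases hi : i ∈ S
    · rw [if_pos hi, if_pos hi]
      unfold dphi
      have h := one_add_pos' z hz i (y i)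
      have h0 : (1 + sR (y i) * z i) ≠ 0 := by positivity
      field_simp
    · rw [if_neg hi, if_neg hi, mul_one]
  rw [h2]
  ring

/-- monomials outside the queried set do not contribute -/
theorem d_outside (z : I → ℝ) (hz : ∀ i, |z i| ≤ 1 / 2) (T : DTree I Bool) (m : ℕ)
    (hT : T.depth ≤ m) (S : Finset I) :
    ∑ y ∈ Finset.univ.filter (fun y : I → Bool => ¬ S ⊆ (drun T y m).2),
      dtw z y * (T.ind y * ∏ i ∈ S, dphi z i (y i)) = 0 := by
  classical
  -- choose a coordinate of `S` outside the queried set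
  let ch : Finset I → Option I := fun U => if h : U.Nonempty then some h.choose else none
  have hch1 : ∀ U : Finset I, U.Nonempty → ∃ i ∈ U, ch U = some i := by
    intro U h
    refine ⟨h.choose, h.choose_spec, ?_⟩
    simp only [ch]
    rw [dif_pos h]
  let g : (I → Bool) → (I → Bool) := fun y =>
    match ch (S \ (drun T y m).2) with
    | none => y
    | some i => dflip i y
  have hg : ∀ y : I → Bool, ¬ S ⊆ (drun T y m).2 → ∃ i ∈ S, i ∉ (drun T y m).2 ∧
      g y = dflip i y ∧ drun T (g y) m = drun T y m ∧ g (g y) = y := by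
    intro y hy
    have hne : (S \ (drun T y m).2).Nonempty := by
      rw [Finset.sdiff_nonempty]; exact hy
    obtain ⟨i, hi, hci⟩ := hch1 _ hne
    rw [Finset.mem_sdiff] at hi
    have e1 : g y = dflip i y := by
      simp only [g]
      rw [hci]
    have e2 : drun T (g y) m = drun T y m := by
      rw [e1]; exact drun_flip T y i m hi.2
    refine ⟨i, hi.1, hi.2, e1, e2, ?_⟩
    have e3 : g (g y) = dflip i (g y) := by
      show (match ch (S \ (drun T (g y) m).2) with
        | none => g y
        | some i => dflip i (g y)) = _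
      rw [e2, hci]
    rw [e3, e1, dflip_flip]
  refine Finset.sum_involution (fun y _ => g y) ?_ ?_ ?_ ?_
  · intro y hy
    rw [Finset.mem_filter] at hy
    obtain ⟨i, hiS, hiQ, h1, h2, h3⟩ := hg y hy.2
    rw [h1]
    have h4 : T.ind (dflip i y) = T.ind y := by
      unfold DTree.ind
      rw [eval_flip T m hT y i hiQ]
    rw [h4]
    have h5 : ∀ y : I → Bool, ∏ j ∈ S, dphi z j (y j) = dphi z i (y i) *
        ∏ j ∈ S.erase i, dphi z j (y j) := fun y => (Finset.mul_prod_erase S _ hiS).symm
    rw [h5, h5]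
    have h6 : ∏ j ∈ S.erase i, dphi z j (dflip i y j) = ∏ j ∈ S.erase i, dphi z j (y j) := by
      apply Finset.prod_congr rfl
      intro j hj
      rw [dflip_of_ne (Finset.ne_of_mem_erase hj)]
    rw [h6]
    have h7 := dtw_flip z hz i y
    calc _ = (dtw z y * dphi z i (y i) + dtw z (dflip i y) * dphi z i (dflip i y i)) *
          (T.ind y * ∏ j ∈ S.erase i, dphi z j (y j)) := by ring
      _ = 0 := by rw [h7, zero_mul]
  · intro y hy _ heq
    rw [Finset.mem_filter] at hy
    obtain ⟨i, hiS, hiQ, h1, h2, h3⟩ := hg y hy.2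
    rw [h1] at heq
    exact dflip_ne i y heq
  · intro y hy
    rw [Finset.mem_filter] at hy ⊢
    obtain ⟨i, hiS, hiQ, h1, h2, h3⟩ := hg y hy.2
    refine ⟨Finset.mem_univ _, ?_⟩
    rw [h2]
    exact hy.2
  · intro y hy
    rw [Finset.mem_filter] at hy
    obtain ⟨i, hiS, hiQ, h1, h2, h3⟩ := hg y hy.2
    exact h3

end dt

theorem dt_deriv {I : Type} [Fintype I] [DecidableEq I] (T : DTree I Bool) (m : ℕ)
    (hT : T.depth ≤ m) (z : I → ℝ) (hz : ∀ i, |z i| ≤ 1 / 2) (c : Finset I → ℝ)
    (hc : ∀ S, |c S| ≤ 1) (d p : ℕ) (hp : 1 ≤ p) :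
    (∑ S ∈ Finset.powersetCard d (Finset.univ : Finset I), c S * mle T.ind S z) ^ (2 * p) ≤
      (((4 : ℝ) ^ p * m) ^ p * 4 ^ p * Fintype.card I) ^ d := by
  have h1 : ∑ S ∈ Finset.powersetCard d (Finset.univ : Finset I), c S * mle T.ind S z =
      ∑ y : I → Bool, dtw z y * (T.ind y * dP z c d (drun T y m).2 y) := by
    have e1 : ∀ S : Finset I, mle T.ind S z =
        ∑ y : I → Bool, (if S ⊆ (drun T y m).2 then
          dtw z y * (T.ind y * ∏ i ∈ S, dphi z i (y i)) else 0) := by
      intro S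
      rw [mle_eq z hz, ← Finset.sum_filter_add_sum_filter_not Finset.univ
        (fun y : I → Bool => S ⊆ (drun T y m).2), d_outside z hz T m hT S, add_zero,
        Finset.sum_filter]
    calc _ = ∑ S ∈ Finset.powersetCard d (Finset.univ : Finset I), ∑ y : I → Bool,
          (if S ⊆ (drun T y m).2 then
          dtw z y * (T.ind y * (c S * ∏ i ∈ S, dphi z i (y i))) else 0) := by
          apply Finset.sum_congr rfl
          intro S _
          rw [e1, Finset.mul_sum]
          apply Finset.sum_congr rfl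
          intro y _
          split_ifs
          · ring
          · ring
      _ = ∑ y : I → Bool, ∑ S ∈ Finset.powersetCard d (Finset.univ : Finset I),
          (if S ⊆ (drun T y m).2 then
          dtw z y * (T.ind y * (c S * ∏ i ∈ S, dphi z i (y i))) else 0) := Finset.sum_comm
      _ = _ := by
          apply Finset.sum_congr rfl
          intro y _
          unfold dP
          rw [Finset.mul_sum, Finset.mul_sum, ← Finset.sum_filter]
          apply Finset.sum_congr _ (fun _ _ => rfl)
          ext S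
          rw [Finset.mem_filter, Finset.mem_powersetCard, Finset.mem_powersetCard]
          constructor
          · rintro ⟨⟨_, h2⟩, h3⟩
            exact ⟨h3, h2⟩
          · rintro ⟨h2, h3⟩
            exact ⟨⟨Finset.subset_univ _, h3⟩, h2⟩
  rw [h1]
  have h2 := Real.pow_arith_mean_le_arith_mean_pow_of_even Finset.univ (fun y => dtw z y)
    (fun y => T.ind y * dP z c d (drun T y m).2 y) (fun y _ => (dtw_pos z hz y).le) (dtw_sum z)
    (n := 2 * p) ⟨p, by ring⟩
  refine h2.trans ?_
  refine le_trans ?_ (d_moment z hz T p m hp d c hc m le_rfl)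
  apply Finset.sum_le_sum
  intro y _
  apply mul_le_mul_of_nonneg_left _ (dtw_pos z hz y).le
  rw [mul_pow]
  have h3 : T.ind y ^ (2 * p) ≤ 1 := by
    unfold DTree.ind
    split_ifs
    · simp
    · rw [zero_pow (by omega)]; norm_num
  have h4 : 0 ≤ dP z c d (drun T y m).2 y ^ (2 * p) := by rw [pow_mul]; positivity
  nlinarith

end P362
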