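import Vale.Agent.P362.Calc

/-!
# P362: unitaries from Gram matrices; defect of a contraction
-/

namespace P362

open scoped BigOperators Matrix

variable {B X : Type} [Fintype B] [Fintype X]

/-- two finite families of vectors with the same Gram matrix are related by a unitary matrix -/
theorem gram_unitary [DecidableEq B] (a b : X → B → ℂ)
    (h : ∀ x y, star (a x) ⬝ᵥ a y = star (b x) ⬝ᵥ b y) :
    ∃ U ∈ Matrix.unitaryGroup B ℂ, ∀ x, U *ᵥ a x = b x := by
  classical
  let a' : X → EuclideanSpace ℂ B := fun x => WithLp.toLp 2 (a x)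
  let b' : X → EuclideanSpace ℂ B := fun x => WithLp.toLp 2 (b x)
  have hin : ∀ x y, inner ℂ (a' x) (a' y) = inner ℂ (b' x) (b' y) := by
    intro x y
    simp only [a', b', EuclideanSpace.inner_toLp_toLp]
    rw [dotProduct_comm, h x y, dotProduct_comm]
  let A : (X → ℂ) →ₗ[ℂ] EuclideanSpace ℂ B := Fintype.linearCombination ℂ a'
  let A2 : (X → ℂ) →ₗ[ℂ] EuclideanSpace ℂ B := Fintype.linearCombination ℂ b'
  have hA : ∀ f, A f = ∑ x, f x • a' x := fun f => Fintype.linearCombination_apply _ _ _
  have hA2 : ∀ f, A2 f = ∑ x, f x • b' x := fun f => Fintype.linearCombination_apply _ _ _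
  have hnorm : ∀ f, ‖A2 f‖ = ‖A f‖ := by
    intro f
    have h1 : (inner ℂ (A2 f) (A2 f) : ℂ) = inner ℂ (A f) (A f) := by
      rw [hA, hA2]
      simp only [sum_inner, inner_sum, inner_smul_left, inner_smul_right, hin]
    rw [inner_self_eq_norm_sq_to_K, inner_self_eq_norm_sq_to_K] at h1
    have h2 : ‖A2 f‖ ^ 2 = ‖A f‖ ^ 2 := by exact_mod_cast h1
    exact (pow_left_inj₀ (norm_nonneg _) (norm_nonneg _) two_ne_zero).1 h2
  have hker : LinearMap.ker A ≤ LinearMap.ker A2 := by
    intro f hf
    rw [LinearMap.mem_ker] at hf ⊢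
    rw [← norm_eq_zero, hnorm, hf, norm_zero]
  let L0 : LinearMap.range A →ₗ[ℂ] EuclideanSpace ℂ B :=
    ((LinearMap.ker A).liftQ A2 hker).comp A.quotKerEquivRange.symm.toLinearMap
  have hL0 : ∀ f (hf : A f ∈ LinearMap.range A), L0 ⟨A f, hf⟩ = A2 f := by
    intro f hf
    simp only [L0, LinearMap.comp_apply, LinearEquiv.coe_coe]
    rw [LinearMap.quotKerEquivRange_symm_apply_image]
    simp
  let L : LinearMap.range A →ₗᵢ[ℂ] EuclideanSpace ℂ B :=
    { toLinearMap := L0
      norm_map' := by
        rintro ⟨y, f, rfl⟩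
        exact (congrArg norm (hL0 f (LinearMap.mem_range_self A f))).trans ((hnorm f).trans rfl) }
  let E : EuclideanSpace ℂ B →ₗᵢ[ℂ] EuclideanSpace ℂ B := L.extend
  have hE : ∀ x, E (a' x) = b' x := by
    intro x
    have h1 : A (Pi.single x 1) = a' x := by
      rw [hA, Finset.sum_eq_single x]
      · simp
      · intro y _ hy
        simp [hy]
      · intro hx
        exact absurd (Finset.mem_univ _) hx
    have h2 : A2 (Pi.single x 1) = b' x := by
      rw [hA2, Finset.sum_eq_single x]
      · simp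
      · intro y _ hy
        simp [hy]
      · intro hx
        exact absurd (Finset.mem_univ _) hx
    have h3 : E (A (Pi.single x 1)) = A2 (Pi.single x 1) := by
      have := L.extend_apply ⟨A (Pi.single x 1), LinearMap.mem_range_self _ _⟩
      rw [show E (A (Pi.single x 1)) =
        L.extend ((⟨A (Pi.single x 1), LinearMap.mem_range_self _ _⟩ : LinearMap.range A) :
          EuclideanSpace ℂ B) from rfl, this]
      exact hL0 _ _
    rw [← h1, h3, h2]
  let U : Matrix B B ℂ := Matrix.of fun s t => (E (WithLp.toLp 2 (Pi.single t 1))).ofLp s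
  have hUv : ∀ v : B → ℂ, U *ᵥ v = (E (WithLp.toLp 2 v)).ofLp := by
    intro v
    have hv : (WithLp.toLp 2 v : EuclideanSpace ℂ B) =
        ∑ t, v t • (WithLp.toLp 2 (Pi.single t 1) : EuclideanSpace ℂ B) := by
      ext s
      simp [Finset.sum_apply, Pi.single_apply]
    rw [hv, map_sum]
    ext s
    simp only [U, Matrix.mulVec, dotProduct, Matrix.of_apply, map_smul, WithLp.ofLp_sum,
      Finset.sum_apply, WithLp.ofLp_smul, Pi.smul_apply, smul_eq_mul]
    refine Finset.sum_congr rfl fun t _ => ?_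
    rw [mul_comm]
  refine ⟨U, ?_, ?_⟩
  · rw [Matrix.mem_unitaryGroup_iff', Matrix.star_eq_conjTranspose]
    ext s t
    have h1 : (inner ℂ (E (WithLp.toLp 2 (Pi.single s 1))) (E (WithLp.toLp 2 (Pi.single t 1))) : ℂ) =
        inner ℂ (WithLp.toLp 2 (Pi.single s 1) : EuclideanSpace ℂ B)
          (WithLp.toLp 2 (Pi.single t 1)) := E.inner_map_map _ _
    rw [EuclideanSpace.inner_toLp_toLp, EuclideanSpace.inner_eq_star_dotProduct] at h1
    rw [Matrix.mul_apply, Matrix.one_apply]
    simp only [Matrix.conjTranspose_apply, U, Matrix.of_apply]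
    have h2 : ∑ j, star ((E (WithLp.toLp 2 (Pi.single s 1))).ofLp j) *
        (E (WithLp.toLp 2 (Pi.single t 1))).ofLp j =
        (E (WithLp.toLp 2 (Pi.single t 1))).ofLp ⬝ᵥ star (E (WithLp.toLp 2 (Pi.single s 1))).ofLp := by
      unfold dotProduct
      refine Finset.sum_congr rfl fun j _ => ?_
      rw [mul_comm]
      rfl
    rw [h2, h1]
    simp [dotProduct, Pi.single_apply, eq_comm]
  · intro x
    rw [hUv]
    have := hE x
    simp only [a', b'] at this
    rw [this]

/-- defect operator of a contraction -/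
theorem IsContr.defect {S S' : Type} [Fintype S] [Fintype S'] [DecidableEq S]
    {C : Matrix S' S ℂ} (hC : IsContr C) : ∃ D : Matrix S S ℂ, Cᴴ * C + Dᴴ * D = 1 := by
  open scoped ComplexOrder MatrixOrder in
  have h1 : (1 - Cᴴ * C).PosSemidef := by
    refine Matrix.PosSemidef.of_dotProduct_mulVec_nonneg ?_ ?_
    · exact Matrix.isHermitian_one.sub (Matrix.isHermitian_conjTranspose_mul_self C)
    · intro v
      have h2 := hC v
      rw [Matrix.sub_mulVec, Matrix.one_mulVec, dotProduct_sub]
      have h3 : star v ⬝ᵥ ((Cᴴ * C) *ᵥ v) = star (C *ᵥ v) ⬝ᵥ (C *ᵥ v) := by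
        rw [Matrix.star_mulVec, Matrix.dotProduct_mulVec, Matrix.dotProduct_mulVec,
          Matrix.vecMul_vecMul]
      rw [h3, star_dot_self, star_dot_self, ← Complex.ofReal_sub]
      rw [← Complex.ofReal_zero, Complex.real_le_real]
      linarith
  open scoped ComplexOrder MatrixOrder in
  obtain ⟨D, hD⟩ := CStarAlgebra.nonneg_iff_eq_star_mul_self.mp h1.nonneg
  refine ⟨D, ?_⟩
  rw [Matrix.star_eq_conjTranspose] at hD
  rw [← hD]
  abel

end P362
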