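import Vale.Agent.P362.Mle

/-!
# P362: the interface between the Gaussian analysis and the classical lower bound
-/

namespace P362

open scoped BigOperators

/-- A distribution on the data of one block which is indistinguishable from uniform by depth-`m`
decision trees, but has `ψ_0 ≥ δ` with probability at least `0.99`. -/
structure HardDist (n r m : ℕ) (δ : ℝ) where
  /-- the weights -/
  D : (Fin (r + 1) × V n → Bool) → ℝ
  nonneg : ∀ y, 0 ≤ D y
  sum_one : ∑ y, D y = 1
  hide : ∀ T : DTree (Fin (r + 1) × V n) Bool, T.depth ≤ m →
    |∑ y, D y * T.ind y - (1 / 2) ^ Fintype.card (Fin (r + 1) × V n) * ∑ y, T.ind y| ≤ 1 / 100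
  large : ∑ y, (if psi y (fun _ => false) < δ then D y else 0) ≤ 1 / 100

end P362
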