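import Vale.Agent.P362.Mle

/-!
# P362, section 6, part 1: simulation of one block inside a decision tree
-/

namespace P362

open scoped BigOperators

section generic

variable {ι α β : Type}

/-- relabel the leaves -/
def DTree.map' (g : α → β) : DTree ι α → DTree ι β
  | .leaf a => .leaf (g a)
  | .node i t0 t1 => .node i (t0.map' g) (t1.map' g)

theorem DTree.map'_eval (g : α → β) (T : DTree ι α) (x : ι → Bool) :
    (T.map' g).eval x = g (T.eval x) := by
  induction T with
  | leaf a => rfl
  | node i t0 t1 h0 h1 =>
    simp only [DTree.map', DTree.eval]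
    split_ifs
    · exact h1
    · exact h0

theorem DTree.map'_depth (g : α → β) (T : DTree ι α) : (T.map' g).depth = T.depth := by
  induction T with
  | leaf a => rfl
  | node i t0 t1 h0 h1 => simp only [DTree.map', DTree.depth, h0, h1]

/-- xor the input with `s` -/
def DTree.twist (s : ι → Bool) : DTree ι α → DTree ι α
  | .leaf a => .leaf a
  | .node i t0 t1 => if s i then .node i (t1.twist s) (t0.twist s)
      else .node i (t0.twist s) (t1.twist s)

theorem DTree.twist_eval (s : ι → Bool) (T : DTree ι α) (x : ι → Bool) :
    (T.twist s).eval x = T.eval (fun i => xor (x i) (s i)) := by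
  induction T with
  | leaf a => rfl
  | node i t0 t1 h0 h1 =>
    simp only [DTree.twist, DTree.eval]
    by_cases hs : s i = true
    · rw [if_pos hs]
      simp only [DTree.eval, hs, Bool.xor_true]
      cases x i <;> simp [h0, h1]
    · rw [if_neg hs]
      have hs' : s i = false := by simpa using hs
      simp only [DTree.eval, hs', Bool.xor_false]
      cases x i <;> simp [h0, h1]

theorem DTree.twist_depth (s : ι → Bool) (T : DTree ι α) : (T.twist s).depth = T.depth := by
  induction T with
  | leaf a => rfl
  | node i t0 t1 h0 h1 =>
    simp only [DTree.twist, DTree.depth]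
    by_cases hs : s i = true
    · rw [if_pos hs]; simp only [DTree.depth, h0, h1]; omega
    · rw [if_neg hs]; simp only [DTree.depth, h0, h1]

/-- number of queries of the run on `x` satisfying `s` -/
def DTree.cnt (s : ι → Bool) : DTree ι α → (ι → Bool) → ℕ
  | .leaf _, _ => 0
  | .node i t0 t1, x => (if s i then 1 else 0) + (if x i then t1.cnt s x else t0.cnt s x)

/-- the run on `x` makes a query satisfying `s` -/
def DTree.touch (s : ι → Bool) : DTree ι α → (ι → Bool) → Bool
  | .leaf _, _ => false
  | .node i t0 t1, x => s i || (if x i then t1.touch s x else t0.touch s x)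

theorem DTree.eval_eq_of_not_touch (s : ι → Bool) (T : DTree ι α) (x x' : ι → Bool)
    (h : ∀ i, s i = false → x i = x' i) (ht : T.touch s x = false) : T.eval x = T.eval x' := by
  induction T with
  | leaf a => rfl
  | node i t0 t1 h0 h1 =>
    simp only [DTree.touch, Bool.or_eq_false_iff] at ht
    simp only [DTree.eval]
    rw [← h i ht.1]
    split_ifs with hx
    · rw [if_pos hx] at ht; exact h1 ht.2
    · rw [if_neg hx] at ht; exact h0 ht.2

theorem DTree.sum_cnt_le {κ : Type} (K : Finset κ) (s : κ → ι → Bool)
    (hs : ∀ i, (∑ k ∈ K, if s k i then 1 else 0) ≤ 1) (T : DTree ι α) (x : ι → Bool) :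
    ∑ k ∈ K, T.cnt (s k) x ≤ T.depth := by
  induction T with
  | leaf a => simp [DTree.cnt]
  | node i t0 t1 h0 h1 =>
    simp only [DTree.cnt, DTree.depth]
    rw [Finset.sum_add_distrib]
    have h2 : ∑ k ∈ K, (if x i then t1.cnt (s k) x else t0.cnt (s k) x) ≤
        max t0.depth t1.depth := by
      by_cases hx : x i = true
      · simp only [hx, if_true]; exact h1.trans (le_max_right _ _)
      · simp only [hx]; exact h0.trans (le_max_left _ _)
    have h3 := hs i
    omega

end generic

variable {n r : ℕ}

/-- how an index looks from block `p` -/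
inductive Kd (n r : ℕ) : Type where
  | out
  | dat (t : Fin (r + 1) × V n)
  | flg (i : V n)
  | cel (a : V n)

/-- kind of an index relative to block `p` -/
def kind (p : V n) : Idx n r → Kd n r
  | .data p' l i => if p' = p then .dat (l, i) else .out
  | .flag p' i => if p' = p then .flg i else .out
  | .ptr p' a _ _ => if p' = p then .cel a else .out
  | .word p' a _ _ _ _ => if p' = p then .cel a else .out

/-- data queries of block `p` -/
def isD (p : V n) (u : Idx n r) : Bool := match kind p u with | .dat _ => true | _ => false
/-- flag queries of block `p` -/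
def isF (p : V n) (u : Idx n r) : Bool := match kind p u with | .flg _ => true | _ => false
/-- cell queries of block `p` -/
def isC (p : V n) (u : Idx n r) : Bool := match kind p u with | .cel _ => true | _ => false
/-- the flag `i` or the cell `a` of block `p` -/
def isH (p a i : V n) (u : Idx n r) : Bool :=
  match kind p u with
  | .flg i' => decide (i' = i)
  | .cel a' => decide (a' = a)
  | _ => false

/-- simulation of block `p` with budgets -/
def simT (p : V n) (x' : Idx n r → Bool) : DTree (Idx n r) Bool → ℕ → ℕ → ℕ →
    Finset (V n) → Finset (V n) → DTree (Fin (r + 1) × V n) (Finset (V n) × Finset (V n))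
  | .leaf _, _, _, _, A, F => .leaf (A, F)
  | .node u t0 t1, kd, kc, kf, A, F =>
    match kind p u with
    | .out => if x' u then simT p x' t1 kd kc kf A F else simT p x' t0 kd kc kf A F
    | .dat t => match kd with
      | 0 => .leaf (A, F)
      | kd' + 1 => .node t (simT p x' t0 kd' kc kf A F) (simT p x' t1 kd' kc kf A F)
    | .flg i => match kf with
      | 0 => .leaf (A, F)
      | kf' + 1 => simT p x' t1 kd kc kf' A (insert i F)
    | .cel a => match kc with
      | 0 => .leaf (A, F)
      | kc' + 1 => simT p x' t0 kd kc' kf (insert a A) F

theorem simT_depth (p : V n) (x' : Idx n r → Bool) (T : DTree (Idx n r) Bool) :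
    ∀ kd kc kf A F, (simT p x' T kd kc kf A F).depth ≤ kd := by
  induction T with
  | leaf a => intro kd kc kf A F; simp [simT, DTree.depth]
  | node u t0 t1 h0 h1 =>
    intro kd kc kf A F
    simp only [simT]
    rcases hk : kind p u with _ | t | i | a
    · simp only
      split_ifs
      · exact h1 _ _ _ _ _
      · exact h0 _ _ _ _ _
    · cases kd with
      | zero => simp [DTree.depth]
      | succ kd =>
        simp only [DTree.depth]
        have := h0 kd kc kf A F
        have := h1 kd kc kf A F
        omega
    · cases kf with
      | zero => simp [DTree.depth]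
      | succ kf => exact h1 _ _ _ _ _
    · cases kc with
      | zero => simp [DTree.depth]
      | succ kc => exact h0 _ _ _ _ _

theorem simT_mono (p : V n) (x' : Idx n r → Bool) (y : Fin (r + 1) × V n → Bool)
    (T : DTree (Idx n r) Bool) :
    ∀ kd kc kf A F, A ⊆ ((simT p x' T kd kc kf A F).eval y).1 ∧
      F ⊆ ((simT p x' T kd kc kf A F).eval y).2 := by
  induction T with
  | leaf a => intro kd kc kf A F; simp [simT, DTree.eval]
  | node u t0 t1 h0 h1 =>
    intro kd kc kf A F
    simp only [simT]
    rcases hk : kind p u with _ | t | i | a
    · simp only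
      split_ifs
      · exact h1 _ _ _ _ _
      · exact h0 _ _ _ _ _
    · cases kd with
      | zero => simp [DTree.eval]
      | succ kd =>
        simp only [DTree.eval]
        split_ifs
        · exact h1 _ _ _ _ _
        · exact h0 _ _ _ _ _
    · cases kf with
      | zero => simp [DTree.eval]
      | succ kf =>
        obtain ⟨e1, e2⟩ := h1 kd kc kf A (insert i F)
        exact ⟨e1, (Finset.subset_insert _ _).trans e2⟩
    · cases kc with
      | zero => simp [DTree.eval]
      | succ kc =>
        obtain ⟨e1, e2⟩ := h0 kd kc kf (insert a A) F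
        exact ⟨(Finset.subset_insert _ _).trans e1, e2⟩

theorem simT_card (p : V n) (x' : Idx n r → Bool) (y : Fin (r + 1) × V n → Bool)
    (T : DTree (Idx n r) Bool) :
    ∀ kd kc kf A F, ((simT p x' T kd kc kf A F).eval y).1.card ≤ A.card + kc ∧
      ((simT p x' T kd kc kf A F).eval y).2.card ≤ F.card + kf := by
  induction T with
  | leaf a => intro kd kc kf A F; simp [simT, DTree.eval]
  | node u t0 t1 h0 h1 =>
    intro kd kc kf A F
    simp only [simT]
    rcases hk : kind p u with _ | t | i | a
    · simp only
      split_ifs
      · exact h1 _ _ _ _ _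
      · exact h0 _ _ _ _ _
    · cases kd with
      | zero => simp [DTree.eval]
      | succ kd =>
        simp only [DTree.eval]
        split_ifs
        · exact h1 _ _ _ _ _
        · exact h0 _ _ _ _ _
    · cases kf with
      | zero => simp [DTree.eval]
      | succ kf =>
        obtain ⟨e1, e2⟩ := h1 kd kc kf A (insert i F)
        have := Finset.card_insert_le i F
        exact ⟨e1, e2.trans (by omega)⟩
    · cases kc with
      | zero => simp [DTree.eval]
      | succ kc =>
        obtain ⟨e1, e2⟩ := h0 kd kc kf (insert a A) F
        have := Finset.card_insert_le a A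
        exact ⟨e1.trans (by omega), e2⟩

/-- a within-budget hit is seen by the simulation -/
theorem simT_hit (p a i : V n) (x x' : Idx n r → Bool) (y : Fin (r + 1) × V n → Bool)
    (hout : ∀ u, kind p u = .out → x u = x' u)
    (hdat : ∀ u t, kind p u = .dat t → x u = y t)
    (hflg : ∀ u i', kind p u = .flg i' → i' ≠ i → x u = true)
    (hcel : ∀ u a', kind p u = .cel a' → x u = false)
    (T : DTree (Idx n r) Bool) :
    ∀ kd kc kf A F, T.cnt (isD p) x ≤ kd → T.cnt (isC p) x ≤ kc → T.cnt (isF p) x ≤ kf →
      T.touch (isH p a i) x = true →
      a ∈ ((simT p x' T kd kc kf A F).eval y).1 ∨ i ∈ ((simT p x' T kd kc kf A F).eval y).2 := by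
  induction T with
  | leaf b => intro kd kc kf A F _ _ _ h; simp [DTree.touch] at h
  | node u t0 t1 h0 h1 =>
    intro kd kc kf A F hd hc hf ht
    simp only [DTree.cnt] at hd hc hf
    simp only [DTree.touch] at ht
    simp only [simT]
    rcases hk : kind p u with _ | t | i' | a'
    · have e1 : isH p a i u = false := by simp [isH, hk]
      have e2 := hout u hk
      rw [e1, Bool.false_or] at ht
      simp only
      rw [← e2]
      by_cases hx : x u = true
      · rw [if_pos hx] at hd hc hf ht ⊢
        exact h1 _ _ _ _ _ (by omega) (by omega) (by omega) ht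
      · rw [if_neg hx] at hd hc hf ht ⊢
        exact h0 _ _ _ _ _ (by omega) (by omega) (by omega) ht
    · have e1 : isH p a i u = false := by simp [isH, hk]
      have e2 := hdat u t hk
      have e3 : isD p u = true := by simp [isD, hk]
      rw [e1, Bool.false_or] at ht
      rw [e3] at hd
      simp only [if_true] at hd
      cases kd with
      | zero => omega
      | succ kd =>
        simp only [DTree.eval]
        rw [← e2]
        by_cases hx : x u = true
        · rw [if_pos hx] at hd hc hf ht ⊢
          exact h1 _ _ _ _ _ (by omega) (by omega) (by omega) ht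
        · rw [if_neg hx] at hd hc hf ht ⊢
          exact h0 _ _ _ _ _ (by omega) (by omega) (by omega) ht
    · have e3 : isF p u = true := by simp [isF, hk]
      rw [e3] at hf
      simp only [if_true] at hf
      cases kf with
      | zero => omega
      | succ kf =>
        simp only
        by_cases hi : i' = i
        · right
          exact (simT_mono p x' y t1 kd kc kf A (insert i' F)).2 (by rw [hi]; exact Finset.mem_insert_self _ _)
        · have hx := hflg u i' hk hi
          have e1 : isH p a i u = false := by simp [isH, hk, hi]
          rw [e1, Bool.false_or, if_pos hx] at ht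
          rw [if_pos hx] at hd hc hf
          exact h1 _ _ _ _ _ (by omega) (by omega) (by omega) ht
    · have e3 : isC p u = true := by simp [isC, hk]
      rw [e3] at hc
      simp only [if_true] at hc
      cases kc with
      | zero => omega
      | succ kc =>
        simp only
        by_cases hi : a' = a
        · left
          exact (simT_mono p x' y t0 kd kc kf (insert a' A) F).1 (by rw [hi]; exact Finset.mem_insert_self _ _)
        · have hx := hcel u a' hk
          have hx' : ¬ (x u = true) := by rw [hx]; simp
          have e1 : isH p a i u = false := by simp [isH, hk, hi]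
          rw [e1, Bool.false_or, if_neg hx'] at ht
          rw [if_neg hx'] at hd hc hf
          exact h0 _ _ _ _ _ (by omega) (by omega) (by omega) ht

/-- block of an index -/
def blkOf : Idx n r → V n
  | .data p _ _ => p
  | .flag p _ => p
  | .ptr p _ _ _ => p
  | .word p _ _ _ _ _ => p

theorem kind_out (p : V n) (u : Idx n r) (h : p ≠ blkOf u) : kind p u = .out := by
  cases u <;> simp only [kind, blkOf] at h ⊢ <;> rw [if_neg (fun e => h e.symm)]

theorem sum_ind_le (s : V n → Idx n r → Bool) (hs : ∀ p u, kind p u = .out → s p u = false)
    (u : Idx n r) : (∑ p : V n, if s p u then 1 else 0) ≤ 1 := by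
  calc (∑ p : V n, if s p u then 1 else 0) ≤ ∑ p : V n, if p = blkOf u then 1 else 0 := by
        apply Finset.sum_le_sum
        intro p _
        by_cases h : p = blkOf u
        · rw [if_pos h]; split_ifs <;> simp
        · rw [hs p u (kind_out p u h), if_neg h]; simp
    _ = 1 := by simp

theorem sum_cntD (T : DTree (Idx n r) Bool) (x : Idx n r → Bool) :
    ∑ p : V n, T.cnt (isD p) x ≤ T.depth :=
  T.sum_cnt_le Finset.univ isD (sum_ind_le isD fun p u h => by simp [isD, h]) x

theorem sum_cntF (T : DTree (Idx n r) Bool) (x : Idx n r → Bool) :
    ∑ p : V n, T.cnt (isF p) x ≤ T.depth :=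
  T.sum_cnt_le Finset.univ isF (sum_ind_le isF fun p u h => by simp [isF, h]) x

theorem sum_cntC (T : DTree (Idx n r) Bool) (x : Idx n r → Bool) :
    ∑ p : V n, T.cnt (isC p) x ≤ T.depth :=
  T.sum_cnt_le Finset.univ isC (sum_ind_le isC fun p u h => by simp [isC, h]) x

end P362
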