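import Vale.Agent.P362.TrB

/-!
# P362, module TRANSCRIPT: the local checks say exactly that the cell contains the true transcript
(proved in `TrA` and `TrB`).
-/
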