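import Vale.Agent.P362.Hit
import Vale.Agent.P362.HitTree
import Vale.Agent.P362.Hard
import Vale.Agent.P362.Transcript

/-!
# P362, section 6: auxiliary results for module LOWER
-/

namespace P362

open scoped BigOperators

/-- averaging over the randomness of the algorithm -/
theorem yao {ι Ω : Type} [Fintype Ω] {q : ℕ} {f : (ι → Bool) → Bool} (h : RandComputes q f)
    (w : Ω → ℝ) (hw : ∀ o, 0 ≤ w o) (X : Ω → ι → Bool) (K : ℝ)
    (hK : ∀ T : DTree ι Bool, T.depth ≤ q →
      ∑ o, w o * (if T.eval (X o) = f (X o) then 1 else 0) ≤ K) :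
    2 / 3 * ∑ o, w o ≤ K := by
  classical
  obtain ⟨p, hp, hs⟩ := h
  have hK0 : 0 ≤ K := by
    obtain ⟨T, hT⟩ := p.support_nonempty
    refine le_trans ?_ (hK T (hp T hT))
    apply Finset.sum_nonneg
    intro o _
    split_ifs
    · simpa using hw o
    · simp
  have h1 : ∀ T : DTree ι Bool, ∑ o, ENNReal.ofReal (w o) *
      ({T : DTree ι Bool | T.eval (X o) = f (X o)} : Set (DTree ι Bool)).indicator p T ≤
      p T * ENNReal.ofReal K := by
    intro T
    have e1 : ∑ o, ENNReal.ofReal (w o) *
        ({T : DTree ι Bool | T.eval (X o) = f (X o)} : Set (DTree ι Bool)).indicator p T =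
        p T * ENNReal.ofReal (∑ o, w o * (if T.eval (X o) = f (X o) then 1 else 0)) := by
      rw [ENNReal.ofReal_sum_of_nonneg, Finset.mul_sum]
      · apply Finset.sum_congr rfl
        intro o _
        rw [Set.indicator_apply]
        simp only [Set.mem_ofPred_eq]
        split_ifs
        · rw [mul_one, mul_comm]
        · simp
      · intro o _
        split_ifs
        · simpa using hw o
        · simp
    rw [e1]
    by_cases hT : T ∈ p.support
    · gcongr
      exact hK T (hp T hT)
    · have : p T = 0 := by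
        rw [PMF.mem_support_iff] at hT
        push Not at hT
        exact hT
      rw [this]; simp
  have h2 : ∑ o, ENNReal.ofReal (w o) * (2 / 3) ≤ ENNReal.ofReal K := by
    calc ∑ o, ENNReal.ofReal (w o) * (2 / 3)
        ≤ ∑ o, ENNReal.ofReal (w o) * p.toOuterMeasure {T | T.eval (X o) = f (X o)} := by
          apply Finset.sum_le_sum
          intro o _
          gcongr
          exact hs (X o)
      _ = ∑ o, ∑' T : DTree ι Bool, ENNReal.ofReal (w o) *
          ({T : DTree ι Bool | T.eval (X o) = f (X o)} : Set (DTree ι Bool)).indicator p T := by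
          apply Finset.sum_congr rfl
          intro o _
          rw [PMF.toOuterMeasure_apply, ENNReal.tsum_mul_left]
      _ = ∑' T : DTree ι Bool, ∑ o, ENNReal.ofReal (w o) *
          ({T : DTree ι Bool | T.eval (X o) = f (X o)} : Set (DTree ι Bool)).indicator p T := by
          rw [Summable.tsum_finsetSum (fun o _ => ENNReal.summable)]
      _ ≤ ∑' T : DTree ι Bool, p T * ENNReal.ofReal K := ENNReal.tsum_le_tsum h1
      _ = ENNReal.ofReal K := by rw [ENNReal.tsum_mul_right, p.tsum_coe, one_mul]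
  have h3 : ∑ o, ENNReal.ofReal (w o) * (2 / 3) = ENNReal.ofReal (2 / 3 * ∑ o, w o) := by
    rw [← Finset.sum_mul, ← ENNReal.ofReal_sum_of_nonneg (fun o _ => hw o), mul_comm (2 / 3 : ℝ),
      ENNReal.ofReal_mul (Finset.sum_nonneg fun o _ => hw o)]
    congr 1
    rw [ENNReal.ofReal_div_of_pos (by norm_num)]
    simp
  rw [h3] at h2
  exact (ENNReal.ofReal_le_ofReal_iff hK0).mp h2

section resample

variable {ι Ω : Type} [Fintype ι] [DecidableEq ι] [Fintype Ω]

/-- resampling one coordinate of a product distribution -/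
theorem resample (μ : Ω → ℝ) (h1 : ∑ u, μ u = 1) (p : ι) (F : (ι → Ω) → ℝ) :
    ∑ o : ι → Ω, (∏ i, μ (o i)) * F o =
      ∑ o : ι → Ω, (∏ i, μ (o i)) * ∑ u, μ u * F (Function.update o p u) := by
  have e1 : ∑ o : ι → Ω, (∏ i, μ (o i)) * ∑ u, μ u * F (Function.update o p u) =
      ∑ z : (ι → Ω) × Ω, (∏ i, μ (z.1 i)) * μ z.2 * F (Function.update z.1 p z.2) := by
    rw [Fintype.sum_prod_type]
    apply Finset.sum_congr rfl
    intro o _
    rw [Finset.mul_sum]
    apply Finset.sum_congr rfl
    intro u _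
    ring
  have e2 : ∑ o : ι → Ω, (∏ i, μ (o i)) * F o =
      ∑ z : (ι → Ω) × Ω, (∏ i, μ (z.1 i)) * μ z.2 * F z.1 := by
    rw [Fintype.sum_prod_type]
    apply Finset.sum_congr rfl
    intro o _
    calc (∏ i, μ (o i)) * F o = (∏ i, μ (o i)) * F o * ∑ u, μ u := by rw [h1, mul_one]
      _ = _ := by
        rw [Finset.mul_sum]
        apply Finset.sum_congr rfl
        intro u _
        ring
  rw [e1, e2]
  let φ : (ι → Ω) × Ω → (ι → Ω) × Ω := fun z => (Function.update z.1 p z.2, z.1 p)
  have hφ : Function.Involutive φ := by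
    intro z
    simp only [φ, Function.update_self, Function.update_idem, Function.update_eq_self]
  rw [← Equiv.sum_comp (hφ.toPerm)]
  apply Finset.sum_congr rfl
  intro z _
  show (∏ i, μ (Function.update z.1 p z.2 i)) * μ (z.1 p) * F (Function.update z.1 p z.2) = _
  congr 1
  rw [← Finset.mul_prod_erase Finset.univ _ (Finset.mem_univ p),
    ← Finset.mul_prod_erase Finset.univ (fun i => μ (z.1 i)) (Finset.mem_univ p)]
  have e3 : ∏ i ∈ Finset.univ.erase p, μ (Function.update z.1 p z.2 i) =
      ∏ i ∈ Finset.univ.erase p, μ (z.1 i) := by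
    apply Finset.prod_congr rfl
    intro i hi
    rw [Function.update_of_ne (Finset.ne_of_mem_erase hi)]
  rw [e3, Function.update_self]
  ring

theorem prod_sum_one (μ : Ω → ℝ) (h1 : ∑ u, μ u = 1) : ∑ o : ι → Ω, ∏ i, μ (o i) = 1 := by
  have h := Finset.prod_univ_sum (fun _ : ι => (Finset.univ : Finset Ω)) (fun (_ : ι) u => μ u)
  rw [Fintype.piFinset_univ] at h
  rw [← h]
  apply Finset.prod_eq_one
  intro i _
  exact h1

/-- a bound that holds for every resampling of one coordinate -/
theorem resample_le (μ : Ω → ℝ) (h0 : ∀ u, 0 ≤ μ u) (h1 : ∑ u, μ u = 1) (p : ι)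
    (F : (ι → Ω) → ℝ) (K : ℝ) (hF : ∀ o, ∑ u, μ u * F (Function.update o p u) ≤ K) :
    ∑ o : ι → Ω, (∏ i, μ (o i)) * F o ≤ K := by
  rw [resample μ h1 p F]
  calc _ ≤ ∑ o : ι → Ω, (∏ i, μ (o i)) * K := by
        apply Finset.sum_le_sum
        intro o _
        exact mul_le_mul_of_nonneg_left (hF o) (Finset.prod_nonneg fun i _ => h0 _)
    _ = K := by rw [← Finset.sum_mul, prod_sum_one μ h1, one_mul]

end resample

end P362
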