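import Vale.Agent.P362.Hit
import Vale.Agent.P362.Hard
import Vale.Agent.P362.Transcript
import Vale.Agent.P362.LowerAux

/-!
# P362, module LOWER (section 6): the randomized lower bound
-/

namespace P362

open scoped BigOperators

variable {n r : ℕ}

/-- the `0`-input: data `Y`, one zero flag `I p` in every block, blank cells -/
def x0 (Y : V n → Fin (r + 1) × V n → Bool) (I : V n → V n) : Idx n r → Bool
  | .data p l i => Y p (l, i)
  | .flag p i => decide (i ≠ I p)
  | .ptr _ _ _ _ => false
  | .word _ _ _ _ _ _ => false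

theorem fn_x0 {δ : ℝ} (hδ : 0 < δ) (Y : V n → Fin (r + 1) × V n → Bool) (I : V n → V n) :
    fn n r δ (x0 Y I) = false := by
  unfold fn
  rw [decide_eq_false_iff_not]
  rintro ⟨p, a, hv⟩
  have h := hv (.flag (I p))
  simp [chkOK, x0] at h

/-- the planted input -/
theorem exists_x1 {δ : ℝ} (Y : V n → Fin (r + 1) × V n → Bool) (I : V n → V n) (p a : V n) :
    ∃ x1 : Idx n r → Bool, (∀ t, t ≠ .flag p (I p) → isCellA p a t = false → x1 t = x0 Y I t) ∧
      (δ ≤ psi (Y p) a → fn n r δ x1 = true) := by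
  obtain ⟨W, hW⟩ := exists_words (Y p)
  let x1 : Idx n r → Bool := fun t =>
    match t with
    | .data q l i => Y q (l, i)
    | .flag q i => if q = p then true else decide (i ≠ I q)
    | .ptr q b j c => if q = p ∧ b = a then I j c else false
    | .word q b l s i c => if q = p ∧ b = a then W l s i c else false
  refine ⟨x1, ?_, ?_⟩
  · intro t ht hc
    rcases t with ⟨q, l, i⟩ | ⟨q, i⟩ | ⟨q, b, j, c⟩ | ⟨q, b, l, s, i, c⟩
    · rfl
    · simp only [x1, x0]
      by_cases hq : q = p
      · subst hq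
        rw [if_pos rfl]
        have : i ≠ I q := by
          intro h; apply ht; rw [h]
        simp [this]
      · rw [if_neg hq]
    · simp only [isCellA, decide_eq_false_iff_not] at hc
      simp only [x1, x0]
      rw [if_neg hc]
    · simp only [isCellA, decide_eq_false_iff_not] at hc
      simp only [x1, x0]
      rw [if_neg hc]
  · intro hpsi
    obtain ⟨h1, h2, h3⟩ := hW δ x1 p a rfl (by intro l s i b; simp [x1]) hpsi
    have hex : ∃ p a, valid δ x1 p a := by
      refine ⟨p, a, ?_⟩
      intro c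
      rcases c with ⟨l, i⟩ | ⟨l, s, i⟩ | _ | i | j
      · exact h1 l i
      · exact h2 l s i
      · exact h3
      · simp [chkOK, x1]
      · intro hj
        have hp : ptrv x1 p a j = I j := by
          funext b
          simp [ptrv, x1]
        show x1 (.flag j (ptrv x1 p a j)) = false
        rw [hp]
        simp [x1, hj]
    unfold fn
    simp only [hex, decide_true]

section prob

/-- randomness of one block: cell, untwisted data, zero flag -/
abbrev Blk (n r : ℕ) : Type := V n × (Fin (r + 1) × V n → Bool) × V n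

/-- weight of the randomness of one block -/
noncomputable def bw (D : (Fin (r + 1) × V n → Bool) → ℝ) (u : Blk n r) : ℝ :=
  (1 / 2 ^ n) * (D u.2.1 * (1 / 2 ^ n))

/-- data of a block -/
def bY (o : V n → Blk n r) (p : V n) : Fin (r + 1) × V n → Bool := twist (o p).1 (o p).2.1

/-- zero flag of a block -/
def bI (o : V n → Blk n r) (p : V n) : V n := (o p).2.2

theorem card_V : (Fintype.card (V n) : ℝ) = 2 ^ n := by
  simp [V]

theorem bw_sum (D : (Fin (r + 1) × V n → Bool) → ℝ) (h1 : ∑ y, D y = 1) :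
    ∑ u, bw D u = 1 := by
  have h : ∀ a : V n, ∑ v : (Fin (r + 1) × V n → Bool) × V n, bw D (a, v) = 1 / 2 ^ n := by
    intro a
    unfold bw
    rw [← Finset.mul_sum, Fintype.sum_prod_type]
    simp only [Finset.sum_const, Finset.card_univ, nsmul_eq_mul, card_V]
    have e : ∀ y : Fin (r + 1) × V n → Bool, (2 : ℝ) ^ n * (D y * (1 / 2 ^ n)) = D y := by
      intro y; field_simp
    simp only [e, h1, mul_one]
  rw [Fintype.sum_prod_type, Finset.sum_congr rfl (fun a _ => h a), Finset.sum_const,
    Finset.card_univ, nsmul_eq_mul, card_V]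
  field_simp

theorem x0_update (o : V n → Blk n r) (p : V n) (u : Blk n r) :
    x0 (bY (Function.update o p u)) (bI (Function.update o p u)) =
      mix (x0 (bY o) (bI o)) p (twist u.1 u.2.1) u.2.2 := by
  funext t
  rcases t with ⟨q, l, i⟩ | ⟨q, i⟩ | ⟨q, b, j, c⟩ | ⟨q, b, l, s, i, c⟩
  · simp only [x0, mix, bY]
    by_cases hq : q = p
    · subst hq; simp
    · simp [hq]
  · by_cases hq : q = p
    · subst hq; simp [x0, mix, bI]
    · have e : bI (Function.update o p u) q = bI o q := by
        unfold bI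
        rw [Function.update_of_ne hq]
      simp only [x0, mix, e]
      rw [if_neg hq]
  · simp [x0, mix]
  · simp [x0, mix]

/-- the run is within budget for block `p` -/
def within (m c : ℕ) (p : V n) (L : List (Idx n r)) : Prop :=
  L.countP (isData p) ≤ m ∧ L.countP (isCell p) ≤ c ∧ L.countP (isFlag p) ≤ c

/-- indicator of the twisted membership tree -/
theorem exists_mem_tree (S : DTree (Fin (r + 1) × V n) (Finset (V n) × Finset (V n))) (m : ℕ)
    (hS : S.depth ≤ m) (a : V n) : ∃ S' : DTree (Fin (r + 1) × V n) Bool, S'.depth ≤ m ∧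
      ∀ y, S'.ind y = if a ∈ (S.eval (twist a y)).1 then 1 else 0 := by
  refine ⟨(S.map' (fun s => decide (a ∈ s.1))).twist
    (fun t => decide (t.1 = Fin.last r ∧ chi a t.2 = -1)), ?_, ?_⟩
  · rw [DTree.twist_depth, DTree.map'_depth]; exact hS
  · intro y
    unfold DTree.ind
    rw [DTree.twist_eval, DTree.map'_eval]
    have e : (fun t => xor (y t) (decide (t.1 = Fin.last r ∧ chi a t.2 = -1))) = twist a y := by
      funext t
      unfold twist
      by_cases h : t.1 = Fin.last r ∧ chi a t.2 = -1
      · rw [if_pos h]; simp [h]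
      · rw [if_neg h]; simp [h]
    rw [e]
    simp

theorem sum_twist (a : V n) (F : (Fin (r + 1) × V n → Bool) → ℝ) :
    ∑ y, F (twist a y) = ∑ y, F y := by
  have hinv : Function.Involutive (twist a : (Fin (r + 1) × V n → Bool) → _) := twist_twist a
  exact Equiv.sum_comp hinv.toPerm F

/-- cells seen by a shallow tree -/
theorem cell_bound {m c : ℕ} {δ : ℝ} (H : HardDist n r m δ)
    (S : DTree (Fin (r + 1) × V n) (Finset (V n) × Finset (V n))) (hS : S.depth ≤ m)
    (hcard : ∀ y, (S.eval y).1.card ≤ c) (hc : (c : ℝ) ≤ 2 ^ n / 100) :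
    ∑ a : V n, ∑ y, H.D y * (if a ∈ (S.eval (twist a y)).1 then 1 else 0) ≤
      2 / 100 * 2 ^ n := by
  have h1 : ∀ a : V n, ∑ y, H.D y * (if a ∈ (S.eval (twist a y)).1 then (1 : ℝ) else 0) ≤
      (1 / 2) ^ Fintype.card (Fin (r + 1) × V n) *
        ∑ y, (if a ∈ (S.eval y).1 then (1 : ℝ) else 0) + 1 / 100 := by
    intro a
    obtain ⟨S', hS'1, hS'2⟩ := exists_mem_tree S m hS a
    have h2 := H.hide S' hS'1
    simp only [hS'2] at h2
    rw [sum_twist a (fun y => if a ∈ (S.eval y).1 then (1 : ℝ) else 0)] at h2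
    have h3 := (abs_le.mp h2).2
    linarith
  calc _ ≤ ∑ a : V n, ((1 / 2) ^ Fintype.card (Fin (r + 1) × V n) *
        ∑ y, (if a ∈ (S.eval y).1 then (1 : ℝ) else 0) + 1 / 100) :=
        Finset.sum_le_sum (fun a _ => h1 a)
    _ = (1 / 2) ^ Fintype.card (Fin (r + 1) × V n) *
        ∑ y, ∑ a : V n, (if a ∈ (S.eval y).1 then (1 : ℝ) else 0) + 2 ^ n * (1 / 100) := by
        rw [Finset.sum_add_distrib, ← Finset.mul_sum, Finset.sum_comm, Finset.sum_const,
          Finset.card_univ, nsmul_eq_mul, card_V]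
    _ ≤ (1 / 2) ^ Fintype.card (Fin (r + 1) × V n) *
        ∑ y : Fin (r + 1) × V n → Bool, (2 : ℝ) ^ n / 100 + 2 ^ n * (1 / 100) := by
        have h4 : ∀ y : Fin (r + 1) × V n → Bool,
            ∑ a : V n, (if a ∈ (S.eval y).1 then (1 : ℝ) else 0) ≤ (2 : ℝ) ^ n / 100 := by
          intro y
          rw [Finset.sum_ite_mem, Finset.univ_inter, Finset.sum_const, nsmul_eq_mul, mul_one]
          exact (Nat.cast_le.mpr (hcard y)).trans hc
        have h5 := Finset.sum_le_sum (s := (Finset.univ : Finset (Fin (r + 1) × V n → Bool)))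
          (fun y _ => h4 y)
        have h6 : (0 : ℝ) ≤ (1 / 2) ^ Fintype.card (Fin (r + 1) × V n) := by positivity
        have := mul_le_mul_of_nonneg_left h5 h6
        linarith
    _ = 2 / 100 * 2 ^ n := by
        rw [Finset.sum_const, Finset.card_univ, nsmul_eq_mul]
        have h7 : (Fintype.card (Fin (r + 1) × V n → Bool) : ℝ) =
            2 ^ Fintype.card (Fin (r + 1) × V n) := by
          rw [Fintype.card_fun, Fintype.card_bool]; push_cast; rfl
        rw [h7, ← mul_assoc, ← mul_pow]
        norm_num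
        ring

open Classical in
/-- within-budget hits are rare, for fixed other blocks -/
theorem inner_bound {m c : ℕ} {δ : ℝ} (H : HardDist n r m δ) (T : DTree (Idx n r) Bool)
    (x : Idx n r → Bool) (p : V n) (hc : (c : ℝ) ≤ 2 ^ n / 100) :
    ∑ u : Blk n r, bw H.D u * (if within m c p (T.path (mix x p (twist u.1 u.2.1) u.2.2)) ∧
      hits p u.1 u.2.2 (T.path (mix x p (twist u.1 u.2.1) u.2.2)) then 1 else 0) ≤ 3 / 100 := by
  obtain ⟨S, hS, hcard, hsim⟩ := exists_sim T p x m c c
  have hbw : ∀ u : Blk n r, 0 ≤ bw H.D u := by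
    intro u
    unfold bw
    have := H.nonneg u.2.1
    positivity
  have h1 : ∀ u : Blk n r, bw H.D u *
      (if within m c p (T.path (mix x p (twist u.1 u.2.1) u.2.2)) ∧
      hits p u.1 u.2.2 (T.path (mix x p (twist u.1 u.2.1) u.2.2)) then (1 : ℝ) else 0) ≤
      bw H.D u * (if u.1 ∈ (S.eval (twist u.1 u.2.1)).1 then 1 else 0) +
      bw H.D u * (if u.2.2 ∈ (S.eval (twist u.1 u.2.1)).2 then 1 else 0) := by
    intro u
    rw [← mul_add]
    apply mul_le_mul_of_nonneg_left _ (hbw u)
    by_cases h : within m c p (T.path (mix x p (twist u.1 u.2.1) u.2.2)) ∧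
      hits p u.1 u.2.2 (T.path (mix x p (twist u.1 u.2.1) u.2.2))
    · rw [if_pos h]
      obtain ⟨⟨w1, w2, w3⟩, h2⟩ := h
      rcases hsim _ _ _ w1 w2 w3 h2 with h3 | h3
      · rw [if_pos h3]; split_ifs <;> norm_num
      · rw [if_pos h3]; split_ifs <;> norm_num
    · rw [if_neg h]; split_ifs <;> norm_num
  refine (Finset.sum_le_sum (fun u _ => h1 u)).trans ?_
  rw [Finset.sum_add_distrib]
  have hN : (0 : ℝ) < 2 ^ n := by positivity
  have h2 : ∑ u : Blk n r, bw H.D u * (if u.1 ∈ (S.eval (twist u.1 u.2.1)).1 then (1 : ℝ) else 0) ≤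
      2 / 100 := by
    have e : ∑ u : Blk n r, bw H.D u * (if u.1 ∈ (S.eval (twist u.1 u.2.1)).1 then (1 : ℝ) else 0) =
        (1 / 2 ^ n) * ∑ a : V n, ∑ y, H.D y * (if a ∈ (S.eval (twist a y)).1 then 1 else 0) := by
      rw [Fintype.sum_prod_type, Finset.mul_sum]
      apply Finset.sum_congr rfl
      intro a _
      rw [Fintype.sum_prod_type, Finset.mul_sum]
      apply Finset.sum_congr rfl
      intro y _
      show ∑ _i : V n, 1 / (2 : ℝ) ^ n * (H.D y * (1 / 2 ^ n)) *
        (if a ∈ (S.eval (twist a y)).1 then (1 : ℝ) else 0) = _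
      rw [Finset.sum_const, Finset.card_univ, nsmul_eq_mul, card_V]
      field_simp
    rw [e]
    have h3 := cell_bound H S hS (fun y => (hcard y).1) hc
    calc (1 / (2 : ℝ) ^ n) * ∑ a : V n, ∑ y, H.D y *
          (if a ∈ (S.eval (twist a y)).1 then 1 else 0) ≤ (1 / 2 ^ n) * (2 / 100 * 2 ^ n) :=
          mul_le_mul_of_nonneg_left h3 (by positivity)
      _ = 2 / 100 := by field_simp
  have h3 : ∑ u : Blk n r, bw H.D u * (if u.2.2 ∈ (S.eval (twist u.1 u.2.1)).2 then (1 : ℝ) else 0) ≤
      1 / 100 := by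
    rw [Fintype.sum_prod_type]
    have h4 : ∀ a : V n, ∑ v : (Fin (r + 1) × V n → Bool) × V n, bw H.D (a, v) *
        (if v.2 ∈ (S.eval (twist a v.1)).2 then (1 : ℝ) else 0) ≤ 1 / 2 ^ n * (1 / 100) := by
      intro a
      rw [Fintype.sum_prod_type]
      calc _ ≤ ∑ y, 1 / 2 ^ n * (H.D y * (1 / 100)) := by
            apply Finset.sum_le_sum
            intro y _
            simp only [bw]
            have e1 : ∑ i : V n, 1 / (2 : ℝ) ^ n * (H.D y * (1 / 2 ^ n)) *
                (if i ∈ (S.eval (twist a y)).2 then (1 : ℝ) else 0) =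
                1 / 2 ^ n * (H.D y * (((S.eval (twist a y)).2.card : ℝ) / 2 ^ n)) := by
              rw [← Finset.mul_sum, Finset.sum_ite_mem, Finset.univ_inter, Finset.sum_const,
                nsmul_eq_mul, mul_one]
              ring
            rw [e1]
            apply mul_le_mul_of_nonneg_left _ (by positivity)
            apply mul_le_mul_of_nonneg_left _ (H.nonneg y)
            rw [div_le_iff₀ hN]
            have := (Nat.cast_le.mpr (hcard (twist a y)).2 : ((S.eval (twist a y)).2.card : ℝ) ≤ c)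
            linarith
        _ = 1 / 2 ^ n * (1 / 100) := by
            rw [← Finset.mul_sum, ← Finset.sum_mul, H.sum_one, one_mul]
    calc _ ≤ ∑ a : V n, 1 / (2 : ℝ) ^ n * (1 / 100) := Finset.sum_le_sum (fun a _ => h4 a)
      _ = 1 / 100 := by
        rw [Finset.sum_const, Finset.card_univ, nsmul_eq_mul, card_V]
        field_simp
  linarith

open Classical in
/-- few blocks are over budget -/
theorem over_bound {m c q : ℕ} (hcN : (2 : ℝ) ^ n / 100 ≤ c + 1)
    (hmN : 100 * m ≤ 2 ^ n) (hq : 100 * q ≤ 2 ^ n * m)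
    (L : List (Idx n r)) (hL : L.length ≤ q) :
    ∑ p : V n, (if within m c p L then (0 : ℝ) else 1) ≤ 2 / 100 * 2 ^ n := by
  have hN : (0 : ℝ) < 2 ^ n := by positivity
  have hmR : 100 * (m : ℝ) ≤ 2 ^ n := by exact_mod_cast hmN
  have hqR : 100 * (q : ℝ) ≤ 2 ^ n * m := by exact_mod_cast hq
  have hsum := (sum_counts (r := r) L).trans hL
  have hpt : ∀ p : V n, (if within m c p L then (0 : ℝ) else 1) ≤
      (L.countP (isData p) : ℝ) / (m + 1) +
        ((L.countP (isCell p) : ℝ) + L.countP (isFlag p)) / (c + 1) := by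
    intro p
    have hm0 : (0 : ℝ) < m + 1 := by positivity
    have hc0 : (0 : ℝ) < c + 1 := by positivity
    by_cases h : within m c p L
    · rw [if_pos h]; positivity
    · rw [if_neg h]
      unfold within at h
      by_cases h1 : L.countP (isData p) ≤ m
      · by_cases h2 : L.countP (isCell p) ≤ c
        · have h3 : c + 1 ≤ L.countP (isFlag p) := by
            by_contra h4
            exact h ⟨h1, h2, by omega⟩
          have h3R : (c : ℝ) + 1 ≤ L.countP (isFlag p) := by exact_mod_cast h3
          have h5 : 1 ≤ ((L.countP (isCell p) : ℝ) + L.countP (isFlag p)) / (c + 1) := by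
            rw [le_div_iff₀ hc0]
            have : (0 : ℝ) ≤ L.countP (isCell p) := by positivity
            linarith
          have h6 : (0 : ℝ) ≤ (L.countP (isData p) : ℝ) / (m + 1) := by positivity
          linarith
        · have h3R : (c : ℝ) + 1 ≤ L.countP (isCell p) := by
            exact_mod_cast (by omega : c + 1 ≤ L.countP (isCell p))
          have h5 : 1 ≤ ((L.countP (isCell p) : ℝ) + L.countP (isFlag p)) / (c + 1) := by
            rw [le_div_iff₀ hc0]
            have : (0 : ℝ) ≤ L.countP (isFlag p) := by positivity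
            linarith
          have h6 : (0 : ℝ) ≤ (L.countP (isData p) : ℝ) / (m + 1) := by positivity
          linarith
      · have h3R : (m : ℝ) + 1 ≤ L.countP (isData p) := by
          exact_mod_cast (by omega : m + 1 ≤ L.countP (isData p))
        have h5 : 1 ≤ (L.countP (isData p) : ℝ) / (m + 1) := by
          rw [le_div_iff₀ hm0]
          linarith
        have h6 : (0 : ℝ) ≤ ((L.countP (isCell p) : ℝ) + L.countP (isFlag p)) / (c + 1) := by
          positivity
        linarith
  have hm0 : (0 : ℝ) < m + 1 := by positivity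
  have hc0 : (0 : ℝ) < c + 1 := by positivity
  have e1 : ∑ p : V n, ((L.countP (isData p) : ℝ) / (m + 1) +
        ((L.countP (isCell p) : ℝ) + L.countP (isFlag p)) / (c + 1)) =
      (∑ p : V n, (L.countP (isData p) : ℝ)) / (m + 1) +
        (∑ p : V n, ((L.countP (isCell p) : ℝ) + L.countP (isFlag p))) / (c + 1) := by
    rw [Finset.sum_add_distrib, Finset.sum_div, Finset.sum_div]
  have e2 : (∑ p : V n, (L.countP (isData p) : ℝ)) +
      (∑ p : V n, ((L.countP (isCell p) : ℝ) + L.countP (isFlag p))) ≤ q := by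
    have : ((∑ p : V n, (L.countP (isData p) + L.countP (isCell p) + L.countP (isFlag p)) : ℕ) : ℝ)
        ≤ (q : ℝ) := by exact_mod_cast hsum
    push_cast at this
    rw [← Finset.sum_add_distrib]
    refine le_trans (le_of_eq ?_) this
    apply Finset.sum_congr rfl
    intro p _
    ring
  have e3 : (0 : ℝ) ≤ ∑ p : V n, (L.countP (isData p) : ℝ) :=
    Finset.sum_nonneg fun p _ => by positivity
  have e4 : (0 : ℝ) ≤ ∑ p : V n, ((L.countP (isCell p) : ℝ) + L.countP (isFlag p)) :=
    Finset.sum_nonneg fun p _ => by positivity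
  have e5 : (∑ p : V n, (L.countP (isData p) : ℝ)) / (m + 1) ≤ 2 ^ n / 100 := by
    rw [div_le_iff₀ hm0]
    nlinarith
  have e6 : (∑ p : V n, ((L.countP (isCell p) : ℝ) + L.countP (isFlag p))) / (c + 1) ≤
      2 ^ n / 100 := by
    rw [div_le_iff₀ hc0]
    have h1 : (q : ℝ) ≤ 2 ^ n / 100 * m := by linarith
    have h2 : (2 : ℝ) ^ n / 100 * m ≤ 2 ^ n / 100 * (c + 1) := by
      apply mul_le_mul_of_nonneg_left _ (by positivity)
      linarith
    linarith
  calc _ ≤ _ := Finset.sum_le_sum (fun p _ => hpt p)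
    _ = _ := e1
    _ ≤ 2 / 100 * 2 ^ n := by linarith

theorem bw_nonneg {m : ℕ} {δ : ℝ} (H : HardDist n r m δ) (u : Blk n r) : 0 ≤ bw H.D u := by
  unfold bw
  have := H.nonneg u.2.1
  positivity

open Classical in
theorem hit_prob {m c q : ℕ} {δ : ℝ} (H : HardDist n r m δ) (hc : (c : ℝ) ≤ 2 ^ n / 100)
    (hcN : (2 : ℝ) ^ n / 100 ≤ c + 1) (hmN : 100 * m ≤ 2 ^ n) (hq : 100 * q ≤ 2 ^ n * m)
    (T : DTree (Idx n r) Bool) (hT : T.depth ≤ q) :
    ∑ o : V n → Blk n r, (∏ i, bw H.D (o i)) * ∑ p : V n,
      (if hits p (o p).1 (bI o p) (T.path (x0 (bY o) (bI o))) then (1 : ℝ) else 0) ≤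
      5 / 100 * 2 ^ n := by
  have h1 : ∀ o : V n → Blk n r, ∑ p : V n,
      (if hits p (o p).1 (bI o p) (T.path (x0 (bY o) (bI o))) then (1 : ℝ) else 0) ≤
      ∑ p : V n, (if within m c p (T.path (x0 (bY o) (bI o))) ∧
        hits p (o p).1 (bI o p) (T.path (x0 (bY o) (bI o))) then (1 : ℝ) else 0) +
      2 / 100 * 2 ^ n := by
    intro o
    have h2 := over_bound hcN hmN hq (T.path (x0 (bY o) (bI o)))
      ((T.path_length _).trans hT)
    refine le_trans ?_ (add_le_add_right h2 _)
    rw [← Finset.sum_add_distrib]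
    apply Finset.sum_le_sum
    intro p _
    by_cases hw : within m c p (T.path (x0 (bY o) (bI o)))
    · by_cases hh : hits p (o p).1 (bI o p) (T.path (x0 (bY o) (bI o)))
      · rw [if_pos hh, if_pos ⟨hw, hh⟩, if_pos hw]; norm_num
      · rw [if_neg hh, if_neg (fun h => hh h.2), if_pos hw]; norm_num
    · rw [if_neg hw]; split_ifs <;> norm_num
  have hpos : ∀ o : V n → Blk n r, 0 ≤ ∏ i, bw H.D (o i) :=
    fun o => Finset.prod_nonneg fun i _ => bw_nonneg H _
  have hone : ∑ o : V n → Blk n r, ∏ i, bw H.D (o i) = 1 :=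
    prod_sum_one (bw H.D) (bw_sum H.D H.sum_one)
  calc _ ≤ ∑ o : V n → Blk n r, (∏ i, bw H.D (o i)) * (∑ p : V n,
        (if within m c p (T.path (x0 (bY o) (bI o))) ∧
        hits p (o p).1 (bI o p) (T.path (x0 (bY o) (bI o))) then (1 : ℝ) else 0) +
        2 / 100 * 2 ^ n) :=
        Finset.sum_le_sum (fun o _ => mul_le_mul_of_nonneg_left (h1 o) (hpos o))
    _ = ∑ p : V n, ∑ o : V n → Blk n r, (∏ i, bw H.D (o i)) *
        (if within m c p (T.path (x0 (bY o) (bI o))) ∧
        hits p (o p).1 (bI o p) (T.path (x0 (bY o) (bI o))) then (1 : ℝ) else 0) +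
        2 / 100 * 2 ^ n := by
        rw [Finset.sum_comm]
        have e : ∀ o : V n → Blk n r, (∏ i, bw H.D (o i)) * (∑ p : V n,
            (if within m c p (T.path (x0 (bY o) (bI o))) ∧
            hits p (o p).1 (bI o p) (T.path (x0 (bY o) (bI o))) then (1 : ℝ) else 0) +
            2 / 100 * 2 ^ n) =
            ∑ p : V n, (∏ i, bw H.D (o i)) *
            (if within m c p (T.path (x0 (bY o) (bI o))) ∧
            hits p (o p).1 (bI o p) (T.path (x0 (bY o) (bI o))) then (1 : ℝ) else 0) +
            (∏ i, bw H.D (o i)) * (2 / 100 * 2 ^ n) := by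
          intro o
          rw [mul_add, Finset.mul_sum]
        rw [Finset.sum_congr rfl (fun o _ => e o), Finset.sum_add_distrib, ← Finset.sum_mul, hone,
          one_mul]
    _ ≤ ∑ p : V n, 3 / 100 + 2 / 100 * 2 ^ n := by
        apply add_le_add_left
        apply Finset.sum_le_sum
        intro p _
        apply resample_le (bw H.D) (bw_nonneg H) (bw_sum H.D H.sum_one) p
        intro o
        have h3 := inner_bound H T (x0 (bY o) (bI o)) p hc
        refine le_trans (le_of_eq ?_) h3
        apply Finset.sum_congr rfl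
        intro u _
        rw [x0_update]
        have e1 : bI (Function.update o p u) p = u.2.2 := by
          unfold bI; rw [Function.update_self]
        rw [e1, Function.update_self]
    _ = 5 / 100 * 2 ^ n := by
        rw [Finset.sum_const, Finset.card_univ, nsmul_eq_mul, card_V]
        ring

open Classical in
/-- the planted cell has a large amplitude with high probability -/
theorem psi_prob {m : ℕ} {δ : ℝ} (H : HardDist n r m δ) (p : V n) :
    ∑ o : V n → Blk n r, (∏ i, bw H.D (o i)) *
      (if psi (bY o p) (o p).1 < δ then (1 : ℝ) else 0) ≤ 1 / 100 := by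
  apply resample_le (bw H.D) (bw_nonneg H) (bw_sum H.D H.sum_one) p
  intro o
  have e : ∑ u, bw H.D u * (if psi (bY (Function.update o p u) p)
      (Function.update o p u p).1 < δ then (1 : ℝ) else 0) =
      ∑ y, (if psi y (fun _ => false) < δ then H.D y else 0) := by
    have e1 : ∀ u : Blk n r, bw H.D u * (if psi (bY (Function.update o p u) p)
        (Function.update o p u p).1 < δ then (1 : ℝ) else 0) =
        1 / 2 ^ n * (1 / 2 ^ n * (if psi u.2.1 (fun _ => false) < δ then H.D u.2.1 else 0)) := by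
      intro u
      have e2 : bY (Function.update o p u) p = twist u.1 u.2.1 := by
        unfold bY; rw [Function.update_self]
      rw [e2, Function.update_self, psi_twist]
      unfold bw
      split_ifs <;> ring
    have e3 : ∀ a : V n, ∑ v : (Fin (r + 1) × V n → Bool) × V n,
        1 / (2 : ℝ) ^ n * (1 / 2 ^ n * (if psi v.1 (fun _ => false) < δ then H.D v.1 else 0)) =
        1 / 2 ^ n * ∑ y, (if psi y (fun _ => false) < δ then H.D y else 0) := by
      intro a
      rw [Fintype.sum_prod_type, Finset.mul_sum]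
      apply Finset.sum_congr rfl
      intro y _
      show ∑ _i : V n, 1 / (2 : ℝ) ^ n * (1 / 2 ^ n *
        (if psi y (fun _ => false) < δ then H.D y else 0)) = _
      rw [Finset.sum_const, Finset.card_univ, nsmul_eq_mul, card_V]
      field_simp
    rw [Finset.sum_congr rfl (fun u _ => e1 u), Fintype.sum_prod_type]
    have e4 : ∑ a : V n, ∑ v : (Fin (r + 1) × V n → Bool) × V n,
        1 / (2 : ℝ) ^ n * (1 / 2 ^ n * (if psi v.1 (fun _ => false) < δ then H.D v.1 else 0)) =
        ∑ y, (if psi y (fun _ => false) < δ then H.D y else 0) := by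
      rw [Finset.sum_congr rfl (fun a _ => e3 a), Finset.sum_const, Finset.card_univ,
        nsmul_eq_mul, card_V]
      field_simp
    exact e4
  rw [e]
  exact H.large

end prob

theorem lower_bound {m : ℕ} {δ : ℝ} (H : HardDist n r m δ) (hδ : 0 < δ) (hm : 1 ≤ m)
    (hmN : 100 * m ≤ 2 ^ n) {q : ℕ} (hq : RandComputes q (fn n r δ)) : 2 ^ n * m < 100 * q := by
  classical
  by_contra hcon
  push Not at hcon
  have hN : (0 : ℝ) < 2 ^ n := by positivity
  have hc : (((2 ^ n / 100 : ℕ)) : ℝ) ≤ 2 ^ n / 100 := by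
    have := Nat.cast_div_le (m := 2 ^ n) (n := 100) (α := ℝ)
    push_cast at this ⊢
    exact this
  have hcN : (2 : ℝ) ^ n / 100 ≤ ((2 ^ n / 100 : ℕ) : ℝ) + 1 := by
    have h1 : 2 ^ n < 100 * (2 ^ n / 100 + 1) := by omega
    have h2 : ((2 ^ n : ℕ) : ℝ) < ((100 * (2 ^ n / 100 + 1) : ℕ) : ℝ) := by exact_mod_cast h1
    have h3 : ((2 ^ n : ℕ) : ℝ) = (2 : ℝ) ^ n := by push_cast; rfl
    rw [h3, Nat.cast_mul, Nat.cast_add] at h2
    norm_num only at h2 ⊢
    rw [div_le_iff₀ (by norm_num)]
    linarith
  have hex := fun (o : V n → Blk n r) (p : V n) => exists_x1 (δ := δ) (bY o) (bI o) p (o p).1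
  choose X1 hX1 hX1' using hex
  have hpos : ∀ o : V n → Blk n r, 0 ≤ ∏ i, bw H.D (o i) :=
    fun o => Finset.prod_nonneg fun i _ => bw_nonneg H _
  have hone : ∑ o : V n → Blk n r, ∏ i, bw H.D (o i) = 1 :=
    prod_sum_one (bw H.D) (bw_sum H.D H.sum_one)
  have hy := yao hq
    (fun z : (V n → Blk n r) × V n × Bool => (∏ i, bw H.D (z.1 i)) * (1 / 2 ^ n))
    (fun z => mul_nonneg (hpos z.1) (by positivity))
    (fun z => if z.2.2 then X1 z.1 z.2.1 else x0 (bY z.1) (bI z.1)) (106 / 100) ?_
  · have htot : ∑ z : (V n → Blk n r) × V n × Bool, (∏ i, bw H.D (z.1 i)) * (1 / 2 ^ n) = 2 := by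
      rw [Fintype.sum_prod_type]
      have e : ∀ o : V n → Blk n r, ∑ _v : V n × Bool, (∏ i, bw H.D (o i)) * (1 / (2 : ℝ) ^ n) =
          (∏ i, bw H.D (o i)) * 2 := by
        intro o
        rw [Finset.sum_const, Finset.card_univ, nsmul_eq_mul, Fintype.card_prod, Nat.cast_mul,
          card_V, Fintype.card_bool]
        field_simp
        push_cast
        ring
      have e2 : ∑ o : V n → Blk n r, ∑ _v : V n × Bool,
          (∏ i, bw H.D (o i)) * (1 / (2 : ℝ) ^ n) = 2 := by
        rw [Finset.sum_congr rfl (fun o _ => e o), ← Finset.sum_mul, hone, one_mul]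
      exact e2
    rw [htot] at hy
    norm_num at hy
  · intro T hT
    have hpt : ∀ (o : V n → Blk n r) (p : V n),
        (if T.eval (x0 (bY o) (bI o)) = fn n r δ (x0 (bY o) (bI o)) then (1 : ℝ) else 0) +
        (if T.eval (X1 o p) = fn n r δ (X1 o p) then (1 : ℝ) else 0) ≤
        1 + (if hits p (o p).1 (bI o p) (T.path (x0 (bY o) (bI o))) then (1 : ℝ) else 0) +
        (if psi (bY o p) (o p).1 < δ then (1 : ℝ) else 0) := by
      intro o p
      by_cases h1 : psi (bY o p) (o p).1 < δ
      · rw [if_pos h1]; split_ifs <;> norm_num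
      · by_cases h2 : hits p (o p).1 (bI o p) (T.path (x0 (bY o) (bI o)))
        · rw [if_pos h2]; split_ifs <;> norm_num
        · have h3 : fn n r δ (X1 o p) = true := hX1' o p (not_lt.mp h1)
          have h4 : fn n r δ (x0 (bY o) (bI o)) = false := fn_x0 hδ _ _
          have h5 : T.eval (X1 o p) = T.eval (x0 (bY o) (bI o)) := by
            apply DTree.eval_congr
            intro t ht
            symm
            apply hX1
            · rintro rfl
              exact h2 ⟨_, ht, Or.inl rfl⟩
            · by_contra h6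
              rw [Bool.not_eq_false] at h6
              exact h2 ⟨t, ht, Or.inr h6⟩
          rw [h3, h4, h5]
          cases T.eval (x0 (bY o) (bI o)) <;> simp <;> split_ifs <;> norm_num
    have hsplit : ∑ z : (V n → Blk n r) × V n × Bool, (∏ i, bw H.D (z.1 i)) * (1 / 2 ^ n) *
        (if T.eval (if z.2.2 then X1 z.1 z.2.1 else x0 (bY z.1) (bI z.1)) =
          fn n r δ (if z.2.2 then X1 z.1 z.2.1 else x0 (bY z.1) (bI z.1)) then (1 : ℝ) else 0) =
        ∑ o : V n → Blk n r, (∏ i, bw H.D (o i)) * (1 / 2 ^ n * ∑ p : V n,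
        ((if T.eval (x0 (bY o) (bI o)) = fn n r δ (x0 (bY o) (bI o)) then (1 : ℝ) else 0) +
        (if T.eval (X1 o p) = fn n r δ (X1 o p) then (1 : ℝ) else 0))) := by
      rw [Fintype.sum_prod_type]
      apply Finset.sum_congr rfl
      intro o _
      rw [Fintype.sum_prod_type, Finset.mul_sum, Finset.mul_sum]
      apply Finset.sum_congr rfl
      intro p _
      rw [Fintype.sum_bool]
      simp only [if_true, Bool.false_eq_true, if_false]
      ring
    refine (le_of_eq hsplit).trans ?_
    calc _ ≤ ∑ o : V n → Blk n r, (∏ i, bw H.D (o i)) * (1 / 2 ^ n * ∑ p : V n,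
          (1 + (if hits p (o p).1 (bI o p) (T.path (x0 (bY o) (bI o))) then (1 : ℝ) else 0) +
          (if psi (bY o p) (o p).1 < δ then (1 : ℝ) else 0))) := by
          apply Finset.sum_le_sum
          intro o _
          apply mul_le_mul_of_nonneg_left _ (hpos o)
          apply mul_le_mul_of_nonneg_left _ (by positivity)
          exact Finset.sum_le_sum (fun p _ => hpt o p)
      _ = 1 + 1 / 2 ^ n * ∑ o : V n → Blk n r, (∏ i, bw H.D (o i)) * ∑ p : V n,
          (if hits p (o p).1 (bI o p) (T.path (x0 (bY o) (bI o))) then (1 : ℝ) else 0) +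
          1 / 2 ^ n * ∑ p : V n, ∑ o : V n → Blk n r, (∏ i, bw H.D (o i)) *
          (if psi (bY o p) (o p).1 < δ then (1 : ℝ) else 0) := by
          have e : ∀ o : V n → Blk n r, (∏ i, bw H.D (o i)) * (1 / 2 ^ n * ∑ p : V n,
              (1 + (if hits p (o p).1 (bI o p) (T.path (x0 (bY o) (bI o))) then (1 : ℝ) else 0) +
              (if psi (bY o p) (o p).1 < δ then (1 : ℝ) else 0))) =
              (∏ i, bw H.D (o i)) + 1 / 2 ^ n * ((∏ i, bw H.D (o i)) * ∑ p : V n,
              (if hits p (o p).1 (bI o p) (T.path (x0 (bY o) (bI o))) then (1 : ℝ) else 0)) +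
              1 / 2 ^ n * ∑ p : V n, (∏ i, bw H.D (o i)) *
              (if psi (bY o p) (o p).1 < δ then (1 : ℝ) else 0) := by
            intro o
            rw [Finset.sum_add_distrib, Finset.sum_add_distrib, Finset.sum_const,
              Finset.card_univ, nsmul_eq_mul, card_V, ← Finset.mul_sum]
            field_simp
          rw [Finset.sum_congr rfl (fun o _ => e o), Finset.sum_add_distrib,
            Finset.sum_add_distrib, hone, ← Finset.mul_sum, ← Finset.mul_sum, Finset.sum_comm
            (γ := V n)]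
      _ ≤ 1 + 1 / 2 ^ n * (5 / 100 * 2 ^ n) + 1 / 2 ^ n * ∑ p : V n, 1 / 100 := by
          apply add_le_add
          · apply add_le_add_right
            exact mul_le_mul_of_nonneg_left (hit_prob H hc hcN hmN hcon T hT) (by positivity)
          · apply mul_le_mul_of_nonneg_left _ (by positivity)
            exact Finset.sum_le_sum (fun p _ => psi_prob H p)
      _ = 106 / 100 := by
          rw [Finset.sum_const, Finset.card_univ, nsmul_eq_mul, card_V]
          field_simp
          norm_num

end P362
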