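import Vale.Agent.P362.Repeat

/-!
# P362, module TRANSFER: renaming of the input index set; existence of algorithms
-/

namespace P362

open scoped BigOperators Matrix

/-! ### classical part -/

/-- rename the queried indices of a decision tree -/
def DTree.ren {ι κ α : Type} (g : κ → ι) : DTree κ α → DTree ι α
  | .leaf a => .leaf a
  | .node k t0 t1 => .node (g k) (t0.ren g) (t1.ren g)

theorem DTree.ren_eval {ι κ α : Type} (g : κ → ι) (T : DTree κ α) (x : ι → Bool) :
    (T.ren g).eval x = T.eval (fun k => x (g k)) := by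
  induction T with
  | leaf a => rfl
  | node k t0 t1 h0 h1 => simp only [DTree.ren, DTree.eval, h0, h1]

theorem DTree.ren_depth {ι κ α : Type} (g : κ → ι) (T : DTree κ α) :
    (T.ren g).depth = T.depth := by
  induction T with
  | leaf a => rfl
  | node k t0 t1 h0 h1 => simp only [DTree.ren, DTree.depth, h0, h1]

theorem rand_transfer {ι κ : Type} (e : ι ≃ κ) {q : ℕ} {f : (ι → Bool) → Bool}
    (h : RandComputes q fun y : κ → Bool => f (fun i => y (e i))) : RandComputes q f := by
  obtain ⟨p, hp, hx⟩ := h
  refine ⟨p.map (DTree.ren e.symm), fun T hT => ?_, fun x => ?_⟩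
  · rw [PMF.mem_support_map_iff] at hT
    obtain ⟨T', hT', rfl⟩ := hT
    rw [DTree.ren_depth]
    exact hp T' hT'
  · rw [PMF.toOuterMeasure_map_apply]
    have h1 := hx (fun k => x (e.symm k))
    have h2 : (DTree.ren e.symm ⁻¹' {T : DTree ι Bool | T.eval x = f x}) =
        {T : DTree κ Bool | T.eval (fun k => x (e.symm k)) =
          f (fun i => x (e.symm (e i)))} := by
      ext T
      simp only [Set.mem_preimage, Set.mem_ofPred_eq, DTree.ren_eval, Equiv.symm_apply_apply]
    rw [h2]
    exact h1

/-- a deterministic algorithm is a randomized algorithm -/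
theorem rand_of_det {ι : Type} {f : (ι → Bool) → Bool} (T : DTree ι Bool)
    (h : ∀ x, T.eval x = f x) : RandComputes T.depth f := by
  refine ⟨PMF.pure T, fun T' hT' => ?_, fun x => ?_⟩
  · rw [PMF.support_pure, Set.mem_singleton_iff] at hT'
    rw [hT']
  · rw [PMF.toOuterMeasure_pure_apply, if_pos (show T ∈ {T' : DTree ι Bool | T'.eval x = f x}
      from h x)]
    rw [ENNReal.div_le_iff (by norm_num) (by norm_num)]
    norm_num

theorem exists_tree_of_dep {ι : Type} [DecidableEq ι] (l : List ι) :
    ∀ f : (ι → Bool) → Bool, (∀ x y, (∀ i ∈ l, x i = y i) → f x = f y) →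
      ∃ T : DTree ι Bool, ∀ x, T.eval x = f x := by
  induction l with
  | nil =>
    intro f hf
    exact ⟨.leaf (f fun _ => false), fun x => hf _ _ fun i hi => absurd hi List.not_mem_nil⟩
  | cons i l ih =>
    intro f hf
    have h : ∀ b : Bool, ∃ T : DTree ι Bool, ∀ x, T.eval x = f (Function.update x i b) := by
      intro b
      refine ih (fun x => f (Function.update x i b)) fun x y hxy => ?_
      refine hf _ _ fun j hj => ?_
      by_cases hji : j = i
      · subst hji
        simp
      · rw [Function.update_of_ne hji, Function.update_of_ne hji]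
        exact hxy j ((List.mem_cons.1 hj).resolve_left hji)
    obtain ⟨T0, h0⟩ := h false
    obtain ⟨T1, h1⟩ := h true
    refine ⟨.node i T0 T1, fun x => ?_⟩
    cases hxi : x i with
    | true =>
      have e : Function.update x i true = x := by
        rw [← hxi, Function.update_eq_self]
      simp only [DTree.eval, hxi, if_true, h1, e]
    | false =>
      have e : Function.update x i false = x := by
        rw [← hxi, Function.update_eq_self]
      simp only [DTree.eval, hxi, Bool.false_eq_true, if_false, h0, e]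

theorem exists_tree_fun {ι : Type} [Fintype ι] (f : (ι → Bool) → Bool) :
    ∃ T : DTree ι Bool, ∀ x, T.eval x = f x := by
  classical
  refine exists_tree_of_dep (Finset.univ : Finset ι).toList f fun x y hxy => ?_
  have : x = y := funext fun i => hxy i (by simp)
  rw [this]

theorem exists_rand {ι : Type} [Fintype ι] (f : (ι → Bool) → Bool) :
    ∃ q, RandComputes q f := by
  obtain ⟨T, hT⟩ := exists_tree_fun f
  exact ⟨T.depth, rand_of_det T hT⟩

/-! ### quantum part -/

section

variable {ι κ : Type} [Fintype ι] [DecidableEq ι] [Fintype κ] [DecidableEq κ]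

/-- rename the basis states of the query space -/
def qren (e : ι ≃ κ) (Z : Type) : ι × Bool × Z ≃ κ × Bool × Z :=
  Equiv.prodCongr e (Equiv.refl _)

theorem reindex_unitary {α β : Type} [Fintype α] [DecidableEq α] [Fintype β] [DecidableEq β]
    (E : α ≃ β) {U : Matrix α α ℂ} (hU : U ∈ Matrix.unitaryGroup α ℂ) :
    U.submatrix E.symm E.symm ∈ Matrix.unitaryGroup β ℂ := by
  rw [Matrix.mem_unitaryGroup_iff, Matrix.star_eq_conjTranspose] at hU ⊢
  rw [Matrix.conjTranspose_submatrix, Matrix.submatrix_mul_equiv, hU, Matrix.submatrix_one_equiv]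

theorem submatrix_mulVec' {α β : Type} [Fintype α] [Fintype β]
    (E : α ≃ β) (M : Matrix α α ℂ) (v : β → ℂ) (a : α) :
    (M.submatrix E.symm E.symm *ᵥ v) (E a) = (M *ᵥ fun s => v (E s)) a := by
  simp only [Matrix.mulVec, dotProduct, Matrix.submatrix_apply, Equiv.symm_apply_apply]
  rw [← Equiv.sum_comp E]
  simp only [Equiv.symm_apply_apply]

/-- the renamed algorithm -/
def QAlg.ren (e : ι ≃ κ) (A : QAlg ι) : QAlg κ where
  Z := A.Z
  U t := (A.U t).submatrix (qren e A.Z).symm (qren e A.Z).symm
  U_unitary t := reindex_unitary (qren e A.Z) (A.U_unitary t)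
  init := qren e A.Z A.init
  acc := A.acc.map (qren e A.Z).toEmbedding

theorem QAlg.ren_state (e : ι ≃ κ) (A : QAlg ι) (y : κ → Bool) (q : ℕ) (s : ι × Bool × A.Z) :
    (A.ren e).state y q (qren e A.Z s) = A.state (fun i => y (e i)) q s := by
  induction q generalizing s with
  | zero =>
    show (((A.U 0).submatrix (qren e A.Z).symm (qren e A.Z).symm) *ᵥ
      Pi.single (qren e A.Z A.init) 1) (qren e A.Z s) = (A.U 0 *ᵥ Pi.single A.init 1) s
    rw [submatrix_mulVec']
    congr 1
    ext t
    by_cases h : t = A.init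
    · subst h
      simp
    · have h' : qren e A.Z t ≠ qren e A.Z A.init := fun h'' => h ((qren e A.Z).injective h'')
      rw [Pi.single_eq_of_ne h, Pi.single_eq_of_ne h']
  | succ q ih =>
    show (((A.U (q + 1)).submatrix (qren e A.Z).symm (qren e A.Z).symm) *ᵥ
      (oracle y *ᵥ (A.ren e).state y q)) (qren e A.Z s) =
      (A.U (q + 1) *ᵥ (oracle (fun i => y (e i)) *ᵥ A.state (fun i => y (e i)) q)) s
    rw [submatrix_mulVec']
    congr 1
    ext t
    rw [oracle_mulVec]
    have h1 := oracle_mulVec (Z := A.Z) y ((A.ren e).state y q) (qren e A.Z t)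
    refine h1.trans ?_
    have h2 : ((qren e A.Z t).1, xor (qren e A.Z t).2.1 (y (qren e A.Z t).1),
        (qren e A.Z t).2.2) = qren e A.Z (t.1, xor t.2.1 (y (e t.1)), t.2.2) := rfl
    rw [h2]
    exact ih _

theorem QAlg.ren_acceptProb (e : ι ≃ κ) (A : QAlg ι) (y : κ → Bool) (q : ℕ) :
    (A.ren e).acceptProb q y = A.acceptProb q (fun i => y (e i)) := by
  show ∑ s ∈ A.acc.map (qren e A.Z).toEmbedding, ‖(A.ren e).state y q s‖ ^ 2 = _
  rw [Finset.sum_map]
  unfold QAlg.acceptProb
  refine Finset.sum_congr rfl fun s _ => ?_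
  rw [← QAlg.ren_state e A y q s]
  rfl

end

theorem quant_transfer {ι κ : Type} [Fintype ι] [DecidableEq ι] [Fintype κ] [DecidableEq κ]
    (e : ι ≃ κ) {q : ℕ} {f : (ι → Bool) → Bool} (h : QuantComputes q f) :
    QuantComputes q fun y : κ → Bool => f (fun i => y (e i)) := by
  obtain ⟨A, hA⟩ := h
  refine ⟨A.ren e, fun y => ?_⟩
  rw [QAlg.ren_acceptProb]
  exact hA _

theorem exists_quant {ι : Type} [Fintype ι] [DecidableEq ι] [Nonempty ι]
    (f : (ι → Bool) → Bool) : ∃ q, QuantComputes q f := by
  obtain ⟨T, hT⟩ := exists_tree_fun f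
  obtain ⟨A, hA⟩ := realize (AccFam.dt T T.depth le_rfl)
  refine ⟨T.depth, A, fun x => ?_⟩
  rw [hA x, hT x]
  constructor
  · intro hf
    rw [hf]
    norm_num
  · intro hf
    rw [hf]
    norm_num

end P362
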