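import Vale.Agent.P362.CostAsymp
import Vale.Agent.P362.Lower
import Vale.Agent.P362.Transfer

/-!
# P362, module FINALLOWER: every admissible exponent is at least `4`
-/

namespace P362

open Filter

private theorem fl_del_pos {n r : ℕ} (hn : 1 ≤ n) : 0 < del n r := by
  unfold del
  have h1 := Cr_pos r
  have h2 : (0 : ℝ) < n := by exact_mod_cast hn
  positivity

private theorem fl_del_le {n r : ℕ} (hn : 1 ≤ n) : del n r ≤ 1 := by
  unfold del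
  have hn' : (1 : ℝ) ≤ n := by exact_mod_cast hn
  have hC : (1 : ℝ) ≤ Cr r := by
    unfold Cr
    push_cast
    have : (0 : ℝ) ≤ r := Nat.cast_nonneg r
    linarith
  have h2 : (1 : ℝ) ≤ (Cr r : ℝ) * n := by nlinarith
  have h3 : 1 / ((Cr r : ℝ) * n) ≤ 1 := by
    rw [div_le_one (by linarith)]
    exact h2
  have h4 : (1 / ((Cr r : ℝ) * n)) ^ r ≤ 1 := pow_le_one₀ (by positivity) h3
  linarith

/-- the separation for a single `r` and `ε`, on `Fin`-indexed functions -/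
theorem separation (r : ℕ) (hr : 1 ≤ r) (ε : ℝ) (hε : 0 < ε) (hε1 : ε < 1 / 4) :
    ∃ (C : ℝ) (c : ℕ), 0 < C ∧ ∀ᶠ n : ℕ in atTop, ∃ M : ℕ, 1 ≤ M ∧
      ∃ f : (Fin M → Bool) → Bool, (Q f : ℝ) ≤ C * (n : ℝ) ^ c * (2 : ℝ) ^ ((n : ℝ) / 2) ∧
        (2 : ℝ) ^ ((n : ℝ) * (2 - 1 / ((r : ℝ) + 1) - ε)) / 200 ≤ (R f : ℝ) := by
  obtain ⟨C, c, hC, hq⟩ := qcost_le r
  refine ⟨C, c, hC, ?_⟩
  have hr1 : (1 : ℝ) ≤ r := by exact_mod_cast hr
  set θ : ℝ := 1 - 1 / ((r : ℝ) + 1) - ε with hθ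
  have hinv : 1 / ((r : ℝ) + 1) ≤ 1 / 2 := one_div_le_one_div_of_le (by norm_num) (by linarith)
  have hinv0 : 0 < 1 / ((r : ℝ) + 1) := by positivity
  have hθ0 : 0 ≤ θ := by linarith
  have hθ1 : 0 < 1 - θ := by linarith
  have hb : 1 < (2 : ℝ) ^ (1 - θ) := Real.one_lt_rpow (by norm_num) hθ1
  have e1 : ∀ᶠ n : ℕ in atTop, (100 : ℝ) ≤ ((2 : ℝ) ^ (1 - θ)) ^ n :=
    (tendsto_pow_atTop_atTop_of_one_lt hb).eventually_ge_atTop 100
  filter_upwards [hq, hardDist_exists r hr ε hε, e1, eventually_ge_atTop 1] with n hqn hH he hn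
  obtain ⟨H⟩ := hH
  have hδ : 0 < del n r := fl_del_pos hn
  have hδ1 : del n r ≤ 1 := fl_del_le hn
  have hN0 : (0 : ℝ) < (2 : ℝ) ^ n := by positivity
  have hN1 : (1 : ℝ) ≤ (2 : ℝ) ^ n := one_le_pow₀ (by norm_num)
  have hNθ : 1 ≤ ((2 : ℝ) ^ n) ^ θ := Real.one_le_rpow hN1 hθ0
  have hm1 : 1 ≤ mm' n r ε := by
    unfold mm'
    refine Nat.le_floor ?_
    rw [Nat.cast_one]
    exact hNθ
  have hm_le : ((mm' n r ε : ℕ) : ℝ) ≤ ((2 : ℝ) ^ n) ^ θ := Nat.floor_le (by positivity)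
  have hm_ge : ((2 : ℝ) ^ n) ^ θ / 2 ≤ ((mm' n r ε : ℕ) : ℝ) := by
    have h1 : ((2 : ℝ) ^ n) ^ θ < ((mm' n r ε : ℕ) : ℝ) + 1 := Nat.lt_floor_add_one _
    have h2 : (1 : ℝ) ≤ ((mm' n r ε : ℕ) : ℝ) := by exact_mod_cast hm1
    linarith
  have hmN : 100 * mm' n r ε ≤ 2 ^ n := by
    have h1 : (100 : ℝ) * ((2 : ℝ) ^ n) ^ θ ≤ (2 : ℝ) ^ n := by
      have h2 : ((2 : ℝ) ^ (1 - θ)) ^ n = ((2 : ℝ) ^ n) ^ (1 - θ) := by
        rw [← Real.rpow_natCast, ← Real.rpow_mul (by norm_num), mul_comm,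
          Real.rpow_mul (by norm_num), Real.rpow_natCast]
      rw [h2] at he
      calc (100 : ℝ) * ((2 : ℝ) ^ n) ^ θ ≤ ((2 : ℝ) ^ n) ^ (1 - θ) * ((2 : ℝ) ^ n) ^ θ :=
            mul_le_mul_of_nonneg_right he (by positivity)
        _ = (2 : ℝ) ^ n := by
            rw [← Real.rpow_add hN0]
            norm_num
    have h3 : ((100 * mm' n r ε : ℕ) : ℝ) ≤ ((2 ^ n : ℕ) : ℝ) := by
      push_cast
      linarith
    exact_mod_cast h3
  let e : Idx n r ≃ Fin (Fintype.card (Idx n r)) := Fintype.equivFin (Idx n r)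
  refine ⟨Fintype.card (Idx n r), Fintype.card_pos, fun y => fn n r (del n r) fun i => y (e i),
    ?_, ?_⟩
  · have h1 : QuantComputes (qcost n r (del n r))
        (fun y : Fin (Fintype.card (Idx n r)) → Bool => fn n r (del n r) fun i => y (e i)) :=
      quant_transfer e (quant_upper hδ hδ1)
    have h2 : Q (fun y : Fin (Fintype.card (Idx n r)) → Bool =>
        fn n r (del n r) fun i => y (e i)) ≤ qcost n r (del n r) := Nat.sInf_le h1
    have h3 : sN n = (2 : ℝ) ^ ((n : ℝ) / 2) := by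
      rw [sN_rpow, ← Real.rpow_natCast, ← Real.rpow_mul (by norm_num)]
      congr 1
      ring
    rw [← h3]
    exact (Nat.cast_le.2 h2).trans hqn
  · have h1 : RandComputes (R (fun y : Fin (Fintype.card (Idx n r)) → Bool =>
        fn n r (del n r) fun i => y (e i))) (fun y : Fin (Fintype.card (Idx n r)) → Bool =>
        fn n r (del n r) fun i => y (e i)) := Nat.sInf_mem (exists_rand _)
    have h2 := rand_transfer e h1
    have h3 := lower_bound H hδ hm1 hmN h2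
    have h4 : (2 : ℝ) ^ n * (mm' n r ε : ℕ) < 100 * (R (fun y : Fin (Fintype.card (Idx n r)) →
        Bool => fn n r (del n r) fun i => y (e i)) : ℕ) := by
      exact_mod_cast h3
    have h5 : (2 : ℝ) ^ ((n : ℝ) * (2 - 1 / ((r : ℝ) + 1) - ε)) =
        (2 : ℝ) ^ n * ((2 : ℝ) ^ n) ^ θ := by
      rw [← Real.rpow_natCast, ← Real.rpow_mul (by norm_num), ← Real.rpow_add (by norm_num)]
      congr 1
      rw [hθ]
      ring
    rw [h5]
    have h6 : (2 : ℝ) ^ n * (((2 : ℝ) ^ n) ^ θ / 2) ≤ (2 : ℝ) ^ n * (mm' n r ε : ℕ) :=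
      mul_le_mul_of_nonneg_left hm_ge hN0.le
    linarith

/-- exponentials beat powers -/
private theorem fl_growth (K k s : ℝ) (hs : 0 < s) :
    ∀ᶠ n : ℕ in atTop, K * (n : ℝ) ^ k < (2 : ℝ) ^ ((n : ℝ) * s) := by
  have hb : 0 < s * Real.log 2 := mul_pos hs (Real.log_pos (by norm_num))
  have h1 := (tendsto_rpow_mul_exp_neg_mul_atTop_nhds_zero k (s * Real.log 2) hb).comp
    tendsto_natCast_atTop_atTop
  have h2 : Tendsto (fun n : ℕ => K * ((n : ℝ) ^ k * Real.exp (-(s * Real.log 2) * n))) atTop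
      (nhds 0) := by
    have := h1.const_mul K
    simpa using this
  filter_upwards [h2.eventually_lt_const (zero_lt_one)] with n hn
  have h3 : (2 : ℝ) ^ ((n : ℝ) * s) = Real.exp ((s * Real.log 2) * n) := by
    rw [Real.rpow_def_of_pos (by norm_num)]
    congr 1
    ring
  rw [h3]
  have h4 : Real.exp (-(s * Real.log 2) * n) = (Real.exp ((s * Real.log 2) * n))⁻¹ := by
    rw [← Real.exp_neg]
    congr 1
    ring
  rw [h4, ← mul_assoc, ← div_eq_mul_inv, div_lt_one (Real.exp_pos _)] at hn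
  exact hn

theorem four_le_of_admissible {α : ℝ} (h : α ∈ admissible) : 4 ≤ α := by
  by_contra hlt
  push Not at hlt
  obtain ⟨hα, C₀, hC₀⟩ := h
  -- choose the parameters
  set d : ℝ := 2 - α / 2 with hd
  have hd0 : 0 < d := by rw [hd]; linarith
  obtain ⟨r', hr'⟩ := exists_nat_gt (4 / d)
  set r : ℕ := r' + 1 with hr
  have hr1 : 1 ≤ r := by omega
  set ε : ℝ := min (1 / 8) (d / 4) with hε
  have hε0 : 0 < ε := by rw [hε]; positivity
  have hε1 : ε < 1 / 4 := lt_of_le_of_lt (min_le_left _ _) (by norm_num)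
  have hεd : ε ≤ d / 4 := min_le_right _ _
  have hrd : 1 / ((r : ℝ) + 1) ≤ d / 4 := by
    have h1 : 4 / d ≤ (r : ℝ) + 1 := by
      rw [hr]
      push_cast
      linarith
    calc 1 / ((r : ℝ) + 1) ≤ 1 / (4 / d) := one_div_le_one_div_of_le (by positivity) h1
      _ = d / 4 := by rw [one_div_div]
  obtain ⟨C, c, hC, hsep⟩ := separation r hr1 ε hε0 hε1
  have hg := fl_growth (200 * |C₀| * (1 + C) ^ α) ((c : ℝ) * α) (d / 2) (by positivity)
  obtain ⟨n, ⟨M, hM, f, hQ, hR⟩, hgn, hn⟩ := (hsep.and (hg.and (eventually_ge_atTop 1))).exists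
  have hn' : (1 : ℝ) ≤ n := by exact_mod_cast hn
  have hn0 : (0 : ℝ) < n := by linarith
  have h1 : (2 : ℝ) ^ ((n : ℝ) * (2 - 1 / ((r : ℝ) + 1) - ε)) / 200 ≤
      |C₀| * (1 + (Q f : ℝ)) ^ α := by
    refine hR.trans ((hC₀ M hM f).trans ?_)
    exact mul_le_mul_of_nonneg_right (le_abs_self _) (by positivity)
  have hX : 1 ≤ (n : ℝ) ^ c * (2 : ℝ) ^ ((n : ℝ) / 2) := by
    have a1 : 1 ≤ (n : ℝ) ^ c := one_le_pow₀ hn'
    have a2 : 1 ≤ (2 : ℝ) ^ ((n : ℝ) / 2) := Real.one_le_rpow (by norm_num) (by positivity)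
    nlinarith
  have h2 : (1 + (Q f : ℝ)) ^ α ≤ ((1 + C) * ((n : ℝ) ^ c * (2 : ℝ) ^ ((n : ℝ) / 2))) ^ α := by
    refine Real.rpow_le_rpow (by positivity) ?_ hα
    nlinarith
  have h3 : ((1 + C) * ((n : ℝ) ^ c * (2 : ℝ) ^ ((n : ℝ) / 2))) ^ α =
      (1 + C) ^ α * (n : ℝ) ^ ((c : ℝ) * α) * (2 : ℝ) ^ ((n : ℝ) * (α / 2)) := by
    rw [Real.mul_rpow (by positivity) (by positivity),
      Real.mul_rpow (by positivity) (by positivity), ← Real.rpow_natCast,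
      ← Real.rpow_mul hn0.le, ← Real.rpow_mul (by norm_num), mul_assoc]
    congr 3
    ring
  have h4 : (2 : ℝ) ^ ((n : ℝ) * (α / 2)) * (2 : ℝ) ^ ((n : ℝ) * (d / 2)) ≤
      (2 : ℝ) ^ ((n : ℝ) * (2 - 1 / ((r : ℝ) + 1) - ε)) := by
    rw [← Real.rpow_add (by norm_num), ← mul_add]
    refine Real.rpow_le_rpow_of_exponent_le (by norm_num) ?_
    refine mul_le_mul_of_nonneg_left ?_ hn0.le
    linarith
  rw [h3] at h2
  have hP : 0 < (2 : ℝ) ^ ((n : ℝ) * (α / 2)) := by positivity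
  have h5 : (2 : ℝ) ^ ((n : ℝ) * (α / 2)) * (2 : ℝ) ^ ((n : ℝ) * (d / 2)) ≤
      (2 : ℝ) ^ ((n : ℝ) * (α / 2)) * (200 * |C₀| * (1 + C) ^ α * (n : ℝ) ^ ((c : ℝ) * α)) := by
    have h6 : |C₀| * (1 + (Q f : ℝ)) ^ α ≤ |C₀| * ((1 + C) ^ α * (n : ℝ) ^ ((c : ℝ) * α) *
        (2 : ℝ) ^ ((n : ℝ) * (α / 2))) := mul_le_mul_of_nonneg_left h2 (abs_nonneg _)
    calc (2 : ℝ) ^ ((n : ℝ) * (α / 2)) * (2 : ℝ) ^ ((n : ℝ) * (d / 2))
        ≤ 200 * (|C₀| * ((1 + C) ^ α * (n : ℝ) ^ ((c : ℝ) * α) *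
          (2 : ℝ) ^ ((n : ℝ) * (α / 2)))) := by linarith
      _ = _ := by ring
  have h7 := le_of_mul_le_mul_left h5 hP
  linarith

end P362
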