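import Vale.Agent.P362.Model

/-!
# P362: the total functions `fn n r δ`

`V n = {0,1}^n` (addresses), `N = 2^n` blocks, `r + 1` levels.
-/

namespace P362

open scoped BigOperators

/-- addresses -/
abbrev V (n : ℕ) : Type := Fin n → Bool

/-- sign of a bit -/
def sg (b : Bool) : ℤ := if b then -1 else 1

/-- the character `(-1)^{a·i}` -/
def chi {n : ℕ} (a i : V n) : ℤ := ∏ s, if a s && i s then -1 else 1

/-- unnormalised Walsh–Hadamard transform -/
def wht {n : ℕ} (g : V n → ℤ) (a : V n) : ℤ := ∑ i, chi a i * g i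

/-- level-`l` vector of the (unnormalised) chain: `lay y 0 = 1`,
`lay y (l+1) = WHT (y_l · lay y l)`; levels beyond `r` are treated as masks `1`. -/
def lay {n r : ℕ} (y : Fin (r + 1) × V n → Bool) : ℕ → V n → ℤ
  | 0 => fun _ => 1
  | l + 1 => wht fun i => (if h : l < r + 1 then sg (y (⟨l, h⟩, i)) else 1) * lay y l i

/-- `√N` -/
noncomputable def sN (n : ℕ) : ℝ := Real.sqrt 2 ^ n

/-- the unit vector `ψ(y) = H D_{y^r} H ⋯ H D_{y^0} 1/√N` -/
noncomputable def psi {n r : ℕ} (y : Fin (r + 1) × V n → Bool) (a : V n) : ℝ :=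
  (lay y (r + 1) a : ℝ) / sN n ^ (r + 2)

/-- number of bits of a word -/
def wlen (n r : ℕ) : ℕ := n * (r + 1) + 2

/-- The index set of the input bits. -/
inductive Idx (n r : ℕ) : Type where
  | data (p : V n) (l : Fin (r + 1)) (i : V n)
  | flag (p i : V n)
  | ptr (p a j : V n) (b : Fin n)
  | word (p a : V n) (l : Fin (r + 1)) (s : Fin (n + 1)) (i : V n) (b : Fin (wlen n r))
deriving DecidableEq

noncomputable instance Idx.instFintype (n r : ℕ) : Fintype (Idx n r) :=
  Fintype.ofInjective
    (β := (V n × Fin (r + 1) × V n) ⊕ (V n × V n) ⊕ (V n × V n × V n × Fin n) ⊕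
      (V n × V n × Fin (r + 1) × Fin (n + 1) × V n × Fin (wlen n r)))
    (fun
      | .data p l i => Sum.inl (p, l, i)
      | .flag p i => Sum.inr (Sum.inl (p, i))
      | .ptr p a j b => Sum.inr (Sum.inr (Sum.inl (p, a, j, b)))
      | .word p a l s i b => Sum.inr (Sum.inr (Sum.inr (p, a, l, s, i, b))))
    (by
      intro u v h
      cases u <;> cases v <;> simp_all)

/-- decoding of words -/
def dec {B : ℕ} (w : Fin B → Bool) : ℤ := (∑ b, if w b then 2 ^ (b : ℕ) else 0) - 2 ^ (B - 1)

variable {n r : ℕ}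

/-- the decoded transcript word `T_{p,a}[l][s][i]` -/
def tw (x : Idx n r → Bool) (p a : V n) (l : Fin (r + 1)) (s : Fin (n + 1)) (i : V n) : ℤ :=
  dec fun b => x (.word p a l s i b)

/-- the previous level's final vector (all-one vector before level `0`) -/
def prevw (x : Idx n r → Bool) (p a : V n) (l : Fin (r + 1)) (i : V n) : ℤ :=
  if h : l = 0 then 1 else tw x p a (l.pred h).castSucc (Fin.last n) i

/-- the evidence pointer `E_{p,a}[j]` -/
def ptrv (x : Idx n r → Bool) (p a j : V n) : V n := fun b => x (.ptr p a j b)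

/-- the local checks of a cell -/
inductive Chk (n r : ℕ) : Type where
  | mask (l : Fin (r + 1)) (i : V n)
  | bfly (l : Fin (r + 1)) (s : Fin n) (i : V n)
  | fin
  | flag (i : V n)
  | evid (j : V n)
deriving DecidableEq

noncomputable instance Chk.instFintype (n r : ℕ) : Fintype (Chk n r) :=
  Fintype.ofInjective
    (β := (Fin (r + 1) × V n) ⊕ (Fin (r + 1) × Fin n × V n) ⊕ Unit ⊕ V n ⊕ V n)
    (fun
      | .mask l i => Sum.inl (l, i)
      | .bfly l s i => Sum.inr (Sum.inl (l, s, i))
      | .fin => Sum.inr (Sum.inr (Sum.inl ()))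
      | .flag i => Sum.inr (Sum.inr (Sum.inr (Sum.inl i)))
      | .evid j => Sum.inr (Sum.inr (Sum.inr (Sum.inr j))))
    (by
      intro u v h
      cases u <;> cases v <;> simp_all)

/-- the local check `c` of the cell `(p,a)` is satisfied -/
def chkOK (δ : ℝ) (x : Idx n r → Bool) (p a : V n) : Chk n r → Prop
  | .mask l i => tw x p a l 0 i = sg (x (.data p l i)) * prevw x p a l i
  | .bfly l s i => tw x p a l s.succ i = tw x p a l s.castSucc (Function.update i s false) +
      (if i s then -1 else 1) * tw x p a l s.castSucc (Function.update i s true)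
  | .fin => δ * sN n ^ (r + 2) ≤ (tw x p a (Fin.last r) (Fin.last n) a : ℝ)
  | .flag i => x (.flag p i) = true
  | .evid j => j ≠ p → x (.flag j (ptrv x p a j)) = false

/-- the cell `(p,a)` is valid -/
def valid (δ : ℝ) (x : Idx n r → Bool) (p a : V n) : Prop := ∀ c, chkOK δ x p a c

open Classical in
/-- the total function: some cell is valid -/
noncomputable def fn (n r : ℕ) (δ : ℝ) (x : Idx n r → Bool) : Bool :=
  decide (∃ p a, valid δ x p a)

/-- the data part of block `p` -/
def blk (x : Idx n r → Bool) (p : V n) : Fin (r + 1) × V n → Bool := fun t => x (.data p t.1 t.2)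

end P362
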