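import Vale.Agent.P362.Mle

/-!
# P362: Gaussian links (definitions)
-/

namespace P362

open scoped BigOperators
open MeasureTheory ProbabilityTheory

/-- the normalised Hadamard matrix `H_{ij} = (-1)^{i·j}/√N` -/
noncomputable def Hd {n : ℕ} (i j : V n) : ℝ := (chi i j : ℝ) / sN n

/-- sample space of one link: `(U, ξ)` -/
abbrev Lk (n : ℕ) : Type := (V n → ℝ) × (V n → ℝ)

/-- standard Gaussian measure of one link -/
noncomputable def gam (n : ℕ) : Measure (Lk n) :=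
  (Measure.pi fun _ : V n => gaussianReal 0 1).prod (Measure.pi fun _ : V n => gaussianReal 0 1)

/-- `v = τ H U + √(1-τ²) ξ` -/
noncomputable def vv {n : ℕ} (τ : ℝ) (ω : Lk n) (j : V n) : ℝ :=
  τ * ∑ i, Hd j i * ω.1 i + Real.sqrt (1 - τ ^ 2) * ω.2 j

/-- link moments at `τ = 1` -/
noncomputable def w1 {n : ℕ} (η : ℝ) (T T' : Finset (V n)) : ℝ :=
  ∫ ω : Lk n, (∏ i ∈ T, η * ω.1 i) * ∏ j ∈ T', η * vv 1 ω j ∂(gam n)

/-- law of all links -/
noncomputable def Gam (n r : ℕ) : Measure (Fin r → Lk n) := Measure.pi fun _ => gam n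

/-- parameter of link `l`: link `0` has parameter `τ`, all others have parameter `1` -/
def par {r : ℕ} (τ : ℝ) (l : Fin r) : ℝ := if (l : ℕ) = 0 then τ else 1

/-- factor from the `u`-side: `η u_l(i)` for `l < r`, `1` for `l = r` -/
noncomputable def zA {n r : ℕ} (η : ℝ) (ω : Fin r → Lk n) (t : Fin (r + 1) × V n) : ℝ :=
  if h : (t.1 : ℕ) < r then η * (ω ⟨t.1, h⟩).1 t.2 else 1

/-- factor from the `v`-side: `η v_{l-1}(i)` for `l ≥ 1`, `1` for `l = 0` -/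
noncomputable def zB {n r : ℕ} (η τ : ℝ) (ω : Fin r → Lk n) (t : Fin (r + 1) × V n) : ℝ :=
  if h : t.1 = 0 then 1 else η * vv (par τ (t.1.pred h)) (ω (t.1.pred h)) t.2

/-- the means `z_{l,i}` -/
noncomputable def zz {n r : ℕ} (η τ : ℝ) (ω : Fin r → Lk n) (t : Fin (r + 1) × V n) : ℝ :=
  zA η ω t * zB η τ ω t

/-- level-`l` part of a set `S` -/
def lev {n r : ℕ} (S : Finset (Fin (r + 1) × V n)) (l : Fin (r + 1)) : Finset (V n) :=
  Finset.univ.filter fun i => (l, i) ∈ S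

/-- the moment `m_τ(S) = τ^{|S_0|} ∏_l w1(S_l, S_{l+1})` (polynomial in `τ`) -/
noncomputable def mm {n r : ℕ} (η τ : ℝ) (S : Finset (Fin (r + 1) × V n)) : ℝ :=
  τ ^ (lev S 0).card * ∏ l : Fin r, w1 η (lev S l.castSucc) (lev S l.succ)

/-- graph of `i : levels → V` -/
def gr {n r : ℕ} (i : Fin (r + 1) → V n) : Finset (Fin (r + 1) × V n) :=
  Finset.univ.filter fun t => i t.1 = t.2

/-- Fourier coefficient -/
noncomputable def fc {I : Type} [Fintype I] [DecidableEq I] (g : (I → Bool) → ℝ)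
    (T : Finset I) : ℝ :=
  (1 / 2) ^ Fintype.card I * ∑ y : I → Bool, g y * ∏ i ∈ T, sR (y i)

/-- the functional `F_τ(g,S)` (polynomial in `τ`): `∑_{T ∩ S = ∅} ĝ(T ∪ S) m_τ(T)` -/
noncomputable def FF {n r : ℕ} (η τ : ℝ) (g : (Fin (r + 1) × V n → Bool) → ℝ)
    (S : Finset (Fin (r + 1) × V n)) : ℝ :=
  ∑ T ∈ (Finset.univ \ S).powerset, fc g (T ∪ S) * mm η τ T

/-- the bad event: some `|η u|` or `|η v|` exceeds `1/2` -/
def bad {n r : ℕ} (η τ : ℝ) : Set (Fin r → Lk n) :=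
  {ω | ∃ l : Fin r, ∃ i : V n, 1 / 2 < |η * (ω l).1 i| ∨ 1 / 2 < |η * vv (par τ l) (ω l) i|}

/-- the dominating function `∏ max(1,|ηu|) max(1,|ηv|)` -/
noncomputable def dom {n r : ℕ} (η τ : ℝ) (ω : Fin r → Lk n) : ℝ :=
  ∏ l : Fin r, ∏ i : V n, max 1 |η * (ω l).1 i| * max 1 |η * vv (par τ l) (ω l) i|

/-- one-dimensional tail quantity -/
noncomputable def rho (η : ℝ) : ℝ :=
  ∫ g : ℝ, (if 1 / 2 < |η * g| then max 1 ((η * g) ^ 2) else 0) ∂(gaussianReal 0 1)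

/-- the tail error `ε₁` -/
noncomputable def eps1 (n r : ℕ) (η : ℝ) : ℝ :=
  2 * r * Real.sqrt (2 ^ n * rho η) * (1 + rho η) ^ (2 ^ n * r)

end P362
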