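import Vale.Agent.P362.Func

/-!
# P362, module HIT (section 6, deterministic part)
-/

namespace P362

open scoped BigOperators

/-- the list of queried indices -/
def DTree.path {ι α : Type} : DTree ι α → (ι → Bool) → List ι
  | .leaf _, _ => []
  | .node i t0 t1, x => i :: (if x i then t1.path x else t0.path x)

theorem DTree.path_length {ι α : Type} (T : DTree ι α) (x : ι → Bool) :
    (T.path x).length ≤ T.depth := by
  induction T with
  | leaf a => simp [DTree.path, DTree.depth]
  | node i t0 t1 h0 h1 =>
    simp only [DTree.path, DTree.depth, List.length_cons]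
    split
    · exact Nat.succ_le_succ (h1.trans (le_max_right _ _))
    · exact Nat.succ_le_succ (h0.trans (le_max_left _ _))

theorem DTree.eval_congr {ι α : Type} (T : DTree ι α) (x x' : ι → Bool)
    (h : ∀ i ∈ T.path x, x i = x' i) : T.eval x' = T.eval x := by
  induction T with
  | leaf a => rfl
  | node i t0 t1 h0 h1 =>
    have hi : x i = x' i := h i (by simp [DTree.path])
    simp only [DTree.eval, ← hi]
    by_cases hx : x i = true
    · simp only [hx, if_true]
      apply h1
      intro j hj
      apply h
      simp [DTree.path, hx, hj]
    · simp only [hx]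
      apply h0
      intro j hj
      apply h
      simp [DTree.path, hx, hj]

variable {n r : ℕ}

/-- data index of block `p` -/
def isData (p : V n) : Idx n r → Bool
  | .data q _ _ => decide (q = p)
  | _ => false

/-- flag index of block `p` -/
def isFlag (p : V n) : Idx n r → Bool
  | .flag q _ => decide (q = p)
  | _ => false

/-- bit of some cell of block `p` -/
def isCell (p : V n) : Idx n r → Bool
  | .ptr q _ _ _ => decide (q = p)
  | .word q _ _ _ _ _ => decide (q = p)
  | _ => false

/-- bit of the cell `(p,a)` -/
def isCellA (p a : V n) : Idx n r → Bool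
  | .ptr q b _ _ => decide (q = p ∧ b = a)
  | .word q b _ _ _ _ => decide (q = p ∧ b = a)
  | _ => false

/-- the path touches the flag `(p,i0)` or the cell `(p,a)` -/
def hits (p a i0 : V n) (L : List (Idx n r)) : Prop :=
  ∃ t ∈ L, t = .flag p i0 ∨ isCellA p a t = true

/-- input with block `p` replaced: data `y`, all flags one except `i0`, blank cells -/
def mix (x : Idx n r → Bool) (p : V n) (y : Fin (r + 1) × V n → Bool) (i0 : V n) :
    Idx n r → Bool
  | .data q l i => if q = p then y (l, i) else x (.data q l i)
  | .flag q i => if q = p then decide (i ≠ i0) else x (.flag q i)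
  | .ptr q a j b => if q = p then false else x (.ptr q a j b)
  | .word q a l s i b => if q = p then false else x (.word q a l s i b)

/-- postcomposition of the output of a tree -/
theorem DTree.exists_map {ι α β : Type} (S : DTree ι α) (g : α → β) :
    ∃ S' : DTree ι β, S'.depth = S.depth ∧ ∀ y, S'.eval y = g (S.eval y) := by
  induction S with
  | leaf a => exact ⟨.leaf (g a), rfl, fun y => rfl⟩
  | node i t0 t1 h0 h1 =>
    obtain ⟨s0, d0, e0⟩ := h0
    obtain ⟨s1, d1, e1⟩ := h1
    refine ⟨.node i s0 s1, by simp [DTree.depth, d0, d1], fun y => ?_⟩
    simp only [DTree.eval]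
    split
    · exact e1 y
    · exact e0 y

theorem hits_cons (p a i0 : V n) (t : Idx n r) (L : List (Idx n r)) :
    hits p a i0 (t :: L) ↔ (t = .flag p i0 ∨ isCellA p a t = true) ∨ hits p a i0 L := by
  unfold hits
  constructor
  · rintro ⟨u, hu, h⟩
    rcases List.mem_cons.1 hu with rfl | hu
    · exact Or.inl h
    · exact Or.inr ⟨u, hu, h⟩
  · rintro (h | ⟨u, hu, h⟩)
    · exact ⟨t, List.mem_cons_self, h⟩
    · exact ⟨u, List.mem_cons_of_mem _ hu, h⟩

/-- the simulation statement -/
def SimOK (T : DTree (Idx n r) Bool) (p : V n) (x : Idx n r → Bool) (bD bC bF : ℕ) : Prop :=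
    ∃ S : DTree (Fin (r + 1) × V n) (Finset (V n) × Finset (V n)), S.depth ≤ bD ∧
      (∀ y, (S.eval y).1.card ≤ bC ∧ (S.eval y).2.card ≤ bF) ∧
      ∀ y i0 a, ((T.path (mix x p y i0)).countP (isData p) ≤ bD) →
        ((T.path (mix x p y i0)).countP (isCell p) ≤ bC) →
        ((T.path (mix x p y i0)).countP (isFlag p) ≤ bF) →
        hits p a i0 (T.path (mix x p y i0)) → a ∈ (S.eval y).1 ∨ i0 ∈ (S.eval y).2

/-- a query outside block `p` is answered by `x` -/
theorem SimOK.other {t : Idx n r} {T0 T1 : DTree (Idx n r) Bool} {p : V n}
    {x : Idx n r → Bool} {bD bC bF : ℕ} (hm : ∀ y i0, mix x p y i0 t = x t)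
    (h1 : isData p t = false) (h2 : isCell p t = false) (h3 : isFlag p t = false)
    (h4 : ∀ i0, t ≠ .flag p i0) (h5 : ∀ a, isCellA p a t = false)
    (h : SimOK (if x t then T1 else T0) p x bD bC bF) : SimOK (.node t T0 T1) p x bD bC bF := by
  obtain ⟨S, hd, hc, hS⟩ := h
  refine ⟨S, hd, hc, fun y i0 a => ?_⟩
  have hp : (DTree.node t T0 T1).path (mix x p y i0) =
      t :: (if x t then T1 else T0).path (mix x p y i0) := by
    simp only [DTree.path, hm]
    split <;> rfl
  rw [hp, hits_cons]
  simp only [List.countP_cons, h1, h2, h3, Bool.false_eq_true, if_false, add_zero]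
  intro k1 k2 k3 k4
  refine hS y i0 a k1 k2 k3 ?_
  rcases k4 with (k4 | k4) | k4
  · exact absurd k4 (h4 i0)
  · rw [h5] at k4; exact absurd k4 (by simp)
  · exact k4

/-- a query to a cell of block `p` -/
theorem SimOK.cell {t : Idx n r} {T0 T1 : DTree (Idx n r) Bool} {p a' : V n}
    {x : Idx n r → Bool} {bD bC bF : ℕ} (hm : ∀ y i0, mix x p y i0 t = false)
    (h1 : isData p t = false) (h2 : isCell p t = true) (h3 : isFlag p t = false)
    (h4 : ∀ i0, t ≠ .flag p i0) (h5 : ∀ a, isCellA p a t = true → a = a')
    (h : SimOK T0 p x bD bC bF) : SimOK (.node t T0 T1) p x bD (bC + 1) bF := by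
  obtain ⟨S, hd, hc, hS⟩ := h
  obtain ⟨S', hd', he⟩ := S.exists_map (fun z => (insert a' z.1, z.2))
  refine ⟨S', hd'.le.trans hd, fun y => ?_, fun y i0 a => ?_⟩
  · rw [he]
    exact ⟨(Finset.card_insert_le _ _).trans (Nat.succ_le_succ (hc y).1), (hc y).2⟩
  have hp : (DTree.node t T0 T1).path (mix x p y i0) = t :: T0.path (mix x p y i0) := by
    simp only [DTree.path, hm, Bool.false_eq_true, if_false]
  rw [hp, hits_cons, he]
  simp only [List.countP_cons, h1, h2, h3, Bool.false_eq_true, if_false, if_true, add_zero]
  intro k1 k2 k3 k4
  rcases k4 with (k4 | k4) | k4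
  · exact absurd k4 (h4 i0)
  · left
    rw [h5 a k4]
    exact Finset.mem_insert_self _ _
  · rcases hS y i0 a k1 (by omega) k3 k4 with h | h
    · exact Or.inl (Finset.mem_insert_of_mem h)
    · exact Or.inr h

/-- no budget left: the statement is empty -/
theorem SimOK.zero {t : Idx n r} {T0 T1 : DTree (Idx n r) Bool} {p : V n}
    {x : Idx n r → Bool} {bD bC bF : ℕ}
    (h : (isData p t = true ∧ bD = 0) ∨ (isCell p t = true ∧ bC = 0) ∨
      (isFlag p t = true ∧ bF = 0)) : SimOK (.node t T0 T1) p x bD bC bF := by
  refine ⟨.leaf (∅, ∅), Nat.zero_le _, fun y => ⟨Nat.zero_le _, Nat.zero_le _⟩, fun y i0 a => ?_⟩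
  simp only [DTree.path, List.countP_cons]
  intro k1 k2 k3 _
  exfalso
  rcases h with ⟨h, h0⟩ | ⟨h, h0⟩ | ⟨h, h0⟩
  · rw [h, if_pos rfl] at k1; omega
  · rw [h, if_pos rfl] at k2; omega
  · rw [h, if_pos rfl] at k3; omega

theorem exists_sim_aux (T : DTree (Idx n r) Bool) (p : V n) (x : Idx n r → Bool) :
    ∀ bD bC bF : ℕ, SimOK T p x bD bC bF := by
  induction T with
  | leaf b =>
    intro bD bC bF
    refine ⟨.leaf (∅, ∅), Nat.zero_le _, fun y => ⟨Nat.zero_le _, Nat.zero_le _⟩,
      fun y i0 a _ _ _ h => ?_⟩
    obtain ⟨u, hu, _⟩ := h
    simp [DTree.path] at hu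
  | node t T0 T1 ih0 ih1 =>
    intro bD bC bF
    have hsel : SimOK (if x t then T1 else T0) p x bD bC bF := by
      split
      · exact ih1 bD bC bF
      · exact ih0 bD bC bF
    cases t with
    | data q l i =>
      by_cases hq : q = p
      · subst hq
        cases bD with
        | zero => exact SimOK.zero (Or.inl ⟨by simp [isData], rfl⟩)
        | succ b =>
          obtain ⟨S0, hd0, hc0, hS0⟩ := ih0 b bC bF
          obtain ⟨S1, hd1, hc1, hS1⟩ := ih1 b bC bF
          refine ⟨.node (l, i) S0 S1, ?_, fun y => ?_, fun y i0 a => ?_⟩
          · simp only [DTree.depth]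
            exact Nat.succ_le_succ (max_le hd0 hd1)
          · simp only [DTree.eval]
            split
            · exact hc1 y
            · exact hc0 y
          · have hm : mix x q y i0 (.data q l i) = y (l, i) := by simp [mix]
            have hh : ∀ L : List (Idx n r), hits q a i0 (.data q l i :: L) → hits q a i0 L := by
              intro L h
              rw [hits_cons] at h
              rcases h with (h | h) | h
              · exact absurd h (by simp)
              · exact absurd h (by simp [isCellA])
              · exact h
            simp only [DTree.path, DTree.eval, hm]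
            by_cases hy : y (l, i) = true
            · simp only [hy, if_true, List.countP_cons, isData, isCell, isFlag, decide_true,
                Bool.false_eq_true, if_false, add_zero]
              intro k1 k2 k3 k4
              exact hS1 y i0 a (by simpa [isData] using k1) (by simpa [isCell] using k2)
                (by simpa [isFlag] using k3) (hh _ k4)
            · simp only [hy, if_false, List.countP_cons, isData, isCell, isFlag, decide_true,
                Bool.false_eq_true, if_true, add_zero]
              intro k1 k2 k3 k4
              exact hS0 y i0 a (by simpa [isData] using k1) (by simpa [isCell] using k2)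
                (by simpa [isFlag] using k3) (hh _ k4)
      · exact SimOK.other (fun y i0 => by simp [mix, hq]) (by simp [isData, hq])
          (by simp [isCell]) (by simp [isFlag]) (fun i0 => by simp) (fun a => by simp [isCellA])
          hsel
    | flag q i =>
      by_cases hq : q = p
      · subst hq
        cases bF with
        | zero => exact SimOK.zero (Or.inr (Or.inr ⟨by simp [isFlag], rfl⟩))
        | succ b =>
          obtain ⟨S, hd, hc, hS⟩ := ih1 bD bC b
          obtain ⟨S', hd', he⟩ := S.exists_map (fun z => (z.1, insert i z.2))
          refine ⟨S', hd'.le.trans hd, fun y => ?_, fun y i0 a => ?_⟩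
          · rw [he]
            exact ⟨(hc y).1, (Finset.card_insert_le _ _).trans (Nat.succ_le_succ (hc y).2)⟩
          rw [he]
          by_cases hi : i = i0
          · intro _ _ _ _
            right
            rw [hi]
            exact Finset.mem_insert_self _ _
          · have hm : mix x q y i0 (.flag q i) = true := by simp [mix, hi]
            have hp : (DTree.node (.flag q i) T0 T1).path (mix x q y i0) =
                .flag q i :: T1.path (mix x q y i0) := by
              simp only [DTree.path, hm, if_true]
            rw [hp, hits_cons]
            simp only [List.countP_cons]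
            intro k1 k2 k3 k4
            have k4' : hits q a i0 (T1.path (mix x q y i0)) := by
              rcases k4 with (k4 | k4) | k4
              · exact absurd k4 (by simp [hi])
              · exact absurd k4 (by simp [isCellA])
              · exact k4
            have e1 : isData q (Idx.flag q i : Idx n r) = false := rfl
            have e2 : isCell q (Idx.flag q i : Idx n r) = false := rfl
            have e3 : isFlag q (Idx.flag q i : Idx n r) = true := by simp [isFlag]
            rw [e1] at k1
            rw [e2] at k2
            rw [e3] at k3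
            simp only [Bool.false_eq_true, if_false, add_zero, if_true] at k1 k2 k3
            rcases hS y i0 a k1 k2 (by omega) k4' with h | h
            · exact Or.inl h
            · exact Or.inr (Finset.mem_insert_of_mem h)
      · exact SimOK.other (fun y i0 => by simp [mix, hq]) (by simp [isData])
          (by simp [isCell]) (by simp [isFlag, hq]) (fun i0 => by simp [hq])
          (fun a => by simp [isCellA]) hsel
    | ptr q a' j b =>
      by_cases hq : q = p
      · subst hq
        cases bC with
        | zero => exact SimOK.zero (Or.inr (Or.inl ⟨by simp [isCell], rfl⟩))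
        | succ c =>
          exact SimOK.cell (a' := a') (fun y i0 => by simp [mix]) (by simp [isData])
            (by simp [isCell]) (by simp [isFlag]) (fun i0 => by simp)
            (fun a h => by simp [isCellA] at h; exact h.symm) (ih0 bD c bF)
      · exact SimOK.other (fun y i0 => by simp [mix, hq]) (by simp [isData])
          (by simp [isCell, hq]) (by simp [isFlag]) (fun i0 => by simp)
          (fun a => by simp [isCellA, hq]) hsel
    | word q a' l s i b =>
      by_cases hq : q = p
      · subst hq
        cases bC with
        | zero => exact SimOK.zero (Or.inr (Or.inl ⟨by simp [isCell], rfl⟩))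
        | succ c =>
          exact SimOK.cell (a' := a') (fun y i0 => by simp [mix]) (by simp [isData])
            (by simp [isCell]) (by simp [isFlag]) (fun i0 => by simp)
            (fun a h => by simp [isCellA] at h; exact h.symm) (ih0 bD c bF)
      · exact SimOK.other (fun y i0 => by simp [mix, hq]) (by simp [isData])
          (by simp [isCell, hq]) (by simp [isFlag]) (fun i0 => by simp)
          (fun a => by simp [isCellA, hq]) hsel

theorem exists_sim (T : DTree (Idx n r) Bool) (p : V n) (x : Idx n r → Bool) (bD bC bF : ℕ) :
    ∃ S : DTree (Fin (r + 1) × V n) (Finset (V n) × Finset (V n)), S.depth ≤ bD ∧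
      (∀ y, (S.eval y).1.card ≤ bC ∧ (S.eval y).2.card ≤ bF) ∧
      ∀ y i0 a, ((T.path (mix x p y i0)).countP (isData p) ≤ bD) →
        ((T.path (mix x p y i0)).countP (isCell p) ≤ bC) →
        ((T.path (mix x p y i0)).countP (isFlag p) ≤ bF) →
        hits p a i0 (T.path (mix x p y i0)) → a ∈ (S.eval y).1 ∨ i0 ∈ (S.eval y).2 :=
  exists_sim_aux T p x bD bC bF

/-- the block of an index -/
def Idx.block : Idx n r → V n
  | .data q _ _ => q
  | .flag q _ => q
  | .ptr q _ _ _ => q
  | .word q _ _ _ _ _ => q

/-- the queried indices of the `2^n` blocks: each index belongs to at most one block -/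
theorem sum_counts (L : List (Idx n r)) :
    ∑ p : V n, (L.countP (isData p) + L.countP (isCell p) + L.countP (isFlag p)) ≤ L.length := by
  induction L with
  | nil => simp
  | cons t L ih =>
    have h1 : ∀ p : V n, (t :: L).countP (isData p) + (t :: L).countP (isCell p) +
        (t :: L).countP (isFlag p) = (L.countP (isData p) + L.countP (isCell p) +
          L.countP (isFlag p)) + (if t.block = p then 1 else 0) := by
      intro p
      simp only [List.countP_cons]
      have key : (if isData p t = true then 1 else 0) + (if isCell p t = true then 1 else 0) +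
          (if isFlag p t = true then 1 else 0) = (if t.block = p then 1 else 0) := by
        by_cases h : t.block = p
        · rw [if_pos h]
          cases t <;> simp only [Idx.block] at h <;> subst h <;> simp [isData, isCell, isFlag]
        · rw [if_neg h]
          cases t <;> simp only [Idx.block] at h <;> simp [isData, isCell, isFlag, h]
      omega
    simp_rw [h1]
    rw [Finset.sum_add_distrib, List.length_cons]
    have h2 : ∑ p : V n, (if t.block = p then 1 else 0) = 1 := by simp
    rw [h2]
    omega

end P362
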