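import Vale.Agent.P150.GaussCalc

/-!
# P362, module LINK (section 3.1 of the note): Gaussian links and their moments
-/

namespace P362

open MeasureTheory ProbabilityTheory
open Vale.Agent.P150
open scoped BigOperators

namespace Link

set_option linter.unusedSectionVars false

variable {V : Type} [Fintype V] [DecidableEq V]

/-- The first vector of a link. -/
def u (ω : V × Bool → ℝ) (i : V) : ℝ := ω (i, false)

/-- The second vector of a link: `v = τ H u + √(1-τ²) ξ`. -/
noncomputable def v (H : V → V → ℝ) (τ : ℝ) (ω : V × Bool → ℝ) (j : V) : ℝ :=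
  τ * ∑ k, H j k * ω (k, false) + Real.sqrt (1 - τ ^ 2) * ω (j, true)

/-- The monomial. -/
noncomputable def mon (H : V → V → ℝ) (η τ : ℝ) (T T' : Finset V) (ω : V × Bool → ℝ) : ℝ :=
  (∏ i ∈ T, η * u ω i) * ∏ j ∈ T', η * v H τ ω j

/-- The moment. -/
noncomputable def w (H : V → V → ℝ) (η τ : ℝ) (T T' : Finset V) : ℝ :=
  ∫ ω, mon H η τ T T' ω ∂(stdG (V × Bool))

variable {H : V → V → ℝ} {η τ : ℝ}

theorem continuous_u (i : V) : Continuous (fun ω : V × Bool → ℝ => u ω i) := by
  unfold u; fun_prop

theorem continuous_v (j : V) : Continuous (fun ω : V × Bool → ℝ => v H τ ω j) := by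
  unfold v; fun_prop

theorem continuous_mon (T T' : Finset V) : Continuous (mon H η τ T T') := by
  unfold mon
  refine Continuous.mul ?_ ?_
  · exact continuous_finsetProd _ fun i _ => continuous_const.mul (continuous_u i)
  · exact continuous_finsetProd _ fun i _ => continuous_const.mul (continuous_v i)

theorem EG.prod {ι κ : Type*} [Fintype ι] (s : Finset κ) {F : κ → (ι → ℝ) → ℝ}
    (h : ∀ k ∈ s, EG (F k)) : EG (fun z => ∏ k ∈ s, F k z) := by
  classical
  induction s using Finset.induction_on with
  | empty => simpa using EG.const (ι := ι) 1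
  | insert a s ha ih =>
      have h3 := (h a (Finset.mem_insert_self _ _)).mul
        (ih fun k hk => h k (Finset.mem_insert_of_mem hk))
      have e : (fun z => ∏ k ∈ insert a s, F k z) = fun z => F a z * ∏ k ∈ s, F k z := by
        funext z
        rw [Finset.prod_insert ha]
      rw [e]; exact h3

theorem eg_u (i : V) : EG (fun ω : V × Bool → ℝ => u ω i) := EG.coord _

theorem eg_v (j : V) : EG (fun ω : V × Bool → ℝ => v H τ ω j) := by
  unfold v
  exact ((EG.const τ).mul (EG.sum _ fun k _ => (EG.const (H j k)).mul (EG.coord _))).add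
    ((EG.const _).mul (EG.coord _))

theorem eg_mon (T T' : Finset V) : EG (mon H η τ T T') := by
  unfold mon
  exact (EG.prod _ fun i _ => (EG.const η).mul (eg_u i)).mul
    (EG.prod _ fun i _ => (EG.const η).mul (eg_v i))

theorem integrable_mon (T T' : Finset V) : Integrable (mon H η τ T T') (stdG (V × Bool)) :=
  (eg_mon T T').integrable (continuous_mon T T')

theorem integrable_coord_mon (c : V × Bool) (T T' : Finset V) :
    Integrable (fun ω => ω c * mon H η τ T T' ω) (stdG (V × Bool)) :=
  ((EG.coord c).mul (eg_mon T T')).integrable ((continuous_apply c).mul (continuous_mon T T'))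

theorem v_update_false (ω : V × Bool → ℝ) (i j : V) (s : ℝ) :
    v H τ (Function.update ω (i, false) s) j = v H τ ω j + τ * H j i * (s - ω (i, false)) := by
  unfold v
  have h1 : ∑ k, H j k * Function.update ω (i, false) s (k, false) =
      ∑ k, H j k * ω (k, false) + H j i * (s - ω (i, false)) := by
    have : ∀ k, H j k * Function.update ω (i, false) s (k, false) =
        H j k * ω (k, false) + if k = i then H j i * (s - ω (i, false)) else 0 := by
      intro k
      by_cases hk : k = i
      · subst hk; simp; ring
      · rw [Function.update_of_ne (by simp [hk])]; simp [hk]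
    rw [Finset.sum_congr rfl fun k _ => this k, Finset.sum_add_distrib]
    simp
  rw [h1, Function.update_of_ne (by simp)]
  ring

theorem v_update_true (ω : V × Bool → ℝ) {i j : V} (hij : j ≠ i) (s : ℝ) :
    v H τ (Function.update ω (i, true) s) j = v H τ ω j := by
  unfold v
  have h1 : ∀ k, Function.update ω (i, true) s (k, false) = ω (k, false) := fun k =>
    Function.update_of_ne (by simp) _ _
  rw [Function.update_of_ne (by simp [hij])]
  simp only [h1]

theorem u_update_false (ω : V × Bool → ℝ) {i j : V} (hij : j ≠ i) (s : ℝ) :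
    u (Function.update ω (i, false) s) j = u ω j := by
  unfold u
  rw [Function.update_of_ne (by simp [hij])]

theorem u_update_true (ω : V × Bool → ℝ) (i j : V) (s : ℝ) :
    u (Function.update ω (i, true) s) j = u ω j := by
  unfold u
  rw [Function.update_of_ne (by simp)]

/-- Integration by parts in a coordinate of `u`. -/
theorem ibp_false {T : Finset V} {i : V} (hi : i ∉ T) (T' : Finset V) :
    ∫ ω, ω (i, false) * mon H η τ T T' ω ∂(stdG (V × Bool)) =
      ∑ j ∈ T', η * τ * H j i * w H η τ T (T'.erase j) := by
  have h1 := gauss_ibp (ι := V × Bool) (i, false) (mon H η τ T T')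
    (fun ω => ∑ j ∈ T', η * τ * H j i * mon H η τ T (T'.erase j) ω)
    (continuous_mon T T')
    (continuous_finsetSum _ fun j _ => continuous_const.mul (continuous_mon T (T'.erase j)))
    (by
      intro z
      have hp : HasDerivAt (fun s : ℝ => ∏ j ∈ T', η * v H τ (Function.update z (i, false) s) j)
          (∑ j ∈ T', (∏ k ∈ T'.erase j, η * v H τ (Function.update z (i, false)
            (z (i, false))) k) • (η * τ * H j i)) (z (i, false)) := by
        refine HasDerivAt.fun_finsetProd fun j _ => ?_
        have e : (fun s : ℝ => η * v H τ (Function.update z (i, false) s) j) =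
            fun s => η * (v H τ z j + τ * H j i * (s - z (i, false))) := by
          funext s; rw [v_update_false]
        rw [e]
        have := (((hasDerivAt_id (z (i, false))).sub_const (z (i, false))).const_mul
          (τ * H j i)).const_add (v H τ z j) |>.const_mul η
        refine this.congr_deriv ?_
        ring
      have hq : ∀ s : ℝ, mon H η τ T T' (Function.update z (i, false) s) =
          (∏ k ∈ T, η * u z k) * ∏ j ∈ T', η * v H τ (Function.update z (i, false) s) j := by
        intro s
        unfold mon
        congr 1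
        refine Finset.prod_congr rfl fun k hk => ?_
        rw [u_update_false _ (fun h => hi (by rw [← h]; exact hk))]
      simp only [hq]
      refine (hp.const_mul (∏ k ∈ T, η * u z k)).congr_deriv ?_
      rw [Finset.mul_sum]
      refine Finset.sum_congr rfl fun j _ => ?_
      rw [Function.update_eq_self]
      unfold mon
      rw [smul_eq_mul]
      ring)
    (eg_mon T T')
    (EG.sum _ fun j _ => (EG.const _).mul (eg_mon T (T'.erase j)))
  rw [h1, integral_finsetSum _ fun j _ => (integrable_mon T (T'.erase j)).const_mul _]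
  refine Finset.sum_congr rfl fun j _ => ?_
  rw [integral_const_mul]
  rfl

/-- Integration by parts in a coordinate of `ξ` which does not occur. -/
theorem ibp_true (T : Finset V) {T' : Finset V} {i : V} (hi : i ∉ T') :
    ∫ ω, ω (i, true) * mon H η τ T T' ω ∂(stdG (V × Bool)) = 0 := by
  have h1 := gauss_ibp (ι := V × Bool) (i, true) (mon H η τ T T')
    (fun _ => 0) (continuous_mon T T') continuous_const
    (by
      intro z
      have hq : ∀ s : ℝ, mon H η τ T T' (Function.update z (i, true) s) = mon H η τ T T' z := by
        intro s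
        unfold mon
        congr 1
        · exact Finset.prod_congr rfl fun k hk => by rw [u_update_true]
        · refine Finset.prod_congr rfl fun k hk => ?_
          rw [v_update_true _ (fun h => hi (by rw [← h]; exact hk))]
      simp only [hq]
      exact hasDerivAt_const _ _)
    (eg_mon T T') (EG.const 0)
  rw [h1]; simp

theorem mon_insert_left {T : Finset V} {i : V} (hi : i ∉ T) (T' : Finset V)
    (ω : V × Bool → ℝ) :
    mon H η τ (insert i T) T' ω = η * (ω (i, false) * mon H η τ T T' ω) := by
  unfold mon
  rw [Finset.prod_insert hi]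
  unfold u
  ring

theorem w_insert {T : Finset V} {i : V} (hi : i ∉ T) (T' : Finset V) :
    w H η τ (insert i T) T' = τ * (η ^ 2 * ∑ j ∈ T', H j i * w H η τ T (T'.erase j)) := by
  have h : w H η τ (insert i T) T' =
      η * ∫ ω, ω (i, false) * mon H η τ T T' ω ∂(stdG (V × Bool)) := by
    rw [← integral_const_mul]
    unfold w
    exact integral_congr_ae (Filter.Eventually.of_forall fun ω => mon_insert_left hi T' ω)
  rw [h, ibp_false hi, Finset.mul_sum, Finset.mul_sum, Finset.mul_sum]
  refine Finset.sum_congr rfl fun j _ => ?_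
  ring

/-- Stein identity for the moments. -/
theorem w_stein {T : Finset V} {i : V} (hi : i ∈ T) (T' : Finset V) :
    w H η τ T T' = τ * (η ^ 2 * ∑ j ∈ T', H j i * w H η τ (T.erase i) (T'.erase j)) := by
  conv_lhs => rw [← Finset.insert_erase hi]
  exact w_insert (Finset.notMem_erase i T) T'

theorem w_empty : w H η τ ∅ ∅ = 1 := by
  unfold w mon
  simp

theorem w_null (horth : ∀ i j, ∑ k, H i k * H j k = if i = j then 1 else 0)
    {T' : Finset V} (hT : T'.Nonempty) : w H η τ ∅ T' = 0 := by
  obtain ⟨j, hj⟩ := hT
  have h : w H η τ ∅ T' = ∫ ω, (∑ k, η * τ * H j k * (ω (k, false) *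
      mon H η τ ∅ (T'.erase j) ω)) + η * Real.sqrt (1 - τ ^ 2) * (ω (j, true) *
      mon H η τ ∅ (T'.erase j) ω) ∂(stdG (V × Bool)) := by
    unfold w
    refine integral_congr_ae (Filter.Eventually.of_forall fun ω => ?_)
    have e1 : mon H η τ ∅ T' ω = η * v H τ ω j * mon H η τ ∅ (T'.erase j) ω := by
      unfold mon
      rw [← Finset.mul_prod_erase T' _ hj]
      ring
    have e2 : v H τ ω j = τ * ∑ k, H j k * ω (k, false) + Real.sqrt (1 - τ ^ 2) * ω (j, true) :=
      rfl
    have e3 : (∑ k, η * τ * H j k * (ω (k, false) * mon H η τ ∅ (T'.erase j) ω)) =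
        (η * τ) * (∑ k, H j k * ω (k, false)) * mon H η τ ∅ (T'.erase j) ω := by
      rw [Finset.mul_sum, Finset.sum_mul]
      exact Finset.sum_congr rfl fun k _ => by ring
    show mon H η τ ∅ T' ω = (∑ k, η * τ * H j k * (ω (k, false) *
      mon H η τ ∅ (T'.erase j) ω)) + η * Real.sqrt (1 - τ ^ 2) * (ω (j, true) *
      mon H η τ ∅ (T'.erase j) ω)
    rw [e1, e2, e3]
    ring
  rw [h, integral_add, integral_finsetSum, integral_const_mul, ibp_true _ (Finset.notMem_erase _ _),
    mul_zero, add_zero]
  · simp only [integral_const_mul]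
    simp only [ibp_false (Finset.notMem_empty _)]
    simp only [Finset.mul_sum]
    rw [Finset.sum_comm]
    refine Finset.sum_eq_zero fun j' hj' => ?_
    have hne : j ≠ j' := fun h => (Finset.notMem_erase j T') (h ▸ hj')
    have := horth j j'
    rw [if_neg hne] at this
    have e : ∀ k, η * τ * H j k * (η * τ * H j' k * w H η τ ∅ ((T'.erase j).erase j')) =
        (H j k * H j' k) * (η * τ * (η * τ) * w H η τ ∅ ((T'.erase j).erase j')) := by
      intro k; ring
    simp only [e]
    rw [← Finset.sum_mul, this, zero_mul]
  · exact fun k _ => (integrable_coord_mon _ _ _).const_mul _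
  · exact integrable_finsetSum _ fun k _ => (integrable_coord_mon _ _ _).const_mul _
  · exact (integrable_coord_mon _ _ _).const_mul _

theorem w_card (horth : ∀ i j, ∑ k, H i k * H j k = if i = j then 1 else 0) (T : Finset V) :
    ∀ T' : Finset V, T.card ≠ T'.card → w H η τ T T' = 0 := by
  induction T using Finset.induction_on with
  | empty =>
      intro T' h
      refine w_null horth ?_
      rw [← Finset.card_pos]
      rw [Finset.card_empty] at h
      omega
  | insert a T ha ih =>
      intro T' h
      rw [w_insert ha]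
      rw [Finset.sum_eq_zero, mul_zero, mul_zero]
      intro j hj
      rw [ih, mul_zero]
      rw [Finset.card_erase_of_mem hj]
      rw [Finset.card_insert_of_notMem ha] at h
      have := Finset.card_pos.2 ⟨j, hj⟩
      omega

theorem w_scale (horth : ∀ i j, ∑ k, H i k * H j k = if i = j then 1 else 0) (T : Finset V) :
    ∀ T' : Finset V, w H η τ T T' = τ ^ T.card * w H η 1 T T' := by
  induction T using Finset.induction_on with
  | empty =>
      intro T'
      rcases T'.eq_empty_or_nonempty with rfl | h
      · rw [w_empty, w_empty]; simp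
      · rw [w_null horth h, w_null horth h]; simp
  | insert a T ha ih =>
      intro T'
      rw [w_insert ha, w_insert ha, Finset.card_insert_of_notMem ha, one_mul]
      have : ∀ j, H j a * w H η τ T (T'.erase j) =
          τ ^ T.card * (H j a * w H η 1 T (T'.erase j)) := by
        intro j; rw [ih]; ring
      simp only [this]
      rw [← Finset.mul_sum]
      ring

/-- The derivative of the link moment in `τ`. -/
theorem w_hasDerivAt (horth : ∀ i j, ∑ k, H i k * H j k = if i = j then 1 else 0)
    (T T' : Finset V) (τ : ℝ) :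
    HasDerivAt (fun t => w H η t T T')
      (η ^ 2 * ∑ i ∈ T, ∑ j ∈ T', H j i * w H η τ (T.erase i) (T'.erase j)) τ := by
  have e : (fun t => w H η t T T') = fun t => t ^ T.card * w H η 1 T T' := by
    funext t; exact w_scale horth T T'
  rw [e]
  refine ((hasDerivAt_pow T.card τ).mul_const _).congr_deriv ?_
  rw [Finset.mul_sum]
  have : ∀ i ∈ T, η ^ 2 * ∑ j ∈ T', H j i * w H η τ (T.erase i) (T'.erase j) =
      τ ^ (T.card - 1) * w H η 1 T T' := by
    intro i hi
    rw [w_stein hi T', one_mul]
    have : ∀ j, H j i * w H η τ (T.erase i) (T'.erase j) =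
        τ ^ (T.card - 1) * (H j i * w H η 1 (T.erase i) (T'.erase j)) := by
      intro j
      rw [w_scale horth, Finset.card_erase_of_mem hi]; ring
    simp only [this]
    rw [← Finset.mul_sum]
    ring
  rw [Finset.sum_congr rfl this, Finset.sum_const, nsmul_eq_mul]
  ring

theorem w_zero (horth : ∀ i j, ∑ k, H i k * H j k = if i = j then 1 else 0)
    {T T' : Finset V} (h : T.Nonempty ∨ T'.Nonempty) : w H η 0 T T' = 0 := by
  rcases T.eq_empty_or_nonempty with rfl | hT
  · rcases h with h | h
    · exact absurd h (by simp)
    · exact w_null horth h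
  · rw [w_scale horth, zero_pow (Finset.card_pos.2 hT).ne', zero_mul]

theorem w_one_one (i j : V) : w H η 1 {i} {j} = η ^ 2 * H j i := by
  rw [w_stein (Finset.mem_singleton_self i)]
  simp [w_empty]

theorem w_two_two {i j i' j' : V} (h : i ≠ j) (h' : i' ≠ j') :
    w H η 1 {i, j} {i', j'} = η ^ 4 * (H i' i * H j' j + H j' i * H i' j) := by
  have hi : i ∉ ({j} : Finset V) := by simpa using h
  have e1 : ({i', j'} : Finset V).erase i' = {j'} := by
    ext a; simp only [Finset.mem_erase, Finset.mem_insert, Finset.mem_singleton]
    constructor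
    · rintro ⟨h1, h2 | h2⟩
      · exact absurd h2 h1
      · exact h2
    · rintro rfl
      exact ⟨h'.symm, Or.inr rfl⟩
  have e2 : ({i', j'} : Finset V).erase j' = {i'} := by
    ext a; simp only [Finset.mem_erase, Finset.mem_insert, Finset.mem_singleton]
    constructor
    · rintro ⟨h1, h2 | h2⟩
      · exact h2
      · exact absurd h2 h1
    · rintro rfl
      exact ⟨h', Or.inl rfl⟩
  rw [w_insert hi, Finset.sum_pair h', e1, e2, w_one_one, w_one_one]
  ring

/-- Law of an orthonormal family of linear forms. -/
theorem map_orth {ι κ : Type} [Fintype ι] [Fintype κ] [DecidableEq κ] (A : κ → ι → ℝ)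
    (hA : ∀ i j, ∑ k, A i k * A j k = if i = j then 1 else 0) :
    (stdG ι).map (fun ω j => ∑ k, A j k * ω k) = stdG κ := by
  have hm : Measurable (fun (ω : ι → ℝ) (j : κ) => ∑ k, A j k * ω k) := by fun_prop
  have he : Measurable (WithLp.toLp 2 : (κ → ℝ) → EuclideanSpace ℝ κ) := by fun_prop
  have key : ((stdG ι).map (fun ω j => ∑ k, A j k * ω k)).map
      (WithLp.toLp 2 : (κ → ℝ) → EuclideanSpace ℝ κ) = (stdG κ).map (WithLp.toLp 2) := by
    have hR : (stdG κ).map (WithLp.toLp 2 : (κ → ℝ) → EuclideanSpace ℝ κ) =
        stdGaussian (EuclideanSpace ℝ κ) := map_pi_eq_stdGaussian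
    rw [hR]
    have : IsProbabilityMeasure ((stdG ι).map (fun (ω : ι → ℝ) (j : κ) => ∑ k, A j k * ω k)) :=
      Measure.isProbabilityMeasure_map hm.aemeasurable
    have : IsProbabilityMeasure (((stdG ι).map (fun (ω : ι → ℝ) (j : κ) =>
        ∑ k, A j k * ω k)).map (WithLp.toLp 2 : (κ → ℝ) → EuclideanSpace ℝ κ)) :=
      Measure.isProbabilityMeasure_map he.aemeasurable
    apply Measure.ext_of_charFun
    ext t
    rw [charFun_stdGaussian, charFun_apply, Measure.map_map he hm, integral_map]
    · have h1 : ∀ ω : ι → ℝ, Complex.exp ((inner ℝ (((WithLp.toLp 2 : (κ → ℝ) →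
          EuclideanSpace ℝ κ) ∘ fun (ω : ι → ℝ) (j : κ) => ∑ k, A j k * ω k) ω) t : ℝ) *
          Complex.I) = ∏ k, Complex.exp (((∑ j, t j * A j k : ℝ) : ℂ) * (ω k : ℂ) * Complex.I) := by
        intro ω
        rw [← Complex.exp_sum]
        congr 1
        rw [PiLp.inner_apply]
        simp only [Function.comp_apply, RCLike.inner_apply, conj_trivial]
        push_cast
        simp only [Finset.sum_mul, Finset.mul_sum]
        rw [Finset.sum_comm]
        exact Finset.sum_congr rfl fun k _ => Finset.sum_congr rfl fun j _ => by ring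
      simp only [h1]
      unfold stdG
      rw [integral_fintype_prod_eq_prod (fun k (x : ℝ) =>
        Complex.exp (((∑ j, t j * A j k : ℝ) : ℂ) * (x : ℂ) * Complex.I))]
      have h2 : ∀ k, ∫ x : ℝ, Complex.exp (((∑ j, t j * A j k : ℝ) : ℂ) * (x : ℂ) * Complex.I)
          ∂(gaussianReal 0 1) = Complex.exp (-(((∑ j, t j * A j k) ^ 2 / 2 : ℝ) : ℂ)) := by
        intro k
        have h3 := charFun_gaussianReal (μ := 0) (v := 1) (∑ j, t j * A j k)
        rw [charFun_apply_real] at h3
        rw [h3]
        congr 1
        push_cast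
        ring
      simp only [h2]
      rw [← Complex.exp_sum]
      congr 1
      rw [Finset.sum_neg_distrib, ← Complex.ofReal_sum]
      have h4 : ∑ k, (∑ j, t j * A j k) ^ 2 / 2 = ‖t‖ ^ 2 / 2 := by
        rw [← Finset.sum_div, EuclideanSpace.norm_sq_eq]
        congr 1
        have h5 : ∀ k, (∑ j, t j * A j k) ^ 2 = ∑ j, ∑ j', t j * t j' * (A j k * A j' k) := by
          intro k
          rw [sq, Finset.sum_mul_sum]
          exact Finset.sum_congr rfl fun j _ => Finset.sum_congr rfl fun j' _ => by ring
        simp only [h5]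
        rw [Finset.sum_comm]
        have h6 : ∀ j, ∑ k, ∑ j', t j * t j' * (A j k * A j' k) = ‖t j‖ ^ 2 := by
          intro j
          rw [Finset.sum_comm]
          simp only [← Finset.mul_sum, hA]
          simp [sq]
        exact Finset.sum_congr rfl fun j _ => h6 j
      rw [h4]
      push_cast
      ring
    · exact (he.comp hm).aemeasurable
    · exact Continuous.aestronglyMeasurable (by fun_prop)
  have h2 := congrArg (fun μ => μ.map (WithLp.ofLp : EuclideanSpace ℝ κ → (κ → ℝ))) key
  simp only at h2
  rw [Measure.map_map (by fun_prop) he, Measure.map_map (by fun_prop) he] at h2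
  have h3 : (WithLp.ofLp : EuclideanSpace ℝ κ → (κ → ℝ)) ∘ (WithLp.toLp 2) = id := by
    funext x; rfl
  rw [h3, Measure.map_id, Measure.map_id] at h2
  exact h2

/-- The second vector of a link is standard Gaussian. -/
theorem map_v (horth : ∀ i j, ∑ k, H i k * H j k = if i = j then 1 else 0)
    (hτ : |τ| ≤ 1) : (stdG (V × Bool)).map (fun ω => v H τ ω) = stdG V := by
  have h0 : 0 ≤ 1 - τ ^ 2 := by
    have := sq_le_one_iff_abs_le_one τ |>.2 hτ
    linarith
  have h := map_orth (ι := V × Bool) (κ := V)
    (fun j c => if c.2 then (if c.1 = j then Real.sqrt (1 - τ ^ 2) else 0) else τ * H j c.1) (by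
      intro i j
      rw [Fintype.sum_prod_type]
      simp only [Fintype.sum_bool, if_true, Bool.false_eq_true, if_false]
      rw [Finset.sum_add_distrib]
      have h1 : ∑ x : V, ((if x = i then Real.sqrt (1 - τ ^ 2) else 0) *
          if x = j then Real.sqrt (1 - τ ^ 2) else 0) = if i = j then 1 - τ ^ 2 else 0 := by
        simp only [ite_mul, zero_mul, Finset.sum_ite_eq', Finset.mem_univ, if_true]
        by_cases hij : i = j
        · rw [if_pos hij, if_pos hij, Real.mul_self_sqrt h0]
        · rw [if_neg hij, if_neg hij, mul_zero]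
      have h2 : ∑ x : V, τ * H i x * (τ * H j x) = if i = j then τ ^ 2 else 0 := by
        have : ∀ x, τ * H i x * (τ * H j x) = τ ^ 2 * (H i x * H j x) := fun x => by ring
        simp only [this]
        rw [← Finset.mul_sum, horth]
        split_ifs <;> ring
      rw [h1, h2]
      split_ifs <;> ring)
  rw [← h]
  congr 1
  funext ω j
  rw [Fintype.sum_prod_type]
  simp only [Fintype.sum_bool, if_true, Bool.false_eq_true, if_false]
  rw [Finset.sum_add_distrib]
  unfold v
  simp only [ite_mul, zero_mul, Finset.sum_ite_eq', Finset.mem_univ, if_true]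
  rw [Finset.mul_sum, add_comm]
  congr 1
  exact Finset.sum_congr rfl fun k _ => by ring

/-- The first vector of a link is standard Gaussian. -/
theorem map_u : (stdG (V × Bool)).map (fun ω => u ω) = stdG V := by
  have h := map_orth (ι := V × Bool) (κ := V)
    (fun j c => if c.2 then 0 else (if c.1 = j then 1 else 0)) (by
      intro i j
      rw [Fintype.sum_prod_type]
      simp only [Fintype.sum_bool, if_true, Bool.false_eq_true, if_false]
      simp [eq_comm])
  rw [← h]
  congr 1
  funext ω j
  rw [Fintype.sum_prod_type]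
  simp [u]

end Link

end P362
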