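import Vale.Agent.P362.UpFinal

/-!
# P362, module UFINAL: `4` is admissible
-/

namespace P362

theorem four_admissible : (4 : ℝ) ∈ admissible := four_mem_admissible

end P362
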