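import Vale.Agent.P362.FinalLower
import Vale.Agent.P362.UpperFinal

/-!
# P362: `α_tot = 4`
-/

namespace P362

theorem alphaTot_eq_four : alphaTot = 4 :=
  le_antisymm (csInf_le ⟨0, fun _ h => h.1⟩ four_admissible)
    (le_csInf ⟨4, four_admissible⟩ fun _ h => four_le_of_admissible h)

end P362
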