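import Vale.Agent.P362.Stein

/-!
# P362, module MLEFF: Fourier expansion of `mle`, and `FF` as an expectation
-/

namespace P362

open scoped BigOperators
open MeasureTheory ProbabilityTheory

theorem mle_expand {I : Type} [Fintype I] [DecidableEq I] (g : (I → Bool) → ℝ) (S : Finset I)
    (z : I → ℝ) :
    mle g S z = ∑ T ∈ (Finset.univ \ S).powerset, fc g (T ∪ S) * ∏ i ∈ T, z i := by
  have h1 : ∀ y : I → Bool, ∏ i, (if i ∈ S then sR (y i) / 2 else (1 + sR (y i) * z i) / 2) =
      (1 / 2) ^ Fintype.card I * ((∏ i ∈ S, sR (y i)) *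
        ∏ i ∈ Finset.univ \ S, (1 + sR (y i) * z i)) := by
    intro y
    have e1 : ∏ i, (if i ∈ S then sR (y i) / 2 else (1 + sR (y i) * z i) / 2) =
        ∏ i, ((1 / 2) * (if i ∈ S then sR (y i) else (1 + sR (y i) * z i))) := by
      refine Finset.prod_congr rfl fun i _ => ?_
      split_ifs <;> ring
    rw [e1, Finset.prod_mul_distrib, Finset.prod_const, Finset.card_univ]
    congr 1
    rw [← Finset.prod_sdiff (Finset.subset_univ S), mul_comm]
    congr 1
    · exact Finset.prod_congr rfl fun i hi => if_pos hi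
    · exact Finset.prod_congr rfl fun i hi => if_neg (Finset.mem_sdiff.mp hi).2
  unfold mle fc
  simp_rw [h1, Finset.prod_one_add, Finset.mul_sum, Finset.sum_mul]
  rw [Finset.sum_comm]
  refine Finset.sum_congr rfl fun T hT => ?_
  refine Finset.sum_congr rfl fun y _ => ?_
  have hd : Disjoint T S := by
    rw [Finset.mem_powerset] at hT
    exact Finset.disjoint_left.mpr fun i hi hS => (Finset.mem_sdiff.mp (hT hi)).2 hS
  rw [Finset.prod_union hd, Finset.prod_mul_distrib]
  ring

theorem mle_bound {I : Type} [Fintype I] [DecidableEq I] (g : (I → Bool) → ℝ) (B : ℝ)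
    (hg : ∀ y, |g y| ≤ B) (S : Finset I) (z : I → ℝ) :
    |mle g S z| ≤ B * ∏ i, max 1 |z i| := by
  have hB : 0 ≤ B := (abs_nonneg _).trans (hg fun _ => false)
  unfold mle
  calc |∑ y : I → Bool, g y * ∏ i, (if i ∈ S then sR (y i) / 2 else (1 + sR (y i) * z i) / 2)|
      ≤ ∑ y : I → Bool, B * ∏ i,
        |(if i ∈ S then sR (y i) / 2 else (1 + sR (y i) * z i) / 2)| := by
        refine (Finset.abs_sum_le_sum_abs _ _).trans (Finset.sum_le_sum fun y _ => ?_)
        rw [abs_mul, Finset.abs_prod]
        exact mul_le_mul_of_nonneg_right (hg y) (Finset.prod_nonneg fun i _ => abs_nonneg _)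
    _ = B * ∏ i, ∑ b : Bool, |(if i ∈ S then sR b / 2 else (1 + sR b * z i) / 2)| := by
        rw [← Finset.mul_sum]
        congr 1
        have h := Finset.prod_univ_sum (fun _ : I => (Finset.univ : Finset Bool))
          (fun i b => |(if i ∈ S then sR b / 2 else (1 + sR b * z i) / 2)|)
        rw [Fintype.piFinset_univ] at h
        exact h.symm
    _ ≤ B * ∏ i, max 1 |z i| := by
        refine mul_le_mul_of_nonneg_left (Finset.prod_le_prod (fun i _ => ?_) fun i _ => ?_) hB
        · exact Finset.sum_nonneg fun b _ => abs_nonneg _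
        · rw [Fintype.sum_bool]
          split_ifs with h
          · refine le_trans (le_of_eq ?_) (le_max_left _ _)
            simp only [sR, if_true, Bool.false_eq_true, if_false]
            norm_num
          · simp only [sR, if_true, Bool.false_eq_true, if_false]
            rcases abs_cases ((1 + -1 * z i) / 2) with h1 | h1 <;>
              rcases abs_cases ((1 + 1 * z i) / 2) with h2 | h2 <;>
              rcases abs_cases (z i) with h3 | h3 <;>
              first
              | exact le_max_of_le_left (by linarith [h1.1, h2.1])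
              | exact le_max_of_le_right (by linarith [h1.1, h2.1, h3.1])

theorem FF_integral {n r : ℕ} (hr : 1 ≤ r) (η τ : ℝ) (h0 : 0 ≤ τ) (h1 : τ ≤ 1)
    (g : (Fin (r + 1) × V n → Bool) → ℝ) (S : Finset (Fin (r + 1) × V n)) :
    Integrable (fun ω => mle g S (zz η τ ω)) (Gam n r) ∧
      ∫ ω, mle g S (zz η τ ω) ∂(Gam n r) = FF η τ g S := by
  have hi : ∀ T ∈ (Finset.univ \ S).powerset,
      Integrable (fun ω => fc g (T ∪ S) * ∏ i ∈ T, zz η τ ω i) (Gam n r) := fun T _ =>
    (integral_zz hr η τ h0 h1 T).1.const_mul _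
  simp_rw [mle_expand]
  refine ⟨integrable_finsetSum _ hi, ?_⟩
  rw [integral_finsetSum _ hi]
  unfold FF
  refine Finset.sum_congr rfl fun T _ => ?_
  rw [integral_const_mul, (integral_zz hr η τ h0 h1 T).2]

theorem prod_max_le_dom {n r : ℕ} (η τ : ℝ) (ω : Fin r → Lk n) :
    ∏ t : Fin (r + 1) × V n, max 1 |zz η τ ω t| ≤ dom η τ ω := by
  have hA : ∏ t : Fin (r + 1) × V n, max 1 |zA η ω t| =
      ∏ l : Fin r, ∏ i : V n, max 1 |η * (ω l).1 i| := by
    rw [Fintype.prod_prod_type, Fin.prod_univ_castSucc]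
    simp only [zA_castSucc, zA_last]
    simp
  have hB : ∏ t : Fin (r + 1) × V n, max 1 |zB η τ ω t| =
      ∏ l : Fin r, ∏ i : V n, max 1 |η * vv (par τ l) (ω l) i| := by
    rw [Fintype.prod_prod_type, Fin.prod_univ_succ]
    simp only [zB_succ, zB_zero]
    simp
  calc ∏ t : Fin (r + 1) × V n, max 1 |zz η τ ω t|
      ≤ ∏ t : Fin (r + 1) × V n, (max 1 |zA η ω t| * max 1 |zB η τ ω t|) := by
        refine Finset.prod_le_prod (fun t _ => by positivity) fun t _ => ?_
        unfold zz
        rw [abs_mul]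
        refine max_le ?_ ?_
        · exact one_le_mul_of_one_le_of_one_le (le_max_left _ _) (le_max_left _ _)
        · exact mul_le_mul (le_max_right _ _) (le_max_right _ _) (abs_nonneg _) (by positivity)
    _ = dom η τ ω := by
        rw [Finset.prod_mul_distrib, hA, hB]
        unfold dom
        rw [← Finset.prod_mul_distrib]
        refine Finset.prod_congr rfl fun l _ => ?_
        rw [Finset.prod_mul_distrib]

theorem zz_le_half {n r : ℕ} (hr : 1 ≤ r) (η τ : ℝ) (ω : Fin r → Lk n)
    (h : ω ∉ bad η τ) (t : Fin (r + 1) × V n) : |zz η τ ω t| ≤ 1 / 2 := by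
  obtain ⟨l, i⟩ := t
  have hg : ∀ l : Fin r, ∀ i : V n, |η * (ω l).1 i| ≤ 1 / 2 ∧
      |η * vv (par τ l) (ω l) i| ≤ 1 / 2 := by
    intro l i
    unfold bad at h
    simp only [Set.mem_ofPred_eq, not_exists, not_or, not_lt] at h
    exact h l i
  have hA : |zA η ω (l, i)| ≤ 1 := by
    unfold zA
    split_ifs with hl
    · exact (hg _ _).1.trans (by norm_num)
    · simp
  unfold zz
  rw [abs_mul]
  rcases Fin.eq_zero_or_eq_succ l with rfl | ⟨l', rfl⟩
  · rw [zB_zero, abs_one, mul_one]
    unfold zA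
    rw [dif_pos (show ((0 : Fin (r + 1)) : ℕ) < r by simp; omega)]
    exact (hg _ _).1
  · rw [zB_succ]
    have hb := (hg l' i).2
    calc |zA η ω (l'.succ, i)| * |η * vv (par τ l') (ω l') i| ≤ 1 * (1 / 2) :=
          mul_le_mul hA hb (abs_nonneg _) zero_le_one
      _ = 1 / 2 := by norm_num

end P362
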