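import Mathlib

/-!
# P362: query models

Deterministic decision trees, randomized algorithms (probability distributions over decision
trees), quantum query algorithms (unitaries interleaved with the standard bit oracle), and the
exponent `alphaTot`.
-/

namespace P362

open scoped BigOperators Matrix

/-! ## Classical model -/

/-- Decision trees querying input bits indexed by `ι`, with leaves labelled by elements of `α`. -/
inductive DTree (ι : Type) (α : Type) : Type where
  | leaf (a : α) : DTree ι α
  | node (i : ι) (t0 t1 : DTree ι α) : DTree ι α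

namespace DTree

/-- The output of the decision tree on input `x`: at `node i t0 t1` the bit `x i` is queried. -/
def eval {ι α : Type} : DTree ι α → (ι → Bool) → α
  | leaf a, _ => a
  | node i t0 t1, x => if x i then t1.eval x else t0.eval x

/-- The depth, i.e. the worst-case number of queries. -/
def depth {ι α : Type} : DTree ι α → ℕ
  | leaf _ => 0
  | node _ t0 t1 => max t0.depth t1.depth + 1

end DTree

/-- `f` is computed by a randomized algorithm making at most `q` queries with success probability
at least `2/3` on every input.  A randomized algorithm is a probability distribution over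
deterministic decision trees. -/
def RandComputes {ι : Type} (q : ℕ) (f : (ι → Bool) → Bool) : Prop :=
  ∃ p : PMF (DTree ι Bool), (∀ T ∈ p.support, T.depth ≤ q) ∧
    ∀ x, (2 / 3 : ENNReal) ≤ p.toOuterMeasure {T | T.eval x = f x}

/-- Bounded-error randomized query complexity. -/
noncomputable def R {ι : Type} (f : (ι → Bool) → Bool) : ℕ := sInf {q | RandComputes q f}

/-! ## Quantum model -/

/-- The oracle unitary `|i, b, z⟩ ↦ |i, b ⊕ x_i, z⟩`. -/
def oracle {ι Z : Type} [DecidableEq ι] [DecidableEq Z] (x : ι → Bool) :
    Matrix (ι × Bool × Z) (ι × Bool × Z) ℂ :=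
  fun s t => if s = (t.1, xor t.2.1 (x t.1), t.2.2) then 1 else 0

/-- A quantum query algorithm: a finite workspace `Z`, unitaries `U 0, U 1, …` on the space with
basis `ι × Bool × Z`, an initial basis state, and a set of accepting basis states (the final
measurement is in the standard basis). -/
structure QAlg (ι : Type) [Fintype ι] [DecidableEq ι] where
  /-- workspace -/
  Z : Type
  [fZ : Fintype Z]
  [dZ : DecidableEq Z]
  /-- the input-independent unitaries -/
  U : ℕ → Matrix (ι × Bool × Z) (ι × Bool × Z) ℂ
  U_unitary : ∀ t, U t ∈ Matrix.unitaryGroup (ι × Bool × Z) ℂ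
  /-- initial basis state -/
  init : ι × Bool × Z
  /-- accepting basis states -/
  acc : Finset (ι × Bool × Z)

attribute [instance] QAlg.fZ QAlg.dZ

/-- The state after `q` queries: `U_q O_x U_{q-1} ⋯ O_x U_0 |init⟩`. -/
noncomputable def QAlg.state {ι : Type} [Fintype ι] [DecidableEq ι] (A : QAlg ι) (x : ι → Bool) :
    ℕ → (ι × Bool × A.Z → ℂ)
  | 0 => A.U 0 *ᵥ Pi.single A.init 1
  | q + 1 => A.U (q + 1) *ᵥ (oracle x *ᵥ A.state x q)

/-- The probability that the algorithm, run with `q` queries on input `x`, accepts. -/
noncomputable def QAlg.acceptProb {ι : Type} [Fintype ι] [DecidableEq ι] (A : QAlg ι) (q : ℕ)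
    (x : ι → Bool) : ℝ :=
  ∑ s ∈ A.acc, ‖A.state x q s‖ ^ 2

/-- `f` is computed by a quantum algorithm with `q` queries with success probability at least
`2/3` on every input (accepting means output `1`). -/
def QuantComputes {ι : Type} [Fintype ι] [DecidableEq ι] (q : ℕ) (f : (ι → Bool) → Bool) : Prop :=
  ∃ A : QAlg ι, ∀ x, (f x = true → 2 / 3 ≤ A.acceptProb q x) ∧
    (f x = false → A.acceptProb q x ≤ 1 / 3)

/-- Bounded-error quantum query complexity. -/
noncomputable def Q {ι : Type} [Fintype ι] [DecidableEq ι] (f : (ι → Bool) → Bool) : ℕ :=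
  sInf {q | QuantComputes q f}

/-- The exponents `α ≥ 0` for which `R(f) ≤ C (1 + Q(f))^α` for all total Boolean functions. -/
def admissible : Set ℝ :=
  {α | 0 ≤ α ∧ ∃ C : ℝ, ∀ n : ℕ, 1 ≤ n → ∀ f : (Fin n → Bool) → Bool,
    (R f : ℝ) ≤ C * (1 + (Q f : ℝ)) ^ α}

/-- The exponent `α_tot`. -/
noncomputable def alphaTot : ℝ := sInf admissible

end P362
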