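import Vale.Agent.P362.MleFF

/-!
# P362, module SECOND (section 5)
-/

namespace P362

open scoped BigOperators

namespace SecM

/-! ### path sums -/

theorem path_sum {A : Type} [Fintype A] (K : A → A → ℝ) (R : A → ℝ)
    (hrow : ∀ p, ∑ q, K p q = R p) (hcl : ∀ p q, K p q ≠ 0 → R q = R p) (r : ℕ) :
    ∀ g : A → ℝ, ∑ p : Fin (r + 1) → A, g (p 0) * ∏ l : Fin r, K (p l.castSucc) (p l.succ) =
      ∑ a, g a * R a ^ r := by
  induction r with
  | zero =>
      intro g
      simp only [Finset.univ_eq_empty, Finset.prod_empty, mul_one, pow_zero]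
      exact (Fintype.sum_equiv (Equiv.funUnique (Fin 1) A) _ _ (fun p => by simp))
  | succ r ih =>
      intro g
      rw [← (Fin.consEquiv (fun _ : Fin (r + 2) => A)).sum_comp, Fintype.sum_prod_type]
      refine Finset.sum_congr rfl fun a _ => ?_
      have h1 : ∀ p' : Fin (r + 1) → A,
          g ((Fin.consEquiv (fun _ : Fin (r + 2) => A)) (a, p') 0) *
            ∏ l : Fin (r + 1), K ((Fin.consEquiv (fun _ : Fin (r + 2) => A)) (a, p') l.castSucc)
              ((Fin.consEquiv (fun _ : Fin (r + 2) => A)) (a, p') l.succ) =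
          g a * (K a (p' 0) * ∏ l : Fin r, K (p' l.castSucc) (p' l.succ)) := by
        intro p'
        simp only [Fin.consEquiv_apply, Fin.cons_zero, Fin.cons_succ]
        rw [Fin.prod_univ_succ]
        simp only [Fin.castSucc_zero, Fin.cons_zero, Fin.castSucc_succ, Fin.cons_succ]
      rw [Finset.sum_congr rfl fun p' _ => h1 p', ← Finset.mul_sum, ih (fun b => K a b)]
      have h2 : ∀ b, K a b * R b ^ r = K a b * R a ^ r := by
        intro b
        by_cases hK : K a b = 0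
        · simp [hK]
        · rw [hcl a b hK]
      rw [Finset.sum_congr rfl fun b _ => h2 b, ← Finset.sum_mul, hrow]
      ring

/-! ### characters -/

theorem chi_comm {n : ℕ} (a i : V n) : chi a i = chi i a := by
  unfold chi
  refine Finset.prod_congr rfl fun s _ => ?_
  rw [Bool.and_comm]

theorem chi_false {n : ℕ} (i : V n) : chi (fun _ : Fin n => false) i = 1 := by
  unfold chi
  simp

theorem sN_sq (n : ℕ) : sN n ^ 2 = 2 ^ n := by
  unfold sN
  rw [← pow_mul, mul_comm, pow_mul, Real.sq_sqrt (by norm_num)]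

theorem sN_pos (n : ℕ) : 0 < sN n := by
  unfold sN; positivity

theorem sg_cast (b : Bool) : ((sg b : ℤ) : ℝ) = sR b := by
  cases b <;> simp [sg, sR]

theorem sR_sq (b : Bool) : sR b * sR b = 1 := by
  cases b <;> simp [sR]

/-- one step of the chain, over the reals -/
theorem lay_succ {n r : ℕ} (y : Fin (r + 1) × V n → Bool) (l : ℕ) (hl : l < r + 1) (a : V n) :
    (lay y (l + 1) a : ℝ) = ∑ i, (chi a i : ℝ) * (sR (y (⟨l, hl⟩, i)) * (lay y l i : ℝ)) := by
  simp only [lay, wht, dif_pos hl, Int.cast_sum, Int.cast_mul, sg_cast]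

theorem lay_path {n r : ℕ} (y : Fin (r + 1) × V n → Bool) :
    ∀ (l : ℕ) (hl : l < r + 1) (F : V n → ℝ),
      ∑ v, F v * (sR (y (⟨l, hl⟩, v)) * (lay y l v : ℝ)) =
        ∑ i : Fin (l + 1) → V n, F (i (Fin.last l)) *
          ((∏ k : Fin l, (chi (i k.castSucc) (i k.succ) : ℝ)) *
            ∏ k : Fin (l + 1), sR (y (⟨k, lt_of_le_of_lt (Nat.le_of_lt_succ k.2) hl⟩, i k))) := by
  intro l
  induction l with
  | zero =>
      intro hl F
      refine (Fintype.sum_equiv (Equiv.funUnique (Fin 1) (V n)) _ _ (fun p => ?_)).symm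
      simp [lay]
  | succ l ih =>
      intro hl F
      have hl' : l < r + 1 := Nat.lt_of_succ_lt hl
      rw [← (Fin.snocEquiv (fun _ : Fin (l + 2) => V n)).sum_comp, Fintype.sum_prod_type]
      refine Finset.sum_congr rfl fun v _ => ?_
      rw [lay_succ y l hl' v, ih hl' (fun i => (chi v i : ℝ)), Finset.mul_sum, Finset.mul_sum]
      refine Finset.sum_congr rfl fun p' _ => ?_
      simp only [Fin.snocEquiv_apply, Fin.snoc_last]
      have e1 : ∏ k : Fin (l + 1), (chi ((Fin.snoc p' v : Fin (l + 2) → V n) k.castSucc)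
          ((Fin.snoc p' v : Fin (l + 2) → V n) k.succ) : ℝ) =
          (∏ k : Fin l, (chi (p' k.castSucc) (p' k.succ) : ℝ)) * (chi v (p' (Fin.last l)) : ℝ) := by
        rw [Fin.prod_univ_castSucc]
        congr 1
        · refine Finset.prod_congr rfl fun k _ => ?_
          rw [Fin.succ_castSucc, Fin.snoc_castSucc, Fin.snoc_castSucc]
        · rw [Fin.succ_last, Fin.snoc_last, Fin.snoc_castSucc, chi_comm v]
      have e2 : ∏ k : Fin (l + 2), sR (y (⟨k, lt_of_le_of_lt (Nat.le_of_lt_succ k.2) hl⟩,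
          (Fin.snoc p' v : Fin (l + 2) → V n) k)) =
          (∏ k : Fin (l + 1), sR (y (⟨k, lt_of_le_of_lt (Nat.le_of_lt_succ k.2) hl'⟩, p' k))) *
            sR (y (⟨l + 1, hl⟩, v)) := by
        rw [Fin.prod_univ_castSucc]
        congr 1
        · refine Finset.prod_congr rfl fun k _ => ?_
          rw [Fin.snoc_castSucc]
          rfl
        · rw [Fin.snoc_last]
          rfl
      rw [e1, e2]
      ring

theorem card_V (n : ℕ) : ((Finset.univ : Finset (V n)).card : ℝ) = sN n ^ 2 := by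
  rw [sN_sq, Finset.card_univ, Fintype.card_fun, Fintype.card_bool, Fintype.card_fin]
  push_cast
  rfl

theorem parseval {n : ℕ} (G : V n → ℝ) : ∑ a, (∑ i, Hd a i * G i) ^ 2 = ∑ i, G i ^ 2 := by
  have h1 : ∀ a : V n, (∑ i, Hd a i * G i) ^ 2 = ∑ i, ∑ j, G i * G j * (Hd a i * Hd a j) := by
    intro a
    rw [sq, Finset.sum_mul_sum]
    refine Finset.sum_congr rfl fun i _ => Finset.sum_congr rfl fun j _ => ?_
    ring
  rw [Finset.sum_congr rfl fun a _ => h1 a, Finset.sum_comm]
  refine Finset.sum_congr rfl fun i _ => ?_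
  rw [Finset.sum_comm]
  simp only [← Finset.mul_sum, Hd_orth]
  simp [sq]

theorem lay_sq {n r : ℕ} (y : Fin (r + 1) × V n → Bool) :
    ∀ l : ℕ, l ≤ r + 1 → ∑ a, (lay y l a : ℝ) ^ 2 = (sN n ^ 2) ^ (l + 1) := by
  intro l
  induction l with
  | zero =>
      intro _
      simp only [lay, Int.cast_one, one_pow, Finset.sum_const, nsmul_eq_mul, mul_one, zero_add,
        pow_one]
      exact card_V n
  | succ l ih =>
      intro hl
      have h1 : ∀ a, (lay y (l + 1) a : ℝ) ^ 2 =
          sN n ^ 2 * (∑ i, Hd a i * (sR (y (⟨l, hl⟩, i)) * (lay y l i : ℝ))) ^ 2 := by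
        intro a
        rw [lay_succ y l hl a, ← mul_pow, Finset.mul_sum]
        congr 1
        refine Finset.sum_congr rfl fun i _ => ?_
        unfold Hd
        have h3 := (sN_pos n).ne'
        field_simp
      rw [Finset.sum_congr rfl fun a _ => h1 a, ← Finset.mul_sum, parseval]
      have h2 : ∀ i, (sR (y (⟨l, hl⟩, i)) * (lay y l i : ℝ)) ^ 2 = (lay y l i : ℝ) ^ 2 := by
        intro i
        rw [mul_pow, sq (sR _), sR_sq, one_mul]
      rw [Finset.sum_congr rfl fun i _ => h2 i, ih (Nat.le_of_succ_le hl)]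
      ring

/-! ### Fourier characters -/

/-- the character `χ_S` -/
noncomputable def ch {I : Type} (S : Finset I) (y : I → Bool) : ℝ := ∏ i ∈ S, sR (y i)

theorem ch_orth {I : Type} [Fintype I] [DecidableEq I] (S T : Finset I) :
    (1 / 2) ^ Fintype.card I * ∑ y : I → Bool, ch S y * ch T y = if S = T then (1 : ℝ) else 0 := by
  have h1 : ∀ y : I → Bool, ch S y * ch T y =
      ∏ i, ((if i ∈ S then sR (y i) else 1) * (if i ∈ T then sR (y i) else 1)) := by
    intro y
    unfold ch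
    rw [Finset.prod_mul_distrib, Finset.prod_ite_mem, Finset.prod_ite_mem, Finset.univ_inter,
      Finset.univ_inter]
  rw [Finset.sum_congr rfl fun y _ => h1 y]
  have h2 := (Finset.prod_univ_sum (fun _ : I => (Finset.univ : Finset Bool))
    (fun i b => ((if i ∈ S then sR b else 1) * (if i ∈ T then sR b else 1)) : I → Bool → ℝ)).symm
  rw [Fintype.piFinset_univ] at h2
  rw [h2]
  have h3 : ∀ i : I, ∑ b : Bool, ((if i ∈ S then sR b else 1) * (if i ∈ T then sR b else 1)) =
      if (i ∈ S ↔ i ∈ T) then (2 : ℝ) else 0 := by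
    intro i
    rw [Fintype.sum_bool]
    by_cases hS : i ∈ S <;> by_cases hT : i ∈ T <;> simp [hS, hT, sR] <;> norm_num
  rw [Finset.prod_congr rfl fun i _ => h3 i]
  by_cases hST : S = T
  · subst hST
    simp only [if_true, Finset.prod_const, Finset.card_univ]
    rw [← mul_pow]
    norm_num
  · rw [if_neg hST]
    have : ∃ i, ¬ (i ∈ S ↔ i ∈ T) := by
      by_contra hcon
      push Not at hcon
      exact hST (Finset.ext hcon)
    obtain ⟨i, hi⟩ := this
    rw [Finset.prod_eq_zero (Finset.mem_univ i) (by rw [if_neg hi]), mul_zero]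

theorem ch_mul {I : Type} [DecidableEq I] (S T : Finset I) (y : I → Bool) :
    ch S y * ch T y = ch (symmDiff S T) y := by
  have h1 : ch S y = ch (S \ T) y * ch (S ∩ T) y := by
    unfold ch
    rw [← Finset.prod_union (Finset.disjoint_sdiff_inter S T), Finset.sdiff_union_inter]
  have h2 : ch T y = ch (T \ S) y * ch (S ∩ T) y := by
    unfold ch
    rw [Finset.inter_comm, ← Finset.prod_union (Finset.disjoint_sdiff_inter T S),
      Finset.sdiff_union_inter]
  have h3 : ch (symmDiff S T) y = ch (S \ T) y * ch (T \ S) y := by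
    unfold ch
    rw [symmDiff_def, Finset.sup_eq_union, Finset.prod_union]
    exact disjoint_sdiff_sdiff
  have h4 : ch (S ∩ T) y * ch (S ∩ T) y = 1 := by
    unfold ch
    rw [← Finset.prod_mul_distrib]
    exact Finset.prod_eq_one fun i _ => sR_sq _
  rw [h1, h2, h3]
  calc _ = ch (S \ T) y * ch (T \ S) y * (ch (S ∩ T) y * ch (S ∩ T) y) := by ring
    _ = _ := by rw [h4, mul_one]

theorem fc_ch {I : Type} [Fintype I] [DecidableEq I] (S T : Finset I) :
    fc (ch S) T = if S = T then (1 : ℝ) else 0 := ch_orth S T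

/-- linearity of `FF` -/
theorem FF_ch {n r : ℕ} (η τ : ℝ) (S : Finset (Fin (r + 1) × V n)) :
    FF η τ (ch S) (∅ : Finset (Fin (r + 1) × V n)) = mm η τ S := by
  unfold FF
  simp only [Finset.union_empty, fc_ch, ite_mul, one_mul, zero_mul, Finset.sdiff_empty]
  rw [Finset.sum_ite_eq, if_pos (by simp)]

theorem FF_add {n r : ℕ} (η τ : ℝ) (g h : (Fin (r + 1) × V n → Bool) → ℝ)
    (S : Finset (Fin (r + 1) × V n)) :
    FF η τ (fun y => g y + h y) S = FF η τ g S + FF η τ h S := by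
  unfold FF
  rw [← Finset.sum_add_distrib]
  refine Finset.sum_congr rfl fun T _ => ?_
  unfold fc
  rw [← add_mul, ← mul_add, ← Finset.sum_add_distrib]
  congr 2
  refine Finset.sum_congr rfl fun y _ => ?_
  ring

theorem FF_smul {n r : ℕ} (η τ c : ℝ) (g : (Fin (r + 1) × V n → Bool) → ℝ)
    (S : Finset (Fin (r + 1) × V n)) :
    FF η τ (fun y => c * g y) S = c * FF η τ g S := by
  unfold FF
  rw [Finset.mul_sum]
  refine Finset.sum_congr rfl fun T _ => ?_
  unfold fc
  simp only [mul_assoc, ← Finset.mul_sum]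
  ring

theorem FF_sum {n r : ℕ} {A : Type} (η τ : ℝ) (s : Finset A)
    (g : A → (Fin (r + 1) × V n → Bool) → ℝ) (S : Finset (Fin (r + 1) × V n)) :
    FF η τ (fun y => ∑ a ∈ s, g a y) S = ∑ a ∈ s, FF η τ (g a) S := by
  classical
  induction s using Finset.induction_on with
  | empty =>
      simp only [Finset.sum_empty]
      have := FF_smul η τ 0 (fun _ => 0) S
      simpa using this
  | insert a s ha ih =>
      simp only [Finset.sum_insert ha]
      rw [FF_add, ih]

end SecM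

/-- the multilinear form `Φ` -/
theorem psi_zero_eq {n r : ℕ} (y : Fin (r + 1) × V n → Bool) :
    psi y (fun _ => false) = (1 / 2 ^ n) * ∑ i : Fin (r + 1) → V n,
      (∏ l : Fin r, Hd (i l.castSucc) (i l.succ)) * ∏ l, sR (y (l, i l)) := by
  unfold psi
  rw [SecM.lay_succ y r (Nat.lt_succ_self r), SecM.lay_path y r (Nat.lt_succ_self r)
    (fun i => (chi (fun _ => false) i : ℝ)), Finset.sum_div, Finset.mul_sum]
  refine Finset.sum_congr rfl fun i _ => ?_
  have h1 : ∏ l : Fin r, Hd (i l.castSucc) (i l.succ) =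
      (∏ l : Fin r, (chi (i l.castSucc) (i l.succ) : ℝ)) / sN n ^ r := by
    unfold Hd
    rw [Finset.prod_div_distrib, Finset.prod_const, Finset.card_univ, Fintype.card_fin]
  have h2 : (2 : ℝ) ^ n = sN n ^ 2 := (SecM.sN_sq n).symm
  have h3 := (SecM.sN_pos n).ne'
  rw [h1, h2, SecM.chi_false]
  field_simp
  push_cast
  ring

theorem psi_unit {n r : ℕ} (y : Fin (r + 1) × V n → Bool) : ∑ a, psi y a ^ 2 = 1 := by
  unfold psi
  simp only [div_pow]
  rw [← Finset.sum_div, SecM.lay_sq y (r + 1) le_rfl, ← pow_mul, ← pow_mul, mul_comm 2]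
  exact div_self (pow_pos (SecM.sN_pos n) _).ne'

namespace SecM

/-! ### levels of graphs -/

theorem prod_gr {n r : ℕ} (i : Fin (r + 1) → V n) (y : Fin (r + 1) × V n → Bool) :
    ∏ l, sR (y (l, i l)) = ch (gr i) y := by
  have h1 : gr i = Finset.univ.image (fun l => (l, i l)) := by
    ext ⟨l, v⟩
    simp only [gr, Finset.mem_filter, Finset.mem_univ, true_and, Finset.mem_image, Prod.mk.injEq]
    constructor
    · intro h
      exact ⟨l, rfl, h⟩
    · rintro ⟨l', rfl, h⟩
      exact h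
  unfold ch
  rw [h1, Finset.prod_image]
  intro a _ b _ hab
  exact (Prod.mk.injEq _ _ _ _ ▸ hab).1

theorem lev_gr {n r : ℕ} (i : Fin (r + 1) → V n) (l : Fin (r + 1)) : lev (gr i) l = {i l} := by
  ext v
  simp only [lev, gr, Finset.mem_filter, Finset.mem_univ, true_and, Finset.mem_singleton]
  exact eq_comm

/-- level set of the symmetric difference -/
def DD {n : ℕ} (p : V n × V n) : Finset (V n) := if p.1 = p.2 then ∅ else {p.1, p.2}

theorem lev_symm {n r : ℕ} (i j : Fin (r + 1) → V n) (l : Fin (r + 1)) :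
    lev (symmDiff (gr i) (gr j)) l = DD (i l, j l) := by
  ext v
  unfold DD
  simp only [lev, gr, Finset.mem_filter, Finset.mem_univ, true_and, Finset.mem_symmDiff]
  by_cases h : i l = j l
  · rw [if_pos h, h]
    simp
  · rw [if_neg h]
    simp only [Finset.mem_insert, Finset.mem_singleton]
    constructor
    · rintro (⟨h1, _⟩ | ⟨h1, _⟩)
      · exact Or.inl h1.symm
      · exact Or.inr h1.symm
    · rintro (rfl | rfl)
      · exact Or.inl ⟨rfl, fun h2 => h h2.symm⟩
      · exact Or.inr ⟨rfl, h⟩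

theorem w1_ee {n : ℕ} (η : ℝ) : w1 η (∅ : Finset (V n)) ∅ = 1 := by
  rw [w1_nil, if_pos rfl]

theorem w1_ss {n : ℕ} (η : ℝ) (i j : V n) : w1 η {i} {j} = η ^ 2 * Hd i j := by
  rw [w1_rec η {i} {j} i (Finset.mem_singleton_self i)]
  simp [w1_ee]

theorem w1_pe {n : ℕ} (η : ℝ) (T : Finset (V n)) (hT : T.Nonempty) : w1 η T ∅ = 0 := by
  obtain ⟨i, hi⟩ := hT
  rw [w1_rec η T ∅ i hi]
  simp

theorem w1_ep {n : ℕ} (η : ℝ) (T : Finset (V n)) (hT : T ≠ ∅) : w1 η ∅ T = 0 := by
  rw [w1_nil, if_neg hT]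

theorem w1_pp {n : ℕ} (η : ℝ) {p1 p2 q1 q2 : V n} (hp : p1 ≠ p2) (hq : q1 ≠ q2) :
    w1 η {p1, p2} {q1, q2} = η ^ 4 * (Hd p1 q1 * Hd p2 q2 + Hd p1 q2 * Hd p2 q1) := by
  have e1 : ({p1, p2} : Finset (V n)).erase p1 = {p2} := by
    ext v
    simp only [Finset.mem_erase, Finset.mem_insert, Finset.mem_singleton]
    constructor
    · rintro ⟨h1, h2 | h2⟩
      · exact absurd h2 h1
      · exact h2
    · rintro rfl
      exact ⟨hp.symm, Or.inr rfl⟩
  have e2 : ({q1, q2} : Finset (V n)).erase q1 = {q2} := by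
    ext v
    simp only [Finset.mem_erase, Finset.mem_insert, Finset.mem_singleton]
    constructor
    · rintro ⟨h1, h2 | h2⟩
      · exact absurd h2 h1
      · exact h2
    · rintro rfl
      exact ⟨hq.symm, Or.inr rfl⟩
  have e3 : ({q1, q2} : Finset (V n)).erase q2 = {q1} := by
    ext v
    simp only [Finset.mem_erase, Finset.mem_insert, Finset.mem_singleton]
    constructor
    · rintro ⟨h1, h2 | h2⟩
      · exact h2
      · exact absurd h2 h1
    · rintro rfl
      exact ⟨hq, Or.inl rfl⟩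
  rw [w1_rec η {p1, p2} {q1, q2} p1 (by simp), Finset.sum_pair hq, e1, e2, e3, w1_ss, w1_ss]
  ring

/-! ### the transfer kernel -/

/-- the kernel of the second moment -/
noncomputable def KK {n : ℕ} (η : ℝ) (p q : V n × V n) : ℝ :=
  Hd p.1 q.1 * Hd p.2 q.2 * w1 η (DD p) (DD q)

/-- its row sums -/
noncomputable def RR {n : ℕ} (η : ℝ) (p : V n × V n) : ℝ :=
  if p.1 = p.2 then 1 else η ^ 4 * ((sN n ^ 2 - 2) / sN n ^ 2)

theorem DD_diag {n : ℕ} {p : V n × V n} (h : p.1 = p.2) : DD p = ∅ := if_pos h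

theorem DD_off {n : ℕ} {p : V n × V n} (h : p.1 ≠ p.2) : DD p = {p.1, p.2} := if_neg h

theorem KK_class {n : ℕ} (η : ℝ) (p q : V n × V n) (h : KK η p q ≠ 0) :
    RR η q = RR η p := by
  unfold RR
  by_cases hp : p.1 = p.2 <;> by_cases hq : q.1 = q.2
  · rw [if_pos hp, if_pos hq]
  · exfalso
    apply h
    unfold KK
    rw [DD_diag hp, DD_off hq, w1_ep η _ (by simp), mul_zero]
  · exfalso
    apply h
    unfold KK
    rw [DD_diag hq, DD_off hp, w1_pe η _ (by simp), mul_zero]
  · rw [if_neg hp, if_neg hq]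

theorem Hd_sq {n : ℕ} (i j : V n) : Hd i j * Hd i j = 1 / sN n ^ 2 := by
  have h1 : (chi i j : ℝ) * (chi i j : ℝ) = 1 := by
    unfold chi
    push_cast
    rw [← Finset.prod_mul_distrib]
    refine Finset.prod_eq_one fun s _ => ?_
    split_ifs <;> norm_num
  unfold Hd
  rw [div_mul_div_comm, h1, sq]

theorem Hd_row {n : ℕ} (i i' : V n) : ∑ j, Hd i j * Hd i' j = if i = i' then 1 else 0 := by
  rw [← Hd_orth i i']
  refine Finset.sum_congr rfl fun j _ => ?_
  rw [Hd_symm i j, Hd_symm i' j]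

theorem sum_diag {A : Type} [Fintype A] [DecidableEq A] (f : A × A → ℝ) :
    ∑ q : A × A, (if q.1 = q.2 then f q else 0) = ∑ a, f (a, a) := by
  rw [Fintype.sum_prod_type]
  refine Finset.sum_congr rfl fun a _ => ?_
  simp

theorem KK_row {n : ℕ} (η : ℝ) (p : V n × V n) : ∑ q, KK η p q = RR η p := by
  have hs := (sN_pos n).ne'
  unfold RR
  by_cases hp : p.1 = p.2
  · rw [if_pos hp]
    have h1 : ∀ q : V n × V n, KK η p q = if q.1 = q.2 then Hd p.1 q.1 * Hd p.2 q.2 else 0 := by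
      intro q
      unfold KK
      by_cases hq : q.1 = q.2
      · rw [if_pos hq, DD_diag hp, DD_diag hq, w1_ee, mul_one]
      · rw [if_neg hq, DD_diag hp, DD_off hq, w1_ep η _ (by simp), mul_zero]
    rw [Finset.sum_congr rfl fun q _ => h1 q, sum_diag]
    simp only
    rw [← hp]
    simp only [Hd_sq]
    rw [Finset.sum_const, nsmul_eq_mul, card_V]
    field_simp
  · rw [if_neg hp]
    have h1 : ∀ q : V n × V n, KK η p q =
        η ^ 4 * ((Hd p.1 q.1 * Hd p.1 q.1) * (Hd p.2 q.2 * Hd p.2 q.2) +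
          (Hd p.1 q.1 * Hd p.2 q.1) * (Hd p.1 q.2 * Hd p.2 q.2)) -
        (if q.1 = q.2 then η ^ 4 * ((Hd p.1 q.1 * Hd p.1 q.1) * (Hd p.2 q.2 * Hd p.2 q.2) +
          (Hd p.1 q.1 * Hd p.2 q.1) * (Hd p.1 q.2 * Hd p.2 q.2)) else 0) := by
      intro q
      unfold KK
      by_cases hq : q.1 = q.2
      · rw [if_pos hq, DD_off hp, DD_diag hq, w1_pe η _ (by simp), mul_zero]
        ring
      · rw [if_neg hq, DD_off hp, DD_off hq, w1_pp η hp hq]
        ring
    rw [Finset.sum_congr rfl fun q _ => h1 q, Finset.sum_sub_distrib, sum_diag,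
      ← Finset.mul_sum, ← Finset.mul_sum, Finset.sum_add_distrib, Finset.sum_add_distrib,
      Fintype.sum_prod_type, Fintype.sum_prod_type]
    have h2 : ∑ x : V n, ∑ y : V n, Hd p.1 x * Hd p.1 x * (Hd p.2 y * Hd p.2 y) = 1 := by
      simp only [Hd_sq]
      rw [Finset.sum_const, Finset.sum_const, nsmul_eq_mul, nsmul_eq_mul, card_V]
      field_simp
    have h3 : ∑ x : V n, ∑ y : V n, Hd p.1 x * Hd p.2 x * (Hd p.1 y * Hd p.2 y) = 0 := by
      rw [← Finset.sum_mul_sum, Hd_row, if_neg hp, zero_mul]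
    have h4 : ∑ i : V n, Hd p.1 i * Hd p.1 i * (Hd p.2 i * Hd p.2 i) = 1 / sN n ^ 2 := by
      simp only [Hd_sq]
      rw [Finset.sum_const, nsmul_eq_mul, card_V]
      field_simp
    have h5 : ∑ i : V n, Hd p.1 i * Hd p.2 i * (Hd p.1 i * Hd p.2 i) = 1 / sN n ^ 2 := by
      rw [← h4]
      refine Finset.sum_congr rfl fun i _ => ?_
      ring
    simp only
    rw [h2, h3, h4, h5]
    field_simp
    ring

theorem psi_ch {n r : ℕ} (y : Fin (r + 1) × V n → Bool) :
    psi y (fun _ => false) = (1 / 2 ^ n) * ∑ i : Fin (r + 1) → V n,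
      (∏ l : Fin r, Hd (i l.castSucc) (i l.succ)) * ch (gr i) y := by
  rw [psi_zero_eq]
  simp only [prod_gr]

theorem mm_one {n r : ℕ} (η : ℝ) (S : Finset (Fin (r + 1) × V n)) :
    mm η 1 S = ∏ l : Fin r, w1 η (lev S l.castSucc) (lev S l.succ) := by
  unfold mm
  rw [one_pow, one_mul]

theorem first_moment {n r : ℕ} (η : ℝ) :
    FF η 1 (fun y => psi y (fun _ : Fin n => false)) (∅ : Finset (Fin (r + 1) × V n)) =
      η ^ (2 * r) := by
  have hs := (sN_pos n).ne'
  simp only [psi_ch]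
  rw [FF_smul, FF_sum]
  have h1 : ∀ i : Fin (r + 1) → V n,
      FF η 1 (fun y => (∏ l : Fin r, Hd (i l.castSucc) (i l.succ)) * ch (gr i) y)
        (∅ : Finset (Fin (r + 1) × V n)) =
      (fun _ => (1 : ℝ)) (i 0) *
        ∏ l : Fin r, (Hd (i l.castSucc) (i l.succ) * (η ^ 2 * Hd (i l.castSucc) (i l.succ))) := by
    intro i
    rw [FF_smul, FF_ch, mm_one]
    simp only [lev_gr, w1_ss]
    rw [← Finset.prod_mul_distrib, one_mul]
  have h2 := path_sum (fun a b : V n => Hd a b * (η ^ 2 * Hd a b)) (fun _ => η ^ 2)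
    (fun p => by
      have : ∀ q : V n, Hd p q * (η ^ 2 * Hd p q) = η ^ 2 * (1 / sN n ^ 2) := by
        intro q
        rw [← Hd_sq p q]
        ring
      simp only [this]
      rw [Finset.sum_const, nsmul_eq_mul, card_V]
      field_simp) (fun _ _ _ => rfl) r (fun _ => (1 : ℝ))
  rw [Finset.sum_congr rfl fun i _ => h1 i, h2]
  simp only [one_mul]
  rw [Finset.sum_const, nsmul_eq_mul, card_V, ← sN_sq, ← pow_mul]
  field_simp

theorem second_moment_eq {n r : ℕ} (η : ℝ) :
    FF η 1 (fun y => psi y (fun _ : Fin n => false) * psi y (fun _ : Fin n => false))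
      (∅ : Finset (Fin (r + 1) × V n)) =
      (1 / 2 ^ n) * (1 / 2 ^ n) * ∑ p : V n × V n, RR η p ^ r := by
  have e1 : (fun y : Fin (r + 1) × V n → Bool =>
      psi y (fun _ : Fin n => false) * psi y (fun _ : Fin n => false)) =
      fun y => ((1 / 2 ^ n) * (1 / 2 ^ n)) *
        ∑ ij : (Fin (r + 1) → V n) × (Fin (r + 1) → V n),
          ((∏ l : Fin r, (Hd (ij.1 l.castSucc) (ij.1 l.succ) *
            Hd (ij.2 l.castSucc) (ij.2 l.succ))) *
            ch (symmDiff (gr ij.1) (gr ij.2)) y) := by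
    funext y
    rw [psi_ch, mul_mul_mul_comm, Finset.sum_mul_sum, Fintype.sum_prod_type]
    congr 1
    refine Finset.sum_congr rfl fun i _ => Finset.sum_congr rfl fun j _ => ?_
    simp only
    rw [← ch_mul, Finset.prod_mul_distrib]
    ring
  rw [e1, FF_smul, FF_sum]
  congr 1
  have h1 : ∀ ij : (Fin (r + 1) → V n) × (Fin (r + 1) → V n),
      FF η 1 (fun y => (∏ l : Fin r, (Hd (ij.1 l.castSucc) (ij.1 l.succ) *
            Hd (ij.2 l.castSucc) (ij.2 l.succ))) * ch (symmDiff (gr ij.1) (gr ij.2)) y)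
        (∅ : Finset (Fin (r + 1) × V n)) =
      (fun p : Fin (r + 1) → V n × V n => (fun _ => (1 : ℝ)) (p 0) *
        ∏ l : Fin r, KK η (p l.castSucc) (p l.succ))
        ((Equiv.arrowProdEquivProdArrow (Fin (r + 1)) (fun _ => V n) (fun _ => V n)).symm ij) := by
    intro ij
    rw [FF_smul, FF_ch, mm_one]
    simp only [lev_symm]
    rw [← Finset.prod_mul_distrib, one_mul]
    rfl
  rw [Finset.sum_congr rfl fun ij _ => h1 ij]
  rw [(Equiv.arrowProdEquivProdArrow (Fin (r + 1)) (fun _ => V n) (fun _ => V n)).symm.sum_comp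
    (fun p : Fin (r + 1) → V n × V n => (fun _ => (1 : ℝ)) (p 0) *
        ∏ l : Fin r, KK η (p l.castSucc) (p l.succ))]
  rw [path_sum (KK η) (RR η) (KK_row η) (KK_class η) r (fun _ => (1 : ℝ))]
  simp only [one_mul]

theorem sum_RR_le {n r : ℕ} (η : ℝ) :
    ∑ p : V n × V n, RR η p ^ r ≤ 2 ^ n + (η ^ (2 * r)) ^ 2 * (2 ^ n * 2 ^ n) := by
  have hN : sN n ^ 2 = 2 ^ n := sN_sq n
  have hN1 : (1 : ℝ) ≤ 2 ^ n := one_le_pow₀ (by norm_num)
  have h0 : (0 : ℝ) ≤ (η ^ (2 * r)) ^ 2 := sq_nonneg _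
  -- pointwise bound
  have h1 : ∀ p : V n × V n, RR η p ^ r ≤ (if p.1 = p.2 then 1 else 0) + (η ^ (2 * r)) ^ 2 := by
    intro p
    unfold RR
    by_cases hp : p.1 = p.2
    · rw [if_pos hp, if_pos hp, one_pow]
      linarith
    · rw [if_neg hp, if_neg hp, zero_add, mul_pow]
      have hn : n ≠ 0 := by
        rintro rfl
        exact hp (Subsingleton.elim _ _)
      have h2 : (2 : ℝ) ≤ sN n ^ 2 := by
        rw [hN]
        calc (2 : ℝ) = 2 ^ 1 := by norm_num
          _ ≤ 2 ^ n := pow_le_pow_right₀ (by norm_num) (Nat.one_le_iff_ne_zero.mpr hn)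
      have h3 : ((sN n ^ 2 - 2) / sN n ^ 2) ^ r ≤ 1 := by
        refine pow_le_one₀ (div_nonneg (by linarith) (by linarith)) ?_
        rw [div_le_one (by linarith)]
        linarith
      have h4 : (η ^ 4) ^ r = (η ^ (2 * r)) ^ 2 := by
        rw [← pow_mul, ← pow_mul]
        congr 1
        ring
      rw [h4]
      calc _ ≤ (η ^ (2 * r)) ^ 2 * 1 := mul_le_mul_of_nonneg_left h3 h0
        _ = _ := mul_one _
  refine (Finset.sum_le_sum fun p _ => h1 p).trans ?_
  rw [Finset.sum_add_distrib, sum_diag (fun _ => (1 : ℝ)), Finset.sum_const, Finset.sum_const,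
    nsmul_eq_mul, nsmul_eq_mul, card_V, ← Finset.univ_product_univ, Finset.card_product]
  push_cast
  rw [card_V, hN]
  apply le_of_eq
  ring

end SecM

theorem second_moment {n r : ℕ} (_hr : 1 ≤ r) (η : ℝ) :
    FF η 1 (fun y => (psi y (fun _ : Fin n => false) - η ^ (2 * r)) ^ 2)
      (∅ : Finset (Fin (r + 1) × V n)) ≤ 1 / 2 ^ n := by
  have e1 : (fun y : Fin (r + 1) × V n → Bool =>
      (psi y (fun _ : Fin n => false) - η ^ (2 * r)) ^ 2) =
      fun y => (psi y (fun _ : Fin n => false) * psi y (fun _ : Fin n => false) +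
        (-2 * η ^ (2 * r)) * psi y (fun _ : Fin n => false)) +
        (η ^ (2 * r)) ^ 2 * SecM.ch (∅ : Finset (Fin (r + 1) × V n)) y := by
    funext y
    simp only [SecM.ch, Finset.prod_empty]
    ring
  have e2 : mm η 1 (∅ : Finset (Fin (r + 1) × V n)) = 1 := by
    rw [SecM.mm_one]
    refine Finset.prod_eq_one fun l _ => ?_
    have h1 : ∀ k : Fin (r + 1), lev (∅ : Finset (Fin (r + 1) × V n)) k = ∅ := by
      intro k
      simp [lev]
    rw [h1, h1, SecM.w1_ee]
  rw [e1, SecM.FF_add, SecM.FF_add, SecM.FF_smul, SecM.FF_smul, SecM.FF_ch, e2,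
    SecM.first_moment, SecM.second_moment_eq]
  have h1 := SecM.sum_RR_le (n := n) (r := r) η
  have hN0 : (0 : ℝ) < 2 ^ n := by positivity
  have h2 : 1 / 2 ^ n * (1 / 2 ^ n) * ∑ p : V n × V n, SecM.RR η p ^ r ≤
      1 / 2 ^ n * (1 / 2 ^ n) * (2 ^ n + (η ^ (2 * r)) ^ 2 * (2 ^ n * 2 ^ n)) :=
    mul_le_mul_of_nonneg_left h1 (by positivity)
  have h3 : (1 : ℝ) / 2 ^ n * (1 / 2 ^ n) * (2 ^ n + (η ^ (2 * r)) ^ 2 * (2 ^ n * 2 ^ n)) =
      1 / 2 ^ n + (η ^ (2 * r)) ^ 2 := by
    field_simp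
  rw [h3] at h2
  nlinarith [h2]

end P362
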