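import Vale.Agent.P362.DTFam
import Vale.Agent.P362.SecondMoment

/-!
# P362, module PSIFAM: the sampling state as a query family
-/

namespace P362

open scoped BigOperators Matrix

namespace PsiF

/-- block Hadamard matrix -/
noncomputable def HH (n : ℕ) : Matrix (Fin 4 × V n × V n) (Fin 4 × V n × V n) ℂ :=
  fun s t => if s.1 = t.1 ∧ s.2.1 = t.2.1 then ((Hd s.2.2 t.2.2 : ℝ) : ℂ) else 0

theorem sum_blk {n : ℕ} (c : Fin 4) (p : V n) (f : Fin 4 × V n × V n → ℂ)
    (hf : ∀ t : Fin 4 × V n × V n, ¬ (c = t.1 ∧ p = t.2.1) → f t = 0) :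
    ∑ t, f t = ∑ b, f (c, p, b) := by
  rw [Fintype.sum_prod_type, Finset.sum_eq_single c]
  · rw [Fintype.sum_prod_type, Finset.sum_eq_single p]
    · intro p' _ hp'
      refine Finset.sum_eq_zero fun b _ => hf _ ?_
      rintro ⟨_, h⟩
      exact hp' h.symm
    · intro h
      exact absurd (Finset.mem_univ _) h
  · intro c' _ hc'
    refine Finset.sum_eq_zero fun b _ => hf _ ?_
    rintro ⟨h, _⟩
    exact hc' h.symm
  · intro h
    exact absurd (Finset.mem_univ _) h

theorem HH_mulVec {n : ℕ} (v : Fin 4 × V n × V n → ℂ) (c : Fin 4) (p a : V n) :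
    (HH n *ᵥ v) (c, p, a) = ∑ b, ((Hd a b : ℝ) : ℂ) * v (c, p, b) := by
  unfold Matrix.mulVec dotProduct
  rw [sum_blk c p]
  · refine Finset.sum_congr rfl fun b _ => ?_
    simp [HH]
  · intro t ht
    simp only [HH]
    rw [if_neg ht, zero_mul]

theorem HH_unitary (n : ℕ) : HH n ∈ Matrix.unitaryGroup (Fin 4 × V n × V n) ℂ := by
  rw [Matrix.mem_unitaryGroup_iff]
  ext ⟨c, p, a⟩ ⟨c', p', a'⟩
  rw [Matrix.mul_apply, sum_blk c p]
  · simp only [Matrix.star_apply, HH, true_and]
    by_cases h : c = c' ∧ p = p'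
    · obtain ⟨rfl, rfl⟩ := h
      simp only [and_self, if_true, Complex.star_def, Complex.conj_ofReal]
      have h1 := Hd_orth' a a'
      have h2 : (∑ b, ((Hd a b : ℝ) : ℂ) * ((Hd a' b : ℝ) : ℂ)) =
          ((∑ b, Hd a b * Hd a' b : ℝ) : ℂ) := by push_cast; rfl
      rw [h2, h1, Matrix.one_apply]
      by_cases ha : a = a'
      · simp [ha]
      · simp [ha]
    · have h' : ¬ (c' = c ∧ p' = p) := fun hh => h ⟨hh.1.symm, hh.2.symm⟩
      simp only [if_neg h', star_zero, mul_zero, Finset.sum_const_zero]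
      rw [Matrix.one_apply_ne]
      intro hh
      simp only [Prod.mk.injEq] at hh
      exact h ⟨hh.1, hh.2.1⟩
  · intro t ht
    simp only [HH]
    rw [if_neg ht, zero_mul]

/-- the tree reading one bit -/
def bitTree {ι : Type} (i : ι) : DTree ι Bool := DTree.node i (DTree.leaf false) (DTree.leaf true)

theorem bitTree_eval {ι : Type} (i : ι) (x : ι → Bool) : (bitTree i).eval x = x i := by
  cases h : x i <;> simp [bitTree, DTree.eval, h]

theorem bitTree_depth {ι : Type} (i : ι) : (bitTree i).depth ≤ 1 := by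
  simp [bitTree, DTree.depth]

/-- the diagonal of level `l` -/
noncomputable def DL {n r : ℕ} (l : Fin (r + 1)) (x : Idx n r → Bool) :
    Matrix (Fin 4 × V n × V n) (Fin 4 × V n × V n) ℂ :=
  Matrix.diagonal fun s => if x (.data s.2.1 l s.2.2) then (-1 : ℂ) else 1

theorem DL_fam {n r : ℕ} (l : Fin (r + 1)) :
    QFam (2 * 1) (Fin 4 × V n × V n) (fun x : Idx n r → Bool => DL l x) := by
  have : Nonempty (Idx n r) := ⟨Idx.data (fun _ => false) 0 (fun _ => false)⟩
  have h := QFam.dt_diag (ι := Idx n r)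
    (fun s : Fin 4 × V n × V n => bitTree (Idx.data s.2.1 l s.2.2)) 1
    (fun s => bitTree_depth _) (fun b => if b then (-1 : ℂ) else 1)
    (fun b => by cases b <;> simp)
  refine h.congr fun x => ?_
  unfold DL
  congr 1
  ext s
  rw [bitTree_eval]

theorem DL_unitary {n r : ℕ} (l : Fin (r + 1)) (x : Idx n r → Bool) :
    DL l x ∈ Matrix.unitaryGroup (Fin 4 × V n × V n) ℂ := by
  rw [Matrix.mem_unitaryGroup_iff, Matrix.star_eq_conjTranspose]
  unfold DL
  rw [Matrix.diagonal_conjTranspose, Matrix.diagonal_mul_diagonal, ← Matrix.diagonal_one]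
  congr 1
  ext s
  rw [Pi.star_apply]
  split_ifs <;> simp

theorem chain_fam (n r : ℕ) : ∀ k : ℕ, k ≤ r + 1 →
    ∃ M : (Idx n r → Bool) → Matrix (Fin 4 × V n × V n) (Fin 4 × V n × V n) ℂ,
      QFam (2 * k) (Fin 4 × V n × V n) M ∧
      (∀ x, M x ∈ Matrix.unitaryGroup (Fin 4 × V n × V n) ℂ) ∧
      ∀ x (z : ℂ) c p a, (M x *ᵥ fun _ => z) (c, p, a) =
        z * ((lay (blk x p) k a / sN n ^ k : ℝ) : ℂ) := by
  intro k
  induction k with
  | zero =>
      intro _
      refine ⟨fun _ => 1, QFam.const IsContr.one, fun x => one_mem _, fun x z c p a => ?_⟩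
      rw [Matrix.one_mulVec]
      simp [lay]
  | succ k ih =>
      intro hk
      obtain ⟨M, h1, h2, h3⟩ := ih (Nat.le_of_succ_le hk)
      have hk' : k < r + 1 := hk
      refine ⟨fun x => HH n * (DL ⟨k, hk'⟩ x * M x), ?_, ?_, ?_⟩
      · have h4 := (QFam.const (ι := Idx n r) (IsContr.of_unitary (HH_unitary n))).mul
          ((DL_fam (n := n) (r := r) ⟨k, hk'⟩).mul h1)
        have e : 0 + (2 * 1 + 2 * k) = 2 * (k + 1) := by ring
        rw [e] at h4
        exact h4
      · intro x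
        exact mul_mem (HH_unitary n) (mul_mem (DL_unitary _ x) (h2 x))
      · intro x z c p a
        rw [← Matrix.mulVec_mulVec, HH_mulVec]
        have h5 : ∀ b, ((DL ⟨k, hk'⟩ x * M x) *ᵥ fun _ => z) (c, p, b) =
            (if x (.data p ⟨k, hk'⟩ b) then (-1 : ℂ) else 1) *
              (z * ((lay (blk x p) k b / sN n ^ k : ℝ) : ℂ)) := by
          intro b
          rw [← Matrix.mulVec_mulVec, DL, Matrix.mulVec_diagonal, h3]
        simp only [h5]
        have h6 := SecM.lay_succ (blk x p) k hk' a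
        rw [h6, Finset.sum_div]
        push_cast
        rw [Finset.mul_sum]
        refine Finset.sum_congr rfl fun b _ => ?_
        unfold Hd
        have hs : (sN n : ℂ) ≠ 0 := by
          exact_mod_cast (SecM.sN_pos n).ne'
        have h7 : sR (blk x p (⟨k, hk'⟩, b)) = sR (x (Idx.data p ⟨k, hk'⟩ b)) := rfl
        rw [h7]
        unfold sR
        cases x (Idx.data p ⟨k, hk'⟩ b)
        · simp only [Bool.false_eq_true, if_false]
          push_cast
          field_simp
          ring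
        · simp only [if_true]
          push_cast
          field_simp
          ring

end PsiF

theorem psiFam (n r : ℕ) :
    ∃ M : (Idx n r → Bool) → Matrix (Fin 4 × V n × V n) (Fin 4 × V n × V n) ℂ,
      QFam (2 * (r + 1)) (Fin 4 × V n × V n) M ∧
      (∀ x, M x ∈ Matrix.unitaryGroup (Fin 4 × V n × V n) ℂ) ∧
      ∀ x c p a, (M x *ᵥ fun _ => ((1 / (2 * 2 ^ n) : ℝ) : ℂ)) (c, p, a) =
        ((psi (blk x p) a / (2 * sN n) : ℝ) : ℂ) := by
  obtain ⟨M, h1, h2, h3⟩ := PsiF.chain_fam n r (r + 1) le_rfl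
  refine ⟨M, h1, h2, fun x c p a => ?_⟩
  rw [h3, ← Complex.ofReal_mul]
  congr 1
  unfold psi
  have h4 := (SecM.sN_pos n).ne'
  have h5 : (2 : ℝ) ^ n = sN n ^ 2 := (SecM.sN_sq n).symm
  rw [h5]
  field_simp
  ring

end P362
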