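import Vale.Agent.P362.Realize

/-!
# P362, module REALIZE2: final states as vector families, repetition, and quantum algorithms from
acceptance families
-/

namespace P362

open scoped BigOperators Matrix

variable {ι : Type} [Fintype ι] [DecidableEq ι]

private theorem rpt_unitary_norm {α : Type} [Fintype α] [DecidableEq α] {U : Matrix α α ℂ}
    (hU : U ∈ Matrix.unitaryGroup α ℂ) (v : α → ℂ) :
    ∑ a, ‖(U *ᵥ v) a‖ ^ 2 = ∑ a, ‖v a‖ ^ 2 := by
  have key : ∀ w : α → ℂ, ((∑ a, ‖w a‖ ^ 2 : ℝ) : ℂ) = star w ⬝ᵥ w := by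
    intro w
    rw [Complex.ofReal_sum]
    refine Finset.sum_congr rfl fun a _ => ?_
    rw [Complex.ofReal_pow, ← Complex.conj_mul']
    rfl
  apply Complex.ofReal_injective
  rw [key, key, Matrix.star_mulVec, Matrix.dotProduct_mulVec, Matrix.vecMul_vecMul]
  have h1 : Uᴴ * U = 1 := (Matrix.mem_unitaryGroup_iff').1 hU
  rw [h1, Matrix.vecMul_one]

private theorem rpt_oracle_apply {Z : Type} [Fintype Z] [DecidableEq Z] (x : ι → Bool)
    (v : ι × Bool × Z → ℂ) (s : ι × Bool × Z) :
    (oracle x *ᵥ v) s = v (s.1, xor s.2.1 (x s.1), s.2.2) := by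
  obtain ⟨i, b, z⟩ := s
  simp only [Matrix.mulVec, dotProduct]
  rw [Finset.sum_eq_single (i, xor b (x i), z)]
  · simp [oracle]
  · rintro ⟨i', b', z'⟩ _ hne
    have : oracle x (i, b, z) (i', b', z') = (0 : ℂ) := by
      unfold oracle
      rw [if_neg]
      intro h
      apply hne
      simp only [Prod.mk.injEq] at h
      obtain ⟨rfl, h2, rfl⟩ := h
      rw [h2]
      simp
    rw [this, zero_mul]
  · intro h
    exact absurd (Finset.mem_univ _) h

private theorem rpt_oracle_norm {Z : Type} [Fintype Z] [DecidableEq Z] (x : ι → Bool)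
    (v : ι × Bool × Z → ℂ) :
    ∑ s, ‖(oracle x *ᵥ v) s‖ ^ 2 = ∑ s, ‖v s‖ ^ 2 := by
  simp only [rpt_oracle_apply]
  let e : ι × Bool × Z ≃ ι × Bool × Z :=
    { toFun := fun s => (s.1, xor s.2.1 (x s.1), s.2.2)
      invFun := fun s => (s.1, xor s.2.1 (x s.1), s.2.2)
      left_inv := by
        rintro ⟨i, b, z⟩
        simp
      right_inv := by
        rintro ⟨i, b, z⟩
        simp }
  exact Equiv.sum_comp e (fun s => ‖v s‖ ^ 2)

theorem QAlg.norm_state (A : QAlg ι) (q : ℕ) (x : ι → Bool) : ∑ s, ‖A.state x q s‖ ^ 2 = 1 := by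
  induction q with
  | zero =>
    show ∑ s, ‖(A.U 0 *ᵥ Pi.single A.init 1) s‖ ^ 2 = 1
    rw [rpt_unitary_norm (A.U_unitary 0), Finset.sum_eq_single A.init]
    · simp
    · intro s _ hs
      rw [Pi.single_eq_of_ne hs]
      simp
    · intro h
      exact absurd (Finset.mem_univ _) h
  | succ q ih =>
    show ∑ s, ‖(A.U (q + 1) *ᵥ (oracle x *ᵥ A.state x q)) s‖ ^ 2 = 1
    rw [rpt_unitary_norm (A.U_unitary (q + 1)), rpt_oracle_norm]
    exact ih

/-- the full final state of a genuine algorithm is a vector family of norm one -/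
theorem QAlg.qvec_state (A : QAlg ι) (q : ℕ) : QVec q (fun x s => A.state x q s) := by
  induction q with
  | zero =>
    refine ⟨Matrix.of fun s (_ : Unit) => (A.U 0 *ᵥ Pi.single A.init 1) s, ?_, fun x => rfl⟩
    apply IsContr.col
    rw [rpt_unitary_norm (A.U_unitary 0), Finset.sum_eq_single A.init]
    · simp
    · intro s _ hs
      rw [Pi.single_eq_of_ne hs]
      simp
    · intro h
      exact absurd (Finset.mem_univ _) h
  | succ q ih =>
    refine ⟨A.Z, inferInstance, inferInstance, A.U (q + 1),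
      fun x => Matrix.of fun s (_ : Unit) => A.state x q s,
      IsContr.of_unitary (A.U_unitary (q + 1)), ih, fun x => ?_⟩
    ext s u
    rfl

private theorem rpt_samp (A : QAlg ι) (q : ℕ) :
    Samp q (fun x (s : ι × Bool × A.Z) => ‖A.state x q s‖ ^ 2) := by
  refine ⟨Unit, inferInstance, fun x s => A.state x q s.2, ?_, fun x c => by simp⟩
  let P : Matrix (Unit × (ι × Bool × A.Z)) (ι × Bool × A.Z) ℂ :=
    Matrix.of fun s t => if s.2 = t then 1 else 0
  have hPv : ∀ (v : ι × Bool × A.Z → ℂ) s, (P *ᵥ v) s = v s.2 := by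
    intro v s
    simp [P, Matrix.mulVec, dotProduct]
  have hP : IsContr P := by
    intro v
    simp only [hPv]
    rw [Fintype.sum_prod_type]
    simp
  have h := QFam.mul (QFam.const (ι := ι) hP) (A.qvec_state q)
  rw [zero_add] at h
  have e : (fun x => P * Matrix.of fun s (_ : Unit) => A.state x q s) =
      fun x => Matrix.of fun (s : Unit × (ι × Bool × A.Z)) (_ : Unit) => A.state x q s.2 := by
    funext x
    ext s u
    have := hPv (fun t => A.state x q t) s
    simpa [Matrix.mul_apply, Matrix.mulVec, dotProduct] using this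
  rw [e] at h
  exact h

/-- repeat `T` times, accept if some repetition accepts -/
theorem AccFam.repeat [Nonempty ι] {q : ℕ} {p : (ι → Bool) → ℝ} (h : AccFam q p) (T : ℕ) :
    AccFam (T * q) (fun x => 1 - (1 - p x) ^ T) := by
  classical
  obtain ⟨A, hA⟩ := realize h
  induction T with
  | zero =>
    rw [zero_mul]
    exact (AccFam.const (ι := ι) 0 le_rfl zero_le_one).congr fun x => by simp
  | succ T ih =>
    have h1 : AccFam (T * q) (fun _ : ι → Bool => (1 : ℝ)) :=
      (AccFam.const (ι := ι) 1 zero_le_one le_rfl).mono (Nat.zero_le _)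
    have h2 := Samp.bind (rpt_samp A q)
      (p := fun s x => if s ∈ A.acc then (1 : ℝ) else 1 - (1 - p x) ^ T) (q' := T * q) (by
        intro c
        by_cases hc : c ∈ A.acc
        · simpa [hc] using h1
        · simpa [hc] using ih)
    have e : q + T * q = (T + 1) * q := by ring
    rw [e] at h2
    refine h2.congr fun x => ?_
    have hn := A.norm_state q x
    have ha : ∑ s, (if s ∈ A.acc then ‖A.state x q s‖ ^ 2 else 0) = p x := by
      rw [← hA x]
      unfold QAlg.acceptProb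
      rw [← Finset.sum_filter]
      refine Finset.sum_congr ?_ fun _ _ => rfl
      ext s
      simp
    have hsplit : ∀ s, ‖A.state x q s‖ ^ 2 * (if s ∈ A.acc then (1 : ℝ) else 1 - (1 - p x) ^ T) =
        (1 - (1 - p x) ^ T) * ‖A.state x q s‖ ^ 2 +
          (1 - p x) ^ T * (if s ∈ A.acc then ‖A.state x q s‖ ^ 2 else 0) := by
      intro s
      split_ifs <;> ring
    rw [Finset.sum_congr rfl fun s _ => hsplit s, Finset.sum_add_distrib, ← Finset.mul_sum,
      ← Finset.mul_sum, hn, ha]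
    ring

theorem quant_of_acc [Nonempty ι] {q : ℕ} {p : (ι → Bool) → ℝ} (h : AccFam q p) {p1 : ℝ}
    (hp0 : 0 < p1) (hp1 : p1 ≤ 1) {f : (ι → Bool) → Bool}
    (hyes : ∀ x, f x = true → p1 ≤ p x) (hno : ∀ x, f x = false → p x ≤ p1 / 100) :
    QuantComputes (⌈2 / p1⌉₊ * q) f := by
  classical
  obtain ⟨A, hA⟩ := realize (h.repeat ⌈2 / p1⌉₊)
  have hp01 : ∀ x, 0 ≤ p x ∧ p x ≤ 1 := by
    intro x
    obtain ⟨B, hB⟩ := realize h
    rw [← hB x]
    unfold QAlg.acceptProb
    refine ⟨Finset.sum_nonneg fun _ _ => by positivity, ?_⟩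
    rw [← B.norm_state q x]
    exact Finset.sum_le_sum_of_subset_of_nonneg (Finset.subset_univ _) fun _ _ _ => by positivity
  set T : ℕ := ⌈2 / p1⌉₊ with hT
  have hT1 : 2 / p1 ≤ T := Nat.le_ceil _
  have hT2 : (T : ℝ) < 2 / p1 + 1 := Nat.ceil_lt_add_one (by positivity)
  refine ⟨A, fun x => ⟨fun hf => ?_, fun hf => ?_⟩⟩
  · rw [hA x]
    have h1 : (1 - p x) ^ T ≤ (1 - p1) ^ T :=
      pow_le_pow_left₀ (by linarith [(hp01 x).2]) (by linarith [hyes x hf]) T
    have h2 : (1 - p1) ^ T ≤ Real.exp (-p1) ^ T :=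
      pow_le_pow_left₀ (by linarith) (by linarith [Real.add_one_le_exp (-p1)]) T
    have h3 : Real.exp (-p1) ^ T = Real.exp (-(p1 * T)) := by
      rw [← Real.exp_nat_mul]
      congr 1
      ring
    have h4 : 2 ≤ p1 * T := by
      rw [div_le_iff₀ hp0] at hT1
      linarith
    have h5 : Real.exp (-(p1 * T)) ≤ 1 / 3 := by
      have h6 : Real.exp (-(p1 * T)) ≤ Real.exp (-2) := Real.exp_le_exp.2 (by linarith)
      have h7 : (3 : ℝ) ≤ Real.exp 2 := by
        have := Real.add_one_le_exp (2 : ℝ)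
        linarith
      have h8 : Real.exp (-2) ≤ 1 / 3 := by
        rw [Real.exp_neg, ← one_div]
        exact one_div_le_one_div_of_le (by norm_num) h7
      linarith
    show (2 : ℝ) / 3 ≤ 1 - (1 - p x) ^ T
    linarith [h3 ▸ h2]
  · rw [hA x]
    have hp := hno x hf
    have h1 : 1 + (T : ℝ) * (-p x) ≤ (1 + (-p x)) ^ T :=
      one_add_mul_le_pow (by linarith [(hp01 x).2]) T
    have h2 : (T : ℝ) * p x ≤ 3 / 100 := by
      have h3 : (T : ℝ) * p x ≤ (2 / p1 + 1) * (p1 / 100) :=
        mul_le_mul hT2.le hp (hp01 x).1 (by positivity)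
      have h4 : (2 / p1 + 1) * (p1 / 100) = (2 + p1) / 100 := by
        field_simp
      rw [h4] at h3
      linarith
    have h5 : (1 + (-p x)) ^ T = (1 - p x) ^ T := by ring
    show 1 - (1 - p x) ^ T ≤ (1 : ℝ) / 3
    rw [h5] at h1
    linarith

end P362
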