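import Vale.Agent.P362.Tourn
import Vale.Agent.P362.PsiFam
import Vale.Agent.P362.AmpSample
import Vale.Agent.P362.Repeat
import Vale.Agent.P362.Transcript

/-!
# P362, module QANALYSIS: the quantum algorithm of section 2
-/

namespace P362

open scoped BigOperators Matrix

/-- number of iterations in the sampling stage -/
noncomputable def Jn (n : ℕ) (δ : ℝ) : ℕ := ⌈2 * sN n / δ⌉₊

/-- cost of one sampling stage (with at most `6 n` references) -/
noncomputable def sampleCost (n r : ℕ) (δ : ℝ) : ℕ :=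
  2 * (r + 1) + Jn n δ * (2 * (2 * (r + 1)) + 2 * (6 * n * (2 * n + 2)))

/-- number of iterations in the checking stage -/
noncomputable def Jc (n r : ℕ) : ℕ := ⌈2 * Real.sqrt (Fintype.card (Chk n r))⌉₊

/-- number of repetitions of the check -/
noncomputable def rep (δ : ℝ) : ℕ := ⌈4 * Real.log (800 / δ ^ 2)⌉₊

/-- cost of the checking stage -/
noncomputable def checkCost (n r : ℕ) (δ : ℝ) : ℕ :=
  rep δ * (Jc n r * (2 * cdepth n r) + cdepth n r)

/-- total cost -/
noncomputable def qcost (n r : ℕ) (δ : ℝ) : ℕ :=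
  ⌈2 / (δ ^ 2 / 8)⌉₊ * ((6 * n + 1) * sampleCost n r δ + checkCost n r δ)

instance Idx.instNonempty (n r : ℕ) : Nonempty (Idx n r) :=
  ⟨.flag (fun _ => false) (fun _ => false)⟩

/-! ### powers of an acceptance family -/

private theorem qa_pow {ι : Type} [Fintype ι] [DecidableEq ι] {q : ℕ} {p : (ι → Bool) → ℝ}
    (h : AccFam q p) (k : ℕ) : AccFam (k * q) (fun x => p x ^ k) := by
  induction k with
  | zero =>
    rw [zero_mul]
    exact (AccFam.const (ι := ι) 1 zero_le_one le_rfl).congr fun x => by simp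
  | succ k ih =>
    have h1 := ih.mul h
    have e : k * q + q = (k + 1) * q := by ring
    rw [e] at h1
    exact h1.congr fun x => by rw [pow_succ]

/-- one round of the check -/
private theorem qa_round {n r : ℕ} (δ : ℝ) (P : V n × V n) :
    ∃ p : (Idx n r → Bool) → ℝ,
      AccFam (Jc n r * (2 * cdepth n r) + cdepth n r) p ∧
      (∀ x, valid δ x P.1 P.2 → p x = 1) ∧ (∀ x, 0 ≤ p x) ∧
      ∀ x, ¬ valid δ x P.1 P.2 → p x ≤ 3 / 4 := by
  classical
  choose T hTd hT using fun c : Chk n r => chk_tree (n := n) (r := r) δ P.1 P.2 c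
  set K : ℕ := Fintype.card (Chk n r) with hK
  have hKpos : 0 < K := Fintype.card_pos_iff.2 ⟨Chk.fin⟩
  have hKpos' : (0 : ℝ) < K := by exact_mod_cast hKpos
  -- the negated trees
  let neg : DTree (Idx n r) Bool → DTree (Idx n r) Bool := fun t =>
    DTree.rec (motive := fun _ => DTree (Idx n r) Bool) (fun a => .leaf (!a))
      (fun i _ _ t0 t1 => .node i t0 t1) t
  have hneg : ∀ t x, (neg t).eval x = !(t.eval x) := by
    intro t x
    induction t with
    | leaf a => rfl
    | node i t0 t1 h0 h1 =>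
      show (if x i then (neg t1).eval x else (neg t0).eval x) = !(if x i then t1.eval x else t0.eval x)
      rw [h0, h1]
      split_ifs <;> rfl
  have hnegd : ∀ t, (neg t).depth = t.depth := by
    intro t
    induction t with
    | leaf a => rfl
    | node i t0 t1 h0 h1 =>
      show max (neg t0).depth (neg t1).depth + 1 = max t0.depth t1.depth + 1
      rw [h0, h1]
  let S : Fin 4 × Chk n r → DTree (Idx n r) Bool := fun c =>
    if c.1 = 0 then neg (T c.2) else .leaf false
  have hSd : ∀ c, (S c).depth ≤ cdepth n r := by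
    intro c
    by_cases hc : c.1 = 0
    · simp only [S, if_pos hc]
      rw [hnegd]
      exact hTd c.2
    · simp only [S, if_neg hc]
      exact Nat.zero_le _
  have hS : ∀ c x, (S c).eval x = (decide (c.1 = 0) && !decide (chkOK δ x P.1 P.2 c.2)) := by
    intro c x
    by_cases hc : c.1 = 0
    · simp only [S, if_pos hc]
      rw [hneg, hT c.2 x]
      simp [hc]
    · simp only [S, if_neg hc]
      simp [hc, DTree.eval]
  let s0 : Fin 4 × Chk n r → ℂ := fun _ => ((1 / (2 * Real.sqrt K) : ℝ) : ℂ)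
  have hsq : (1 / (2 * Real.sqrt K)) ^ 2 = 1 / (4 * (K : ℝ)) := by
    rw [div_pow, mul_pow, Real.sq_sqrt hKpos'.le]
    norm_num
  have hs0n : ∀ c, ‖s0 c‖ ^ 2 = 1 / (4 * (K : ℝ)) := by
    intro c
    show ‖((1 / (2 * Real.sqrt K) : ℝ) : ℂ)‖ ^ 2 = _
    rw [Complex.norm_real, Real.norm_eq_abs, sq_abs, hsq]
  have hs0 : ∑ c, ‖s0 c‖ ^ 2 = 1 := by
    simp only [hs0n]
    rw [Finset.sum_const, Finset.card_univ, Fintype.card_prod, Fintype.card_fin, nsmul_eq_mul]
    push_cast
    rw [← hK]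
    field_simp
  have hJ1 : 1 ≤ Jc n r := by
    unfold Jc
    rw [Nat.one_le_ceil_iff]
    have : 0 < Real.sqrt (Fintype.card (Chk n r)) := Real.sqrt_pos.2 hKpos'
    positivity
  obtain ⟨pr, hpr, hpr0, hpr1, hpr2⟩ := ampSample (ι := Idx n r) (γ := Fin 4 × Chk n r) (qM := 0)
    (fun _ => 1) (QFam.const (IsContr.of_unitary (Submonoid.one_mem _)))
    (fun _ => Submonoid.one_mem _) s0 hs0 S (cdepth n r) hSd (Jc n r) hJ1
  have hb := hpr.bind (p := fun c x => if (S c).eval x then (0 : ℝ) else 1) (q' := cdepth n r) (by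
    intro c
    have h1 := AccFam.dt (neg (S c)) (cdepth n r) (by rw [hnegd]; exact hSd c)
    refine h1.congr fun x => ?_
    rw [hneg]
    cases (S c).eval x <;> simp)
  have e : 0 + Jc n r * (2 * 0 + 2 * cdepth n r) + cdepth n r =
      Jc n r * (2 * cdepth n r) + cdepth n r := by ring
  rw [e] at hb
  refine ⟨_, hb, fun x hx => ?_, fun x => ?_, fun x hx => ?_⟩
  · refine (Finset.sum_congr rfl fun c _ => ?_).trans (hpr1 x)
    have : (S c).eval x = false := by
      rw [hS]
      have := hx c.2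
      simp [this]
    rw [this]
    simp
  · refine Finset.sum_nonneg fun c _ => mul_nonneg (hpr0 x c) ?_
    split_ifs <;> norm_num
  · -- some check is violated
    have hx' : ∃ c0 : Chk n r, ¬ chkOK δ x P.1 P.2 c0 := by
      by_contra h
      exact hx fun c => by
        by_contra h2
        exact h ⟨c, h2⟩
    obtain ⟨c0, hc0⟩ := hx'
    set W : ℝ := ∑ c, if (S c).eval x then ‖((1 : Matrix _ _ ℂ) *ᵥ s0) c‖ ^ 2 else 0 with hW
    have hterm : ∀ c, (if (S c).eval x then ‖((1 : Matrix _ _ ℂ) *ᵥ s0) c‖ ^ 2 else 0) =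
        if (S c).eval x then 1 / (4 * (K : ℝ)) else 0 := by
      intro c
      rw [Matrix.one_mulVec, hs0n c]
    have hWlow : 1 / (4 * (K : ℝ)) ≤ W := by
      rw [hW, Finset.sum_congr rfl fun c _ => hterm c]
      have h1 : (S ((0 : Fin 4), c0)).eval x = true := by
        rw [hS]
        simp [hc0]
      have h2 := Finset.single_le_sum (f := fun c => if (S c).eval x then 1 / (4 * (K : ℝ)) else 0)
        (fun c _ => by split_ifs <;> positivity) (Finset.mem_univ ((0 : Fin 4), c0))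
      simp only [h1, if_true] at h2
      exact h2
    have hWup : W ≤ 1 / 4 := by
      rw [hW, Finset.sum_congr rfl fun c _ => hterm c, Fintype.sum_prod_type]
      have h1 : ∀ a : Fin 4, (∑ b : Chk n r, if (S (a, b)).eval x then 1 / (4 * (K : ℝ)) else 0) ≤
          if a = 0 then 1 / 4 else 0 := by
        intro a
        by_cases ha : a = 0
        · rw [if_pos ha]
          calc (∑ b : Chk n r, if (S (a, b)).eval x then 1 / (4 * (K : ℝ)) else 0)
              ≤ ∑ b : Chk n r, 1 / (4 * (K : ℝ)) := by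
                refine Finset.sum_le_sum fun b _ => ?_
                split_ifs
                · exact le_rfl
                · positivity
            _ = 1 / 4 := by
                rw [Finset.sum_const, Finset.card_univ, nsmul_eq_mul, ← hK]
                field_simp
        · rw [if_neg ha]
          refine le_of_eq (Finset.sum_eq_zero fun b _ => ?_)
          have : (S (a, b)).eval x = false := by
            rw [hS]
            simp [ha]
          rw [this]
          simp
      calc _ ≤ ∑ a : Fin 4, (if a = 0 then (1 : ℝ) / 4 else 0) := Finset.sum_le_sum fun a _ => h1 a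
        _ = 1 / 4 := by simp
    have hWpos : 0 < W := lt_of_lt_of_le (by positivity) hWlow
    have hJW : 1 ≤ (Jc n r : ℝ) ^ 2 * W := by
      have h1 : 2 * Real.sqrt K ≤ Jc n r := Nat.le_ceil _
      have h2 : (2 * Real.sqrt K) ^ 2 ≤ (Jc n r : ℝ) ^ 2 :=
        pow_le_pow_left₀ (by positivity) h1 2
      have h3 : (2 * Real.sqrt K) ^ 2 = 4 * (K : ℝ) := by
        rw [mul_pow, Real.sq_sqrt hKpos'.le]
        norm_num
      rw [h3] at h2
      calc (1 : ℝ) = 4 * K * (1 / (4 * K)) := by field_simp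
        _ ≤ (Jc n r : ℝ) ^ 2 * W := mul_le_mul h2 hWlow (by positivity) (by positivity)
    obtain ⟨σ, hσ1, hσ2, hσ3⟩ := hpr2 x W hW hWpos hWup hJW
    have hbad : ∑ c, (if (S c).eval x then pr x c else 0) = σ := by
      have h1 : ∀ c, (if (S c).eval x then pr x c else 0) =
          σ / W * (if (S c).eval x then ‖((1 : Matrix _ _ ℂ) *ᵥ s0) c‖ ^ 2 else 0) := by
        intro c
        by_cases hc : (S c).eval x = true
        · rw [if_pos hc, if_pos hc, hσ3 c hc]
          field_simp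
        · rw [if_neg hc, if_neg hc, mul_zero]
      rw [Finset.sum_congr rfl fun c _ => h1 c, ← Finset.mul_sum, ← hW]
      field_simp
    have hsplit : ∀ c, pr x c * (if (S c).eval x then (0 : ℝ) else 1) =
        pr x c - (if (S c).eval x then pr x c else 0) := by
      intro c
      split_ifs <;> ring
    rw [Finset.sum_congr rfl fun c _ => hsplit c, Finset.sum_sub_distrib, hpr1 x, hbad]
    linarith

/-- CHECK(P): accepts valid pairs with probability one, invalid pairs with probability at most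
`δ²/800`. -/
theorem check_fam {n r : ℕ} {δ : ℝ} (hδ : 0 < δ) (hδ1 : δ ≤ 1) (P : V n × V n) :
    ∃ p : (Idx n r → Bool) → ℝ, AccFam (checkCost n r δ) p ∧
      (∀ x, valid δ x P.1 P.2 → p x = 1) ∧ (∀ x, 0 ≤ p x) ∧
      ∀ x, ¬ valid δ x P.1 P.2 → p x ≤ δ ^ 2 / 800 := by
  obtain ⟨p, hp, h1, h2, h3⟩ := qa_round (n := n) (r := r) δ P
  refine ⟨fun x => p x ^ rep δ, qa_pow hp (rep δ), fun x hx => ?_, fun x => pow_nonneg (h2 x) _,
    fun x hx => ?_⟩
  · show p x ^ rep δ = 1
    rw [h1 x hx, one_pow]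
  · show p x ^ rep δ ≤ δ ^ 2 / 800
    have h4 : p x ^ rep δ ≤ (3 / 4) ^ rep δ := pow_le_pow_left₀ (h2 x) (h3 x hx) _
    have h5 : ((3 : ℝ) / 4) ^ rep δ ≤ Real.exp (-(1 / 4)) ^ rep δ :=
      pow_le_pow_left₀ (by norm_num) (by linarith [Real.add_one_le_exp (-(1 / 4) : ℝ)]) _
    have h6 : Real.exp (-(1 / 4)) ^ rep δ = Real.exp (-((rep δ : ℝ) / 4)) := by
      rw [← Real.exp_nat_mul]
      congr 1
      ring
    have h7 : 4 * Real.log (800 / δ ^ 2) ≤ rep δ := Nat.le_ceil _
    have h8 : Real.exp (-((rep δ : ℝ) / 4)) ≤ Real.exp (-Real.log (800 / δ ^ 2)) :=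
      Real.exp_le_exp.2 (by linarith)
    have h9 : Real.exp (-Real.log (800 / δ ^ 2)) = δ ^ 2 / 800 := by
      rw [Real.exp_neg, Real.exp_log (by positivity), inv_div]
    rw [← h9]
    exact h4.trans (h5.trans (h6.le.trans h8))

private theorem qa_sN_sq (n : ℕ) : sN n ^ 2 = 2 ^ n := by
  unfold sN
  rw [← pow_mul, mul_comm n 2, pow_mul, Real.sq_sqrt (by norm_num)]

private theorem qa_sN_pos (n : ℕ) : 0 < sN n := by
  unfold sN
  positivity

private theorem qa_card (n : ℕ) : Fintype.card (V n) = 2 ^ n := by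
  simp [V]

/-- one sampling stage with reference list `L` -/
theorem sample_stage {n r : ℕ} {δ : ℝ} (hδ : 0 < δ) (hδ1 : δ ≤ 1) (L : List (V n × V n))
    (hL : L.length ≤ 6 * n) :
    ∃ pr : (Idx n r → Bool) → (Fin 4 × V n × V n) → ℝ, Samp (sampleCost n r δ) pr ∧
      (∀ x c, 0 ≤ pr x c) ∧ (∀ x, ∑ c, pr x c = 1) ∧
      ∀ x, δ ^ 2 ≤ WL x L → ∃ σ : ℝ, 1 / 4 ≤ σ ∧ σ ≤ 1 ∧
        ∀ P : V n × V n, (∀ R ∈ L, surv x P R) →
          pr x (0, P) = σ * (psi (blk x P.1) P.2 ^ 2 / WL x L) := by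
  classical
  choose T hTd hT using fun P : V n × V n => surv_tree (n := n) (r := r) P L
  obtain ⟨M, hM, hMu, hMs⟩ := psiFam n r
  let S : Fin 4 × V n × V n → DTree (Idx n r) Bool := fun c =>
    if c.1 = 0 then T c.2 else .leaf false
  have hSd : ∀ c, (S c).depth ≤ 6 * n * (2 * n + 2) := by
    intro c
    by_cases hc : c.1 = 0
    · simp only [S, if_pos hc]
      exact (hTd c.2).trans (Nat.mul_le_mul_right _ hL)
    · simp only [S, if_neg hc]
      exact Nat.zero_le _
  have hS : ∀ c x, (S c).eval x = (decide (c.1 = 0) && decide (∀ R ∈ L, surv x c.2 R)) := by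
    intro c x
    by_cases hc : c.1 = 0
    · simp only [S, if_pos hc]
      rw [hT c.2 x]
      simp [hc]
    · simp only [S, if_neg hc]
      simp [hc, DTree.eval]
  let s0 : Fin 4 × V n × V n → ℂ := fun _ => ((1 / (2 * 2 ^ n) : ℝ) : ℂ)
  have hs0n : ∀ c, ‖s0 c‖ ^ 2 = (1 / (2 * 2 ^ n)) ^ 2 := by
    intro c
    show ‖((1 / (2 * 2 ^ n) : ℝ) : ℂ)‖ ^ 2 = _
    rw [Complex.norm_real, Real.norm_eq_abs, sq_abs]
  have hs0 : ∑ c, ‖s0 c‖ ^ 2 = 1 := by
    simp only [hs0n]
    rw [Finset.sum_const, Finset.card_univ, Fintype.card_prod, Fintype.card_prod, Fintype.card_fin,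
      nsmul_eq_mul, qa_card]
    push_cast
    have : (2 : ℝ) ^ n ≠ 0 := by positivity
    field_simp
    norm_num
  have hJ1 : 1 ≤ Jn n δ := by
    unfold Jn
    rw [Nat.one_le_ceil_iff]
    have := qa_sN_pos n
    positivity
  obtain ⟨pr, hpr, hpr0, hpr1, hpr2⟩ := ampSample (ι := Idx n r) (γ := Fin 4 × V n × V n)
    M hM hMu s0 hs0 S (6 * n * (2 * n + 2)) hSd (Jn n δ) hJ1
  refine ⟨pr, hpr, hpr0, hpr1, fun x hx => ?_⟩
  have hnorm : ∀ c, ‖(M x *ᵥ s0) c‖ ^ 2 = psi (blk x c.2.1) c.2.2 ^ 2 / (4 * 2 ^ n) := by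
    rintro ⟨c, p, a⟩
    have h1 := hMs x c p a
    have h2 : (M x *ᵥ s0) (c, p, a) = ((psi (blk x p) a / (2 * sN n) : ℝ) : ℂ) := h1
    rw [h2, Complex.norm_real, Real.norm_eq_abs, sq_abs, div_pow, mul_pow, qa_sN_sq]
    norm_num
  have hWL : (∑ c, if (S c).eval x then ‖(M x *ᵥ s0) c‖ ^ 2 else 0) = WL x L / (4 * 2 ^ n) := by
    rw [Fintype.sum_prod_type]
    have h1 : ∀ a : Fin 4, (∑ P : V n × V n, if (S (a, P)).eval x then ‖(M x *ᵥ s0) (a, P)‖ ^ 2
        else 0) = if a = 0 then WL x L / (4 * 2 ^ n) else 0 := by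
      intro a
      by_cases ha : a = 0
      · rw [if_pos ha]
        unfold WL
        rw [Finset.sum_div]
        refine Finset.sum_congr rfl fun P _ => ?_
        have he : (S (a, P)).eval x = decide (∀ R ∈ L, surv x P R) := by
          rw [hS]
          simp only [ha, decide_true, Bool.true_and]
        rw [hnorm, he]
        by_cases hP : ∀ R ∈ L, surv x P R
        · rw [decide_eq_true hP, if_pos rfl, if_pos hP]
        · rw [decide_eq_false hP, if_neg (by decide), if_neg hP, zero_div]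
      · rw [if_neg ha]
        refine Finset.sum_eq_zero fun P _ => ?_
        rw [hS]
        simp [ha]
    rw [Finset.sum_congr rfl fun a _ => h1 a]
    simp
  have h2n : (0 : ℝ) < 2 ^ n := by positivity
  have hWLpos : 0 < WL x L := lt_of_lt_of_le (by positivity) hx
  have hJW : 1 ≤ (Jn n δ : ℝ) ^ 2 * (WL x L / (4 * 2 ^ n)) := by
    have h1 : 2 * sN n / δ ≤ Jn n δ := Nat.le_ceil _
    have hs := qa_sN_pos n
    have h2 : (2 * sN n / δ) ^ 2 ≤ (Jn n δ : ℝ) ^ 2 := pow_le_pow_left₀ (by positivity) h1 2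
    have h3 : (2 * sN n / δ) ^ 2 = 4 * 2 ^ n / δ ^ 2 := by
      rw [div_pow, mul_pow, qa_sN_sq]
      norm_num
    rw [h3] at h2
    calc (1 : ℝ) = 4 * 2 ^ n / δ ^ 2 * (δ ^ 2 / (4 * 2 ^ n)) := by field_simp
      _ ≤ (Jn n δ : ℝ) ^ 2 * (WL x L / (4 * 2 ^ n)) :=
        mul_le_mul h2 (div_le_div_of_nonneg_right hx (by positivity)) (by positivity)
          (by positivity)
  obtain ⟨σ, hσ1, hσ2, hσ3⟩ := hpr2 x (WL x L / (4 * 2 ^ n)) hWL.symm (by positivity)
    (by
      rw [div_le_iff₀ (by positivity)]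
      have := WL_le x L
      linarith) hJW
  refine ⟨σ, hσ1, hσ2, fun P hP => ?_⟩
  have he : (S (0, P)).eval x = true := by
    rw [hS]
    simp only [decide_true, Bool.true_and]
    exact decide_eq_true hP
  rw [hσ3 (0, P) he, hnorm]
  field_simp

/-! ### the run -/

private theorem qa_jensen {γ : Type} [Fintype γ] (pr Y : γ → ℝ) (hpr : ∀ c, 0 ≤ pr c)
    (hpr1 : ∑ c, pr c = 1) (hY : ∀ c, 0 < Y c) {m : ℝ} (hm : 0 < m)
    (hmean : ∑ c, pr c * Y c ≤ m) : 1 / m ≤ ∑ c, pr c * (1 / Y c) := by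
  have h1 : ∀ c, pr c * (2 / m - Y c / m ^ 2) ≤ pr c * (1 / Y c) := by
    intro c
    refine mul_le_mul_of_nonneg_left ?_ (hpr c)
    have hc := hY c
    have h2 : 1 / Y c - (2 / m - Y c / m ^ 2) = (Y c - m) ^ 2 / (Y c * m ^ 2) := by
      field_simp
      ring
    have h3 : 0 ≤ (Y c - m) ^ 2 / (Y c * m ^ 2) := by positivity
    linarith
  have h2 : ∑ c, pr c * (2 / m - Y c / m ^ 2) = 2 / m - (∑ c, pr c * Y c) / m ^ 2 := by
    simp only [mul_sub]
    rw [Finset.sum_sub_distrib, ← Finset.sum_mul, hpr1, one_mul, Finset.sum_div]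
    congr 1
    refine Finset.sum_congr rfl fun c _ => ?_
    ring
  have h3 : (∑ c, pr c * Y c) / m ^ 2 ≤ m / m ^ 2 := div_le_div_of_nonneg_right hmean (by positivity)
  have h4 : m / m ^ 2 = 1 / m := by field_simp
  calc 1 / m = 2 / m - 1 / m := by ring
    _ ≤ 2 / m - (∑ c, pr c * Y c) / m ^ 2 := by rw [← h4]; linarith
    _ = ∑ c, pr c * (2 / m - Y c / m ^ 2) := h2.symm
    _ ≤ _ := Finset.sum_le_sum fun c _ => h1 c

/-- the expected new weight after one more sample -/
private theorem qa_mean {n r : ℕ} {x : Idx n r → Bool} {L : List (V n × V n)}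
    (pr : (Fin 4 × V n × V n) → ℝ) (hpr0 : ∀ c, 0 ≤ pr c) (hpr1 : ∑ c, pr c = 1)
    (hW : 0 < WL x L) {σ : ℝ} (hσ1 : 1 / 4 ≤ σ) (hσ2 : σ ≤ 1)
    (hσ : ∀ P : V n × V n, (∀ R ∈ L, surv x P R) →
      pr (0, P) = σ * (psi (blk x P.1) P.2 ^ 2 / WL x L)) :
    ∑ c : Fin 4 × V n × V n, pr c * WL x (c.2 :: L) ≤ 7 / 8 * WL x L + 1 / 8 := by
  classical
  set W : ℝ := WL x L with hWdef
  -- trivial bound
  have htriv : ∑ c : Fin 4 × V n × V n, pr c * WL x (c.2 :: L) ≤ W := by
    calc _ ≤ ∑ c : Fin 4 × V n × V n, pr c * W :=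
          Finset.sum_le_sum fun c _ => mul_le_mul_of_nonneg_left (WL_cons_le x L c.2) (hpr0 c)
      _ = W := by rw [← Finset.sum_mul, hpr1, one_mul]
  by_cases h1 : W ≤ 1
  · linarith
  rw [not_le] at h1
  -- good outcomes
  let g : Fin 4 × V n × V n → ℝ := fun c =>
    if c.1 = 0 ∧ ∀ R ∈ L, surv x c.2 R then pr c else 0
  have hsumP : ∀ F : V n × V n → ℝ, ∑ c : Fin 4 × V n × V n, g c * F c.2 =
      σ / W * ∑ P : V n × V n, (if (∀ R ∈ L, surv x P R) then psi (blk x P.1) P.2 ^ 2 else 0) *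
        F P := by
    intro F
    rw [Fintype.sum_prod_type]
    have h2 : ∀ a : Fin 4, (∑ P : V n × V n, g (a, P) * F P) = if a = 0 then
        σ / W * ∑ P : V n × V n, (if (∀ R ∈ L, surv x P R) then psi (blk x P.1) P.2 ^ 2 else 0) *
        F P else 0 := by
      intro a
      by_cases ha : a = 0
      · rw [if_pos ha, Finset.mul_sum]
        refine Finset.sum_congr rfl fun P _ => ?_
        by_cases hP : ∀ R ∈ L, surv x P R
        · have : g (a, P) = pr (0, P) := by
            subst ha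
            simp only [g]
            rw [if_pos ⟨trivial, hP⟩]
          rw [this, if_pos hP, hσ P hP]
          field_simp
        · have : g (a, P) = 0 := by
            simp only [g]
            rw [if_neg fun h => hP h.2]
          rw [this, if_neg hP]
          ring
      · rw [if_neg ha]
        refine Finset.sum_eq_zero fun P _ => ?_
        have : g (a, P) = 0 := by
          simp only [g]
          rw [if_neg fun h => ha h.1]
        rw [this, zero_mul]
    rw [Finset.sum_congr rfl fun a _ => h2 a]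
    simp
  have hmass : ∑ c, g c = σ := by
    have h2 := hsumP (fun _ => 1)
    simp only [mul_one] at h2
    rw [h2]
    have h3 : ∑ P : V n × V n, (if (∀ R ∈ L, surv x P R) then psi (blk x P.1) P.2 ^ 2 else 0) = W :=
      rfl
    rw [h3]
    field_simp
  have hgood : ∑ c : Fin 4 × V n × V n, g c * WL x (c.2 :: L) ≤ σ * (W + 1) / 2 := by
    rw [hsumP (fun P => WL x (P :: L))]
    have h2 := WL_step x L
    have h3 : 0 ≤ σ / W := by positivity
    calc _ ≤ σ / W * ((W ^ 2 + W) / 2) := mul_le_mul_of_nonneg_left h2 h3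
      _ = σ * (W + 1) / 2 := by field_simp
  have hg : ∀ c, 0 ≤ pr c - g c := by
    intro c
    simp only [g]
    split_ifs
    · simp
    · rw [sub_zero]
      exact hpr0 c
  have hrest : ∑ c : Fin 4 × V n × V n, (pr c - g c) * WL x (c.2 :: L) ≤ (1 - σ) * W := by
    calc _ ≤ ∑ c : Fin 4 × V n × V n, (pr c - g c) * W :=
          Finset.sum_le_sum fun c _ => mul_le_mul_of_nonneg_left (WL_cons_le x L c.2) (hg c)
      _ = (1 - σ) * W := by rw [← Finset.sum_mul, Finset.sum_sub_distrib, hpr1, hmass]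
  have hsplit : ∑ c : Fin 4 × V n × V n, pr c * WL x (c.2 :: L) =
      ∑ c : Fin 4 × V n × V n, g c * WL x (c.2 :: L) +
        ∑ c : Fin 4 × V n × V n, (pr c - g c) * WL x (c.2 :: L) := by
    rw [← Finset.sum_add_distrib]
    refine Finset.sum_congr rfl fun c _ => ?_
    ring
  rw [hsplit]
  nlinarith

private theorem qa_frac_pos (t : ℕ) {w : ℝ} (hw : 0 < w) : 0 < 1 + (7 / 8 : ℝ) ^ t * (w - 1) := by
  have h1 : (7 / 8 : ℝ) ^ t ≤ 1 := pow_le_one₀ (by norm_num) (by norm_num)
  have h2 : 0 < (7 / 8 : ℝ) ^ t := by positivity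
  nlinarith

private theorem qa_stages {n r : ℕ} {δ : ℝ} (hδ : 0 < δ) (hδ1 : δ ≤ 1) (t : ℕ) :
    ∀ L : List (V n × V n), L.length + t ≤ 6 * n →
      ∃ p : (Idx n r → Bool) → ℝ,
        AccFam ((t + 1) * sampleCost n r δ + checkCost n r δ) p ∧
        (∀ x, fn n r δ x = true →
          δ ^ 2 / 4 * (1 / (1 + (7 / 8 : ℝ) ^ t * (WL x L - 1))) ≤ p x) ∧
        (∀ x, fn n r δ x = false → p x ≤ δ ^ 2 / 800) := by
  classical
  have hval : ∀ x : Idx n r → Bool, fn n r δ x = true → ∃ P : V n × V n, valid δ x P.1 P.2 ∧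
      δ ≤ psi (blk x P.1) P.2 := by
    intro x hx
    unfold fn at hx
    rw [decide_eq_true_eq] at hx
    obtain ⟨p, a, h⟩ := hx
    exact ⟨(p, a), h, psi_of_checks δ x p a (fun l i => h _) (fun l s i => h _) (h _)⟩
  have hinv : ∀ x : Idx n r → Bool, fn n r δ x = false → ∀ P : V n × V n,
      ¬ valid δ x P.1 P.2 := by
    intro x hx P hP
    unfold fn at hx
    rw [decide_eq_false_iff_not] at hx
    exact hx ⟨P.1, P.2, hP⟩
  have hWge : ∀ x : Idx n r → Bool, fn n r δ x = true → ∀ L, δ ^ 2 ≤ WL x L := by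
    intro x hx L
    obtain ⟨P, h1, h2⟩ := hval x hx
    exact WL_ge hδ.le h1 h2 L
  induction t with
  | zero =>
    intro L hL
    obtain ⟨pr, hpr, hpr0, hpr1, hpr2⟩ := sample_stage (n := n) (r := r) hδ hδ1 L (by omega)
    choose pc hpc hpcv hpc0 hpci using fun P : V n × V n => check_fam (n := n) (r := r) hδ hδ1 P
    have hz : AccFam (checkCost n r δ) (fun _ : Idx n r → Bool => (0 : ℝ)) :=
      (AccFam.const (ι := Idx n r) 0 le_rfl zero_le_one).mono (Nat.zero_le _)
    have hb := hpr.bind (p := fun (c : Fin 4 × V n × V n) x => if c.1 = 0 then pc c.2 x else 0)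
      (q' := checkCost n r δ) (by
        intro c
        by_cases hc : c.1 = 0
        · simpa only [if_pos hc] using hpc c.2
        · simpa only [if_neg hc] using hz)
    have e : sampleCost n r δ + checkCost n r δ =
        (0 + 1) * sampleCost n r δ + checkCost n r δ := by ring
    rw [e] at hb
    refine ⟨_, hb, fun x hx => ?_, fun x hx => ?_⟩
    · obtain ⟨P, hP1, hP2⟩ := hval x hx
      have hW := hWge x hx L
      have hWpos : 0 < WL x L := lt_of_lt_of_le (by positivity) hW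
      obtain ⟨σ, hσ1, hσ2, hσ3⟩ := hpr2 x hW
      have hs : ∀ R ∈ L, surv x P R := fun R _ => surv_of_valid hP1 R
      have h1 := Finset.single_le_sum
        (f := fun c : Fin 4 × V n × V n => pr x c * (if c.1 = 0 then pc c.2 x else 0))
        (fun c _ => mul_nonneg (hpr0 x c) (by
          split_ifs
          · exact hpc0 c.2 x
          · exact le_rfl)) (Finset.mem_univ ((0 : Fin 4), P))
      simp only [if_true] at h1
      rw [hpcv P x hP1, mul_one, hσ3 P hs] at h1
      refine le_trans ?_ h1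
      rw [pow_zero, one_mul]
      have h2 : (1 : ℝ) + (WL x L - 1) = WL x L := by ring
      rw [h2]
      have h3 : δ ^ 2 ≤ psi (blk x P.1) P.2 ^ 2 := pow_le_pow_left₀ hδ.le hP2 2
      have h4 : δ ^ 2 / 4 * (1 / WL x L) = 1 / 4 * (δ ^ 2 / WL x L) := by ring
      rw [h4]
      exact mul_le_mul hσ1 (div_le_div_of_nonneg_right h3 hWpos.le) (by positivity) (by linarith)
    · calc _ ≤ ∑ c : Fin 4 × V n × V n, pr x c * (δ ^ 2 / 800) := by
            refine Finset.sum_le_sum fun c _ => mul_le_mul_of_nonneg_left ?_ (hpr0 x c)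
            split_ifs
            · exact hpci c.2 x (hinv x hx c.2)
            · positivity
        _ = δ ^ 2 / 800 := by rw [← Finset.sum_mul, hpr1, one_mul]
  | succ t ih =>
    intro L hL
    obtain ⟨pr, hpr, hpr0, hpr1, hpr2⟩ := sample_stage (n := n) (r := r) hδ hδ1 L (by omega)
    choose pc hpc hpcy hpcn using fun P : V n × V n => ih (P :: L) (by
      rw [List.length_cons]
      omega)
    have hb := hpr.bind (p := fun (c : Fin 4 × V n × V n) x => pc c.2 x)
      (q' := (t + 1) * sampleCost n r δ + checkCost n r δ) (fun c => hpc c.2)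
    have e : sampleCost n r δ + ((t + 1) * sampleCost n r δ + checkCost n r δ) =
        (t + 1 + 1) * sampleCost n r δ + checkCost n r δ := by ring
    rw [e] at hb
    refine ⟨_, hb, fun x hx => ?_, fun x hx => ?_⟩
    · have hW := hWge x hx L
      have hWpos : 0 < WL x L := lt_of_lt_of_le (by positivity) hW
      obtain ⟨σ, hσ1, hσ2, hσ3⟩ := hpr2 x hW
      have hmean := qa_mean (pr x) (hpr0 x) (hpr1 x) hWpos hσ1 hσ2 hσ3
      have hpow : 0 < (7 / 8 : ℝ) ^ t := by positivity
      have hY : ∀ c : Fin 4 × V n × V n, 0 < 1 + (7 / 8 : ℝ) ^ t * (WL x (c.2 :: L) - 1) :=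
        fun c => qa_frac_pos t (lt_of_lt_of_le (by positivity) (hWge x hx (c.2 :: L)))
      have hm : 0 < 1 + (7 / 8 : ℝ) ^ (t + 1) * (WL x L - 1) := qa_frac_pos (t + 1) hWpos
      have hYm : ∑ c : Fin 4 × V n × V n, pr x c * (1 + (7 / 8 : ℝ) ^ t * (WL x (c.2 :: L) - 1)) ≤
          1 + (7 / 8 : ℝ) ^ (t + 1) * (WL x L - 1) := by
        have h1 : ∀ c : Fin 4 × V n × V n,
            pr x c * (1 + (7 / 8 : ℝ) ^ t * (WL x (c.2 :: L) - 1)) =
            (1 - (7 / 8 : ℝ) ^ t) * pr x c + (7 / 8 : ℝ) ^ t * (pr x c * WL x (c.2 :: L)) := by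
          intro c
          ring
        rw [Finset.sum_congr rfl fun c _ => h1 c, Finset.sum_add_distrib, ← Finset.mul_sum,
          ← Finset.mul_sum, hpr1, pow_succ]
        nlinarith
      have hj := qa_jensen (pr x) (fun c => 1 + (7 / 8 : ℝ) ^ t * (WL x (c.2 :: L) - 1)) (hpr0 x)
        (hpr1 x) hY hm hYm
      calc δ ^ 2 / 4 * (1 / (1 + (7 / 8 : ℝ) ^ (t + 1) * (WL x L - 1)))
          ≤ δ ^ 2 / 4 * ∑ c : Fin 4 × V n × V n, pr x c *
            (1 / (1 + (7 / 8 : ℝ) ^ t * (WL x (c.2 :: L) - 1))) :=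
            mul_le_mul_of_nonneg_left hj (by positivity)
        _ = ∑ c : Fin 4 × V n × V n, pr x c * (δ ^ 2 / 4 *
            (1 / (1 + (7 / 8 : ℝ) ^ t * (WL x (c.2 :: L) - 1)))) := by
            rw [Finset.mul_sum]
            refine Finset.sum_congr rfl fun c _ => ?_
            ring
        _ ≤ ∑ c : Fin 4 × V n × V n, pr x c * pc c.2 x :=
            Finset.sum_le_sum fun c _ => mul_le_mul_of_nonneg_left (hpcy c.2 x hx) (hpr0 x c)
    · calc _ ≤ ∑ c : Fin 4 × V n × V n, pr x c * (δ ^ 2 / 800) :=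
            Finset.sum_le_sum fun c _ => mul_le_mul_of_nonneg_left (hpcn c.2 x hx) (hpr0 x c)
        _ = δ ^ 2 / 800 := by rw [← Finset.sum_mul, hpr1, one_mul]

/-- the whole run -/
theorem run_fam {n r : ℕ} {δ : ℝ} (hδ : 0 < δ) (hδ1 : δ ≤ 1) :
    ∃ p : (Idx n r → Bool) → ℝ,
      AccFam ((6 * n + 1) * sampleCost n r δ + checkCost n r δ) p ∧
      (∀ x, fn n r δ x = true → δ ^ 2 / 8 ≤ p x) ∧
      (∀ x, fn n r δ x = false → p x ≤ δ ^ 2 / 800) := by
  classical
  obtain ⟨p, h1, h2, h3⟩ := qa_stages (n := n) (r := r) hδ hδ1 (6 * n) [] (by simp)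
  refine ⟨p, h1, fun x hx => le_trans ?_ (h2 x hx), h3⟩
  have hW0 := WL_nonneg x ([] : List (V n × V n))
  have hW1 := WL_le x ([] : List (V n × V n))
  have hpow : (7 / 8 : ℝ) ^ (6 * n) * 2 ^ n ≤ 1 := by
    rw [pow_mul, ← mul_pow]
    exact pow_le_one₀ (by positivity) (by norm_num)
  have hpow0 : 0 < (7 / 8 : ℝ) ^ (6 * n) := by positivity
  have hpow1 : (7 / 8 : ℝ) ^ (6 * n) ≤ 1 := pow_le_one₀ (by norm_num) (by norm_num)
  have h4 : 1 + (7 / 8 : ℝ) ^ (6 * n) * (WL x [] - 1) ≤ 2 := by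
    nlinarith
  have h5 : 0 < 1 + (7 / 8 : ℝ) ^ (6 * n) * (WL x [] - 1) := by
    by_cases hW : 0 < WL x ([] : List (V n × V n))
    · exact qa_frac_pos _ hW
    · -- the weight is positive because some pair is valid
      exfalso
      unfold fn at hx
      rw [decide_eq_true_eq] at hx
      obtain ⟨p', a, h⟩ := hx
      have h6 := WL_ge hδ.le h (psi_of_checks δ x p' a (fun l i => h _) (fun l s i => h _) (h _))
        ([] : List (V n × V n))
      have h7 : 0 < δ ^ 2 := by positivity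
      linarith
  have h6 : 1 / 2 ≤ 1 / (1 + (7 / 8 : ℝ) ^ (6 * n) * (WL x [] - 1)) :=
    one_div_le_one_div_of_le h5 h4
  calc δ ^ 2 / 8 = δ ^ 2 / 4 * (1 / 2) := by ring
    _ ≤ _ := mul_le_mul_of_nonneg_left h6 (by positivity)

theorem quant_upper {n r : ℕ} {δ : ℝ} (hδ : 0 < δ) (hδ1 : δ ≤ 1) :
    QuantComputes (qcost n r δ) (fn n r δ) := by
  obtain ⟨p, h1, h2, h3⟩ := run_fam (n := n) (r := r) hδ hδ1
  unfold qcost
  refine quant_of_acc h1 (p1 := δ ^ 2 / 8) (by positivity) ?_ h2 fun x hx => ?_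
  · have : δ ^ 2 ≤ 1 := pow_le_one₀ hδ.le hδ1
    linarith
  · have h4 := h3 x hx
    have h5 : δ ^ 2 / 8 / 100 = δ ^ 2 / 800 := by ring
    rw [h5]
    exact h4

end P362
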