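import Vale.Agent.P362.DTFam
import Vale.Agent.P362.Dilate

/-!
# P362, module REALIZE: from the calculus to genuine unitary query algorithms
-/

namespace P362

open scoped BigOperators Matrix

/-- dilation of a contraction to a unitary on the doubled space -/
theorem exists_dilation {S : Type} [Fintype S] [DecidableEq S] (C : Matrix S S ℂ)
    (hC : IsContr C) : ∃ U : Matrix (S ⊕ S) (S ⊕ S) ℂ, U ∈ Matrix.unitaryGroup (S ⊕ S) ℂ ∧
      ∀ s t, U (Sum.inl s) (Sum.inl t) = C s t := by
  obtain ⟨D, hD⟩ := hC.defect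
  obtain ⟨U, hU, hUa⟩ := gram_unitary (B := S ⊕ S) (X := S)
    (fun t => Sum.elim (Pi.single t 1) 0) (fun t => Sum.elim (fun s => C s t) (fun s => D s t)) (by
      intro x y
      have h1 : (Cᴴ * C + Dᴴ * D) x y = (1 : Matrix S S ℂ) x y := by rw [hD]
      rw [Matrix.add_apply, Matrix.mul_apply, Matrix.mul_apply, Matrix.one_apply] at h1
      simp only [dotProduct, Fintype.sum_sum_type, Pi.star_apply, Sum.elim_inl, Sum.elim_inr]
      simp only [Matrix.conjTranspose_apply] at h1
      rw [h1]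
      simp [Pi.single_apply, eq_comm])
  refine ⟨U, hU, fun s t => ?_⟩
  have h2 := congrFun (hUa t) (Sum.inl s)
  simp only [Sum.elim_inl] at h2
  rw [← h2]
  simp [Matrix.mulVec, dotProduct, Fintype.sum_sum_type, Pi.single_apply]

variable {ι : Type} [Fintype ι] [DecidableEq ι]

/-! ### states on a split workspace -/

/-- the state with components `f`, `g` on a split workspace -/
def pairst {Z R : Type} (f : ι × Bool × Z → ℂ) (g : ι × Bool × R → ℂ) : ι × Bool × (Z ⊕ R) → ℂ :=
  fun s => match s.2.2 with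
    | Sum.inl z => f (s.1, s.2.1, z)
    | Sum.inr z => g (s.1, s.2.1, z)

theorem ip_pairst {Z R : Type} [Fintype Z] [Fintype R] (f f' : ι × Bool × Z → ℂ)
    (g g' : ι × Bool × R → ℂ) :
    star (pairst f g) ⬝ᵥ pairst f' g' = star f ⬝ᵥ f' + star g ⬝ᵥ g' := by
  simp only [dotProduct, Fintype.sum_prod_type, Fintype.sum_sum_type, Pi.star_apply, pairst,
    Finset.sum_add_distrib]

theorem oracle_pairst {Z R : Type} [Fintype Z] [Fintype R] [DecidableEq Z] [DecidableEq R]
    (x : ι → Bool) (f : ι × Bool × Z → ℂ) (g : ι × Bool × R → ℂ) :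
    oracle x *ᵥ pairst f g = pairst (oracle x *ᵥ f) (oracle x *ᵥ g) := by
  ext s
  obtain ⟨i, b, z⟩ := s
  rw [oracle_mulVec]
  cases z with
  | inl z => simp only [pairst, oracle_mulVec]
  | inr z => simp only [pairst, oracle_mulVec]

/-- a vector placed at the query register `(i₀, false)` -/
def putst {Z : Type} (i₀ : ι) (u : Z → ℂ) : ι × Bool × Z → ℂ :=
  fun s => if s.1 = i₀ ∧ s.2.1 = false then u s.2.2 else 0

theorem ip_putst {Z : Type} [Fintype Z] (i₀ : ι) (u v : Z → ℂ) :
    star (putst i₀ u) ⬝ᵥ putst i₀ v = star u ⬝ᵥ v := by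
  simp only [dotProduct, Fintype.sum_prod_type, Pi.star_apply, putst]
  rw [Finset.sum_eq_single i₀]
  · simp
  · intro i _ hi
    simp [hi]
  · intro h
    exact absurd (Finset.mem_univ _) h

theorem ip_elim {R S : Type} [Fintype R] [Fintype S] (u u' : R → ℂ) (v v' : S → ℂ) :
    star (Sum.elim u v) ⬝ᵥ Sum.elim u' v' = star u ⬝ᵥ u' + star v ⬝ᵥ v' := by
  simp only [dotProduct, Fintype.sum_sum_type, Pi.star_apply, Sum.elim_inl, Sum.elim_inr]

theorem ip_contr {S S' : Type} [Fintype S] [Fintype S'] [DecidableEq S] {C : Matrix S' S ℂ}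
    {D : Matrix S S ℂ} (h : Cᴴ * C + Dᴴ * D = 1) (u v : S → ℂ) :
    star (C *ᵥ u) ⬝ᵥ (C *ᵥ v) + star (D *ᵥ u) ⬝ᵥ (D *ᵥ v) = star u ⬝ᵥ v := by
  rw [Matrix.star_mulVec, Matrix.star_mulVec, Matrix.dotProduct_mulVec, Matrix.dotProduct_mulVec,
    Matrix.vecMul_vecMul, Matrix.vecMul_vecMul, ← add_dotProduct, ← Matrix.vecMul_add, h,
    Matrix.vecMul_one]

theorem ip_oracle {Z : Type} [Fintype Z] [DecidableEq Z] (x : ι → Bool) (u v : ι × Bool × Z → ℂ) :
    star (oracle x *ᵥ u) ⬝ᵥ (oracle x *ᵥ v) = star u ⬝ᵥ v := by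
  rw [Matrix.star_mulVec, Matrix.dotProduct_mulVec, Matrix.vecMul_vecMul, oracle_adj,
    oracle_mul_self, Matrix.vecMul_one]

/-! ### families of states realizable with `q` queries, through Gram matrices -/

/-- `φ` is (up to a unitary) the family of states after `q` queries on the workspace `Z` -/
def GR {Z : Type} [Fintype Z] [DecidableEq Z] : ℕ → ((ι → Bool) → ι × Bool × Z → ℂ) → Prop
  | 0, φ => ∀ x y, star (φ x) ⬝ᵥ φ y = 1
  | q + 1, φ => ∃ φ' : (ι → Bool) → ι × Bool × Z → ℂ, GR q φ' ∧
      ∀ x y, star (φ x) ⬝ᵥ φ y = star (oracle x *ᵥ φ' x) ⬝ᵥ (oracle y *ᵥ φ' y)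

theorem GR.gram {Z : Type} [Fintype Z] [DecidableEq Z] {q : ℕ}
    {φ ψ : (ι → Bool) → ι × Bool × Z → ℂ} (h : GR q φ)
    (hg : ∀ x y, star (ψ x) ⬝ᵥ ψ y = star (φ x) ⬝ᵥ φ y) : GR q ψ := by
  cases q with
  | zero => exact fun x y => by rw [hg]; exact h x y
  | succ q =>
    obtain ⟨φ', h1, h2⟩ := h
    exact ⟨φ', h1, fun x y => by rw [hg, h2]⟩

theorem GR.ext {Z R : Type} [Fintype Z] [DecidableEq Z] [Fintype R] [DecidableEq R] {q : ℕ}
    {φ : (ι → Bool) → ι × Bool × Z → ℂ} (h : GR q φ) :
    GR q (fun x => pairst (φ x) (0 : ι × Bool × R → ℂ)) := by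
  induction q generalizing φ with
  | zero =>
    intro x y
    simp only [ip_pairst]
    rw [h x y]
    simp
  | succ q ih =>
    obtain ⟨φ', h1, h2⟩ := h
    refine ⟨_, ih h1, fun x y => ?_⟩
    simp only [oracle_pairst, ip_pairst, Matrix.mulVec_zero]
    rw [h2]

/-- from a realizable family to an algorithm -/
theorem GR.alg {Z : Type} [Fintype Z] [DecidableEq Z] {q : ℕ}
    {φ : (ι → Bool) → ι × Bool × Z → ℂ} (h : GR q φ) :
    ∃ (U : ℕ → Matrix (ι × Bool × Z) (ι × Bool × Z) ℂ)
      (hU : ∀ t, U t ∈ Matrix.unitaryGroup (ι × Bool × Z) ℂ) (init : ι × Bool × Z),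
      ∀ (acc : Finset (ι × Bool × Z)) x,
        (QAlg.mk Z U hU init acc).state x q = φ x := by
  induction q generalizing φ with
  | zero =>
    have hne : Nonempty (ι × Bool × Z) := by
      by_contra hne
      rw [not_nonempty_iff] at hne
      have := h (fun _ => false) (fun _ => false)
      simp [dotProduct] at this
    obtain ⟨s₀⟩ := hne
    obtain ⟨V, hV, hV2⟩ := gram_unitary (B := ι × Bool × Z) (X := ι → Bool)
      (fun _ => Pi.single s₀ 1) φ (by
        intro x y
        rw [h x y]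
        simp [dotProduct, Pi.single_apply])
    refine ⟨fun _ => V, fun _ => hV, s₀, fun acc x => ?_⟩
    simp only [QAlg.state]
    exact hV2 x
  | succ q ih =>
    obtain ⟨φ', h1, h2⟩ := h
    obtain ⟨U, hU, init, hst⟩ := ih h1
    obtain ⟨V, hV, hV2⟩ := gram_unitary (B := ι × Bool × Z) (X := ι → Bool)
      (fun x => oracle x *ᵥ φ' x) φ (fun x y => (h2 x y).symm)
    have hU' : ∀ t, Function.update U (q + 1) V t ∈ Matrix.unitaryGroup (ι × Bool × Z) ℂ := by
      intro t
      by_cases ht : t = q + 1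
      · rw [ht, Function.update_self]; exact hV
      · rw [Function.update_of_ne ht]; exact hU t
    refine ⟨Function.update U (q + 1) V, hU', init, fun acc x => ?_⟩
    have h3 : ∀ t, t ≤ q → (QAlg.mk Z (Function.update U (q + 1) V) hU' init acc).state x t =
        (QAlg.mk Z U hU init acc).state x t := by
      intro t ht
      induction t with
      | zero =>
        simp only [QAlg.state]
        rw [Function.update_of_ne (by omega)]
      | succ t ih2 =>
        simp only [QAlg.state]
        rw [ih2 (by omega), Function.update_of_ne (by omega)]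
    simp only [QAlg.state]
    rw [h3 q le_rfl, Function.update_self, hst acc x]
    exact hV2 x

/-- the main induction: contraction families are compressions of realizable state families -/
theorem QFam.gr [Nonempty ι] {β : Type} [Fintype β] {q : ℕ} {M : (ι → Bool) → Matrix β Unit ℂ}
    (h : QFam q β M) :
    ∃ (Z : Type) (_ : Fintype Z) (_ : DecidableEq Z) (φ : (ι → Bool) → ι × Bool × Z → ℂ)
      (k : β → ι × Bool × Z), Function.Injective k ∧ GR q φ ∧ ∀ x b, φ x (k b) = M x b () := by
  classical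
  obtain ⟨i₀⟩ := ‹Nonempty ι›
  induction q generalizing β with
  | zero =>
    obtain ⟨C, hC, hM⟩ := h
    have hC1 : ∑ b, ‖C b ()‖ ^ 2 ≤ 1 := by
      have := hC (fun _ => 1)
      simpa [Matrix.mulVec, dotProduct] using this
    set r : ℝ := Real.sqrt (1 - ∑ b, ‖C b ()‖ ^ 2) with hr
    have hrr : r * r = 1 - ∑ b, ‖C b ()‖ ^ 2 := Real.mul_self_sqrt (by linarith)
    refine ⟨β ⊕ Unit, inferInstance, inferInstance,
      fun _ => putst i₀ (Sum.elim (fun b => C b ()) (fun _ => (r : ℂ))),
      fun b => (i₀, false, Sum.inl b), ?_, ?_, ?_⟩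
    · intro a b hab
      simpa using hab
    · intro x y
      rw [ip_putst, ip_elim, star_dot_self]
      simp only [dotProduct, Finset.univ_unique, Finset.sum_singleton, Pi.star_apply,
        Complex.star_def, Complex.conj_ofReal]
      rw [← Complex.ofReal_mul, hrr, ← Complex.ofReal_add]
      simp
    · intro x b
      rw [hM]
      simp [putst]
  | succ q ih =>
    obtain ⟨Z1, fZ1, dZ1, C, M', hC, hM', hM⟩ := h
    obtain ⟨ZA, fZA, dZA, φ, k, hk, hG, hφ⟩ := ih hM'
    obtain ⟨D, hD⟩ := hC.defect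
    let w : (ι → Bool) → ι × Bool × Z1 → ℂ := fun x t => M' x t ()
    let junk : (ι → Bool) → ι × Bool × ZA → ℂ := fun x s => if s ∈ Set.range k then 0 else φ x s
    have hsplit : ∀ x y, star (φ x) ⬝ᵥ φ y = star (junk x) ⬝ᵥ junk y + star (w x) ⬝ᵥ w y := by
      intro x y
      simp only [dotProduct, Pi.star_apply]
      rw [← Finset.sum_filter_add_sum_filter_not Finset.univ (fun s => s ∈ Set.range k), add_comm]
      congr 1
      · rw [Finset.sum_filter]
        refine Finset.sum_congr rfl fun s _ => ?_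
        by_cases hs : s ∈ Set.range k
        · simp only [junk, if_pos hs, hs, not_true_eq_false, if_false, star_zero, zero_mul]
        · simp only [junk, hs, not_false_eq_true, if_true, if_false]
      · have : Finset.univ.filter (fun s => s ∈ Set.range k) = Finset.univ.image k := by
          ext s
          simp
        rw [this, Finset.sum_image fun a _ b _ hab => hk hab]
        refine Finset.sum_congr rfl fun t _ => ?_
        rw [hφ, hφ]
    -- the state before the last query
    have hG1 : GR q (fun x => pairst (junk x) (w x)) :=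
      (hG.ext (R := Z1)).gram fun x y => by
        simp only [ip_pairst]
        rw [hsplit]
        simp
    have hG2 := hG1.ext (R := β ⊕ (ι × Bool × Z1))
    refine ⟨(ZA ⊕ Z1) ⊕ (β ⊕ (ι × Bool × Z1)), inferInstance, inferInstance,
      fun x => pairst (pairst (oracle x *ᵥ junk x) (0 : ι × Bool × Z1 → ℂ))
        (putst i₀ (Sum.elim (C *ᵥ (oracle x *ᵥ w x)) (D *ᵥ (oracle x *ᵥ w x)))),
      fun b => (i₀, false, Sum.inr (Sum.inl b)), ?_, ⟨_, hG2, ?_⟩, ?_⟩
    · intro a b hab
      simpa using hab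
    · intro x y
      simp only [oracle_pairst, ip_pairst, ip_putst, ip_elim, ip_contr hD, Matrix.mulVec_zero]
      simp
    · intro x b
      rw [hM]
      simp only [pairst, putst, and_self, if_true, Sum.elim_inl]
      rfl

/-- every `AccFam` is the acceptance probability of a genuine algorithm -/
theorem realize [Nonempty ι] {q : ℕ} {p : (ι → Bool) → ℝ} (h : AccFam q p) :
    ∃ A : QAlg ι, ∀ x, A.acceptProb q x = p x := by
  classical
  obtain ⟨β, fβ, v, hv, hp⟩ := h
  obtain ⟨Z, fZ, dZ, φ, k, hk, hG, hφ⟩ := QFam.gr hv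
  obtain ⟨U, hU, init, hst⟩ := hG.alg
  refine ⟨QAlg.mk Z U hU init (Finset.univ.image k), fun x => ?_⟩
  unfold QAlg.acceptProb
  rw [hst, hp]
  simp only
  rw [Finset.sum_image fun a _ b _ hab => hk hab]
  refine Finset.sum_congr rfl fun b _ => ?_
  rw [hφ]
  rfl

end P362
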