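import Vale.Agent.P362.GDefs
import Vale.Agent.P362.Link

/-!
# P362, module STEIN (3.1): link moments
-/

namespace P362

open scoped BigOperators
open MeasureTheory ProbabilityTheory
open Vale.Agent.P150

theorem chi_symm {n : ℕ} (i j : V n) : chi i j = chi j i := by
  unfold chi
  refine Finset.prod_congr rfl fun s _ => ?_
  rw [Bool.and_comm]

theorem Hd_symm {n : ℕ} (i j : V n) : Hd i j = Hd j i := by
  unfold Hd
  rw [chi_symm]

theorem sN_sq (n : ℕ) : sN n * sN n = 2 ^ n := by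
  unfold sN
  rw [← mul_pow, Real.mul_self_sqrt (by norm_num)]

theorem chi_orth {n : ℕ} (j j' : V n) :
    ∑ i, chi i j * chi i j' = if j = j' then 2 ^ n else 0 := by
  unfold chi
  simp only [← Finset.prod_mul_distrib]
  have h := Finset.prod_univ_sum (R := ℤ) (fun _ : Fin n => (Finset.univ : Finset Bool))
    (fun s b => (if b && j s then -1 else 1) * (if b && j' s then -1 else 1))
  rw [Fintype.piFinset_univ] at h
  rw [← h]
  by_cases hj : j = j'
  · subst hj
    rw [if_pos rfl]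
    have : ∀ s : Fin n, (∑ b : Bool, (if b && j s then (-1 : ℤ) else 1) *
        (if b && j s then -1 else 1)) = 2 := by
      intro s
      rw [Fintype.sum_bool]
      cases j s <;> simp
    simp only [this]
    simp
  · rw [if_neg hj]
    obtain ⟨s, hs⟩ := Function.ne_iff.1 hj
    refine Finset.prod_eq_zero (Finset.mem_univ s) ?_
    rw [Fintype.sum_bool]
    revert hs
    cases j s <;> cases j' s <;> simp

theorem Hd_orth {n : ℕ} (j j' : V n) : ∑ i, Hd i j * Hd i j' = if j = j' then 1 else 0 := by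
  have h : ∀ i, Hd i j * Hd i j' = ((chi i j * chi i j' : ℤ) : ℝ) / 2 ^ n := by
    intro i
    unfold Hd
    rw [div_mul_div_comm, sN_sq]
    push_cast
    rfl
  simp only [h]
  rw [← Finset.sum_div, ← Int.cast_sum, chi_orth]
  split_ifs
  · push_cast
    exact div_self (by positivity)
  · simp

theorem Hd_orth' {n : ℕ} (i j : V n) : ∑ k, Hd i k * Hd j k = if i = j then 1 else 0 := by
  rw [← Hd_orth i j]
  exact Finset.sum_congr rfl fun k _ => by rw [Hd_symm i k, Hd_symm j k]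

/-- Merge the two coordinates of a link. -/
def fromLk {n : ℕ} (ω : Lk n) (c : V n × Bool) : ℝ := if c.2 then ω.2 c.1 else ω.1 c.1

theorem measurable_fromLk {n : ℕ} : Measurable (fromLk : Lk n → V n × Bool → ℝ) := by
  refine measurable_pi_iff.2 fun c => ?_
  unfold fromLk
  rcases c with ⟨i, b⟩
  cases b
  · simp only [Bool.false_eq_true, if_false]
    fun_prop
  · simp only [if_true]
    fun_prop

theorem mp_fromLk {n : ℕ} : MeasurePreserving (fromLk : Lk n → V n × Bool → ℝ) (gam n)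
    (stdG (V n × Bool)) := by
  refine ⟨measurable_fromLk, ?_⟩
  unfold stdG
  symm
  refine Measure.pi_eq fun s hs => ?_
  rw [Measure.map_apply measurable_fromLk (MeasurableSet.univ_pi hs)]
  have h : (fromLk : Lk n → V n × Bool → ℝ) ⁻¹' Set.univ.pi s =
      (Set.univ.pi fun i => s (i, false)) ×ˢ (Set.univ.pi fun i => s (i, true)) := by
    ext ω
    simp only [Set.mem_preimage, Set.mem_pi, Set.mem_univ, true_implies, Set.mem_prod, fromLk,
      Prod.forall]
    constructor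
    · intro h
      exact ⟨fun i => by simpa using h i false, fun i => by simpa using h i true⟩
    · rintro ⟨h1, h2⟩ i b
      cases b
      · simpa using h1 i
      · simpa using h2 i
  rw [h]
  unfold gam
  rw [Measure.prod_prod, Measure.pi_pi, Measure.pi_pi, Fintype.prod_prod_type,
    ← Finset.prod_mul_distrib]
  refine Finset.prod_congr rfl fun i _ => ?_
  rw [Fintype.prod_bool, mul_comm]

theorem vv_eq {n : ℕ} (τ : ℝ) (ω : Lk n) (j : V n) : vv τ ω j = Link.v Hd τ (fromLk ω) j := rfl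

theorem mon_eq {n : ℕ} (η τ : ℝ) (T T' : Finset (V n)) (ω : Lk n) :
    (∏ i ∈ T, η * ω.1 i) * ∏ j ∈ T', η * vv τ ω j = Link.mon Hd η τ T T' (fromLk ω) := rfl

theorem integral_link {n : ℕ} (η τ : ℝ) (T T' : Finset (V n)) :
    ∫ ω : Lk n, (∏ i ∈ T, η * ω.1 i) * ∏ j ∈ T', η * vv τ ω j ∂(gam n) =
      Link.w Hd η τ T T' := by
  simp only [mon_eq]
  unfold Link.w
  rw [← mp_fromLk.map_eq, integral_map measurable_fromLk.aemeasurable
    (Link.continuous_mon T T').aestronglyMeasurable]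

theorem w1_eq {n : ℕ} (η : ℝ) (T T' : Finset (V n)) : w1 η T T' = Link.w Hd η 1 T T' :=
  integral_link η 1 T T'

theorem w1_rec {n : ℕ} (η : ℝ) (T T' : Finset (V n)) (i : V n) (hi : i ∈ T) :
    w1 η T T' = η ^ 2 * ∑ j ∈ T', Hd i j * w1 η (T.erase i) (T'.erase j) := by
  rw [w1_eq, Link.w_stein hi, one_mul]
  congr 1
  exact Finset.sum_congr rfl fun j _ => by rw [w1_eq, Hd_symm]

theorem w1_nil {n : ℕ} (η : ℝ) (T' : Finset (V n)) :
    w1 η ∅ T' = if T' = ∅ then 1 else 0 := by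
  rw [w1_eq]
  split_ifs with h
  · rw [h, Link.w_empty]
  · exact Link.w_null Hd_orth' (Finset.nonempty_iff_ne_empty.2 h)

/-- moments for general `τ ∈ [0,1]` -/
theorem w_tau {n : ℕ} (η τ : ℝ) (_ : 0 ≤ τ) (_ : τ ≤ 1) (T T' : Finset (V n)) :
    ∫ ω : Lk n, (∏ i ∈ T, η * ω.1 i) * ∏ j ∈ T', η * vv τ ω j ∂(gam n) =
      τ ^ T.card * w1 η T T' := by
  rw [integral_link, w1_eq, Link.w_scale Hd_orth']

theorem integrable_link {n : ℕ} (η τ : ℝ) (T T' : Finset (V n)) :
    Integrable (fun ω : Lk n => (∏ i ∈ T, η * ω.1 i) * ∏ j ∈ T', η * vv τ ω j) (gam n) := by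
  simp only [mon_eq]
  exact mp_fromLk.integrable_comp_of_integrable (Link.integrable_mon T T')

theorem w1_card {n : ℕ} (η : ℝ) (T T' : Finset (V n)) (h : T.card ≠ T'.card) :
    w1 η T T' = 0 := by
  rw [w1_eq]; exact Link.w_card Hd_orth' T T' h

theorem w1_one_one {n : ℕ} (η : ℝ) (i j : V n) : w1 η {i} {j} = η ^ 2 * Hd i j := by
  rw [w1_eq, Link.w_one_one, Hd_symm]

theorem w1_two_two {n : ℕ} (η : ℝ) {i j i' j' : V n} (h : i ≠ j) (h' : i' ≠ j') :
    w1 η {i, j} {i', j'} = η ^ 4 * (Hd i i' * Hd j j' + Hd i j' * Hd j i') := by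
  rw [w1_eq, Link.w_two_two h h', Hd_symm i' i, Hd_symm j' j, Hd_symm j' i, Hd_symm i' j]

/-- `v` is a standard Gaussian vector (used for `map_vv` of module TAIL). -/
theorem map_vv' {n : ℕ} (τ : ℝ) (h0 : 0 ≤ τ) (h1 : τ ≤ 1) :
    (gam n).map (fun ω => vv τ ω) = Measure.pi fun _ : V n => gaussianReal 0 1 := by
  have h := Link.map_v (V := V n) (H := Hd) (τ := τ) Hd_orth' (abs_le.2 ⟨by linarith, h1⟩)
  have hm : Measurable (fun ω : V n × Bool → ℝ => Link.v Hd τ ω) :=
    measurable_pi_iff.2 fun j => (Link.continuous_v j).measurable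
  rw [← mp_fromLk.map_eq, Measure.map_map hm measurable_fromLk] at h
  exact h

instance instProbGam (n : ℕ) : IsProbabilityMeasure (gam n) := by
  unfold gam; infer_instance

instance instProbGamPi (n r : ℕ) : IsProbabilityMeasure (Gam n r) := by
  unfold Gam; infer_instance

theorem mem_lev {n r : ℕ} {S : Finset (Fin (r + 1) × V n)} {l : Fin (r + 1)} {i : V n} :
    i ∈ lev S l ↔ (l, i) ∈ S := by
  unfold lev; simp

theorem prod_lev {n r : ℕ} (S : Finset (Fin (r + 1) × V n)) (f : Fin (r + 1) × V n → ℝ) :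
    ∏ x ∈ S, f x = ∏ l, ∏ i ∈ lev S l, f (l, i) := by
  have h : ∏ x ∈ S, f x = ∏ x, if x ∈ S then f x else 1 := by
    rw [Finset.prod_ite_mem, Finset.univ_inter]
  rw [h, Fintype.prod_prod_type]
  refine Finset.prod_congr rfl fun l _ => ?_
  unfold lev
  rw [Finset.prod_filter]

theorem zA_castSucc {n r : ℕ} (η : ℝ) (ω : Fin r → Lk n) (l : Fin r) (i : V n) :
    zA η ω (l.castSucc, i) = η * (ω l).1 i := by
  unfold zA
  simp

theorem zA_last {n r : ℕ} (η : ℝ) (ω : Fin r → Lk n) (i : V n) :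
    zA η ω (Fin.last r, i) = 1 := by
  unfold zA
  simp

theorem zB_succ {n r : ℕ} (η τ : ℝ) (ω : Fin r → Lk n) (l : Fin r) (i : V n) :
    zB η τ ω (l.succ, i) = η * vv (par τ l) (ω l) i := by
  unfold zB
  simp

theorem zB_zero {n r : ℕ} (η τ : ℝ) (ω : Fin r → Lk n) (i : V n) :
    zB η τ ω ((0 : Fin (r + 1)), i) = 1 := by
  unfold zB
  simp

theorem prod_zz_eq {n r : ℕ} (η τ : ℝ) (S : Finset (Fin (r + 1) × V n)) (ω : Fin r → Lk n) :
    ∏ t ∈ S, zz η τ ω t = ∏ l : Fin r, ((∏ i ∈ lev S l.castSucc, η * (ω l).1 i) *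
      ∏ j ∈ lev S l.succ, η * vv (par τ l) (ω l) j) := by
  have hA : ∏ l : Fin (r + 1), ∏ i ∈ lev S l, zA η ω (l, i) =
      ∏ l : Fin r, ∏ i ∈ lev S l.castSucc, η * (ω l).1 i := by
    rw [Fin.prod_univ_castSucc]
    simp only [zA_castSucc, zA_last, Finset.prod_const_one, mul_one]
  have hB : ∏ l : Fin (r + 1), ∏ i ∈ lev S l, zB η τ ω (l, i) =
      ∏ l : Fin r, ∏ i ∈ lev S l.succ, η * vv (par τ l) (ω l) i := by
    rw [Fin.prod_univ_succ]
    simp only [zB_succ, zB_zero, Finset.prod_const_one, one_mul]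
  have h : ∏ l : Fin (r + 1), ∏ i ∈ lev S l, zA η ω (l, i) * zB η τ ω (l, i) =
      (∏ l : Fin (r + 1), ∏ i ∈ lev S l, zA η ω (l, i)) *
        ∏ l : Fin (r + 1), ∏ i ∈ lev S l, zB η τ ω (l, i) := by
    rw [← Finset.prod_mul_distrib]
    exact Finset.prod_congr rfl fun l _ => Finset.prod_mul_distrib
  rw [prod_lev]
  unfold zz
  rw [h, hA, hB, ← Finset.prod_mul_distrib]

/-- independence of the links -/
theorem integral_zz {n r : ℕ} (hr : 1 ≤ r) (η τ : ℝ) (h0 : 0 ≤ τ) (h1 : τ ≤ 1)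
    (S : Finset (Fin (r + 1) × V n)) :
    Integrable (fun ω => ∏ t ∈ S, zz η τ ω t) (Gam n r) ∧
      ∫ ω, ∏ t ∈ S, zz η τ ω t ∂(Gam n r) = mm η τ S := by
  simp only [prod_zz_eq]
  unfold Gam
  constructor
  · exact Integrable.fintype_prod (f := fun (l : Fin r) (ω : Lk n) =>
      (∏ i ∈ lev S l.castSucc, η * ω.1 i) * ∏ j ∈ lev S l.succ, η * vv (par τ l) ω j)
      fun l => integrable_link η (par τ l) _ _
  · rw [integral_fintype_prod_eq_prod (fun (l : Fin r) (ω : Lk n) =>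
      (∏ i ∈ lev S l.castSucc, η * ω.1 i) * ∏ j ∈ lev S l.succ, η * vv (par τ l) ω j)]
    obtain ⟨r, rfl⟩ : ∃ r', r = r' + 1 := ⟨r - 1, by omega⟩
    have hp : ∀ l : Fin (r + 1), 0 ≤ par τ l ∧ par τ l ≤ 1 := by
      intro l
      unfold par
      split_ifs
      · exact ⟨h0, h1⟩
      · exact ⟨zero_le_one, le_refl _⟩
    have h2 : ∀ l : Fin (r + 1), ∫ ω : Lk n, (∏ i ∈ lev S l.castSucc, η * ω.1 i) *
        ∏ j ∈ lev S l.succ, η * vv (par τ l) ω j ∂(gam n) =
        par τ l ^ (lev S l.castSucc).card * w1 η (lev S l.castSucc) (lev S l.succ) :=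
      fun l => w_tau η (par τ l) (hp l).1 (hp l).2 _ _
    simp only [h2]
    unfold mm
    rw [Finset.prod_mul_distrib]
    congr 1
    rw [Fin.prod_univ_succ]
    simp [par]

end P362
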