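import Vale.Agent.P362.Stein
import Vale.Agent.P362.Link

/-!
# P362, module TAIL (3.3)
-/

namespace P362

open scoped BigOperators
open MeasureTheory ProbabilityTheory

namespace Tl

set_option linter.unusedSectionVars false

/-- `max 1 |ηx|` -/
noncomputable def mx (η x : ℝ) : ℝ := max 1 |η * x|

/-- `max 1 (ηx)²` -/
noncomputable def qx (η x : ℝ) : ℝ := max 1 ((η * x) ^ 2)

/-- the tail of `qx` -/
noncomputable def tx (η x : ℝ) : ℝ := if 1 / 2 < |η * x| then qx η x else 0

theorem mx_sq (η x : ℝ) : mx η x ^ 2 = qx η x := by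
  unfold mx qx
  rcases le_total 1 |η * x| with h | h
  · have h2 : 1 ≤ (η * x) ^ 2 := by rw [← sq_abs]; nlinarith
    rw [max_eq_right h, max_eq_right h2, sq_abs]
  · have h2 : (η * x) ^ 2 ≤ 1 := by rw [← sq_abs]; nlinarith [abs_nonneg (η * x)]
    rw [max_eq_left h, max_eq_left h2, one_pow]

theorem measurable_mx (η : ℝ) : Measurable (mx η) := by unfold mx; fun_prop

theorem measurable_qx (η : ℝ) : Measurable (qx η) := by unfold qx; fun_prop

theorem measurable_tx (η : ℝ) : Measurable (tx η) := by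
  unfold tx
  exact Measurable.ite (measurableSet_lt measurable_const (by fun_prop)) (measurable_qx η)
    measurable_const

theorem one_le_mx (η x : ℝ) : 1 ≤ mx η x := le_max_left _ _

theorem one_le_qx (η x : ℝ) : 1 ≤ qx η x := le_max_left _ _

theorem tx_nonneg (η x : ℝ) : 0 ≤ tx η x := by
  unfold tx
  split_ifs
  · linarith [one_le_qx η x]
  · exact le_rfl

theorem tx_le (η x : ℝ) : tx η x ≤ qx η x := by
  unfold tx
  split_ifs
  · exact le_rfl
  · linarith [one_le_qx η x]

theorem qx_le (η x : ℝ) : qx η x ≤ 1 + tx η x := by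
  unfold tx
  split_ifs with h
  · linarith [one_le_qx η x]
  · unfold qx
    push Not at h
    have h2 : (η * x) ^ 2 ≤ 1 := by rw [← sq_abs]; nlinarith [abs_nonneg (η * x)]
    rw [max_eq_left h2]
    simp

theorem integrable_qx (η : ℝ) : Integrable (qx η) (gaussianReal 0 1) := by
  have h2 : Integrable (fun x : ℝ => 1 + η ^ 2 * x ^ 2) (gaussianReal 0 1) := by
    have := (memLp_id_gaussianReal (μ := 0) (v := 1) 2).integrable_sq
    exact (integrable_const _).add (this.const_mul _)
  refine h2.mono' (measurable_qx η).aestronglyMeasurable (Filter.Eventually.of_forall fun x => ?_)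
  have h0 : 0 ≤ qx η x := by linarith [one_le_qx η x]
  rw [Real.norm_eq_abs, abs_of_nonneg h0]
  unfold qx
  refine max_le ?_ ?_ <;> nlinarith [sq_nonneg (η * x)]

theorem integrable_tx (η : ℝ) : Integrable (tx η) (gaussianReal 0 1) := by
  refine (integrable_qx η).mono' (measurable_tx η).aestronglyMeasurable
    (Filter.Eventually.of_forall fun x => ?_)
  rw [Real.norm_eq_abs, abs_of_nonneg (tx_nonneg η x)]
  exact tx_le η x

theorem rho_eq (η : ℝ) : rho η = ∫ x, tx η x ∂(gaussianReal 0 1) := rfl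

theorem rho_nonneg' (η : ℝ) : 0 ≤ rho η := integral_nonneg fun x => tx_nonneg η x

theorem int_qx_le (η : ℝ) : ∫ x, qx η x ∂(gaussianReal 0 1) ≤ 1 + rho η := by
  rw [rho_eq]
  have h : ∫ x, (1 + tx η x) ∂(gaussianReal 0 1) = 1 + ∫ x, tx η x ∂(gaussianReal 0 1) := by
    rw [integral_add (integrable_const _) (integrable_tx η)]
    simp
  rw [← h]
  exact integral_mono (integrable_qx η) ((integrable_const _).add (integrable_tx η))
    fun x => qx_le η x

theorem int_qx_nonneg (η : ℝ) : 0 ≤ ∫ x, qx η x ∂(gaussianReal 0 1) :=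
  integral_nonneg fun x => zero_le_one.trans (one_le_qx η x)

section Pi

variable {ι : Type} [Fintype ι] [DecidableEq ι]

/-- product Gaussian -/

theorem integrable_prod_qx (η : ℝ) : Integrable (fun x : ι → ℝ => ∏ i, qx η (x i)) (Measure.pi fun _ : ι => gaussianReal 0 1) :=
  Integrable.fintype_prod (fun _ => integrable_qx η)

theorem int_prod_qx (η : ℝ) :
    ∫ x : ι → ℝ, ∏ i, qx η (x i) ∂(Measure.pi fun _ : ι => gaussianReal 0 1) ≤ (1 + rho η) ^ Fintype.card ι := by
  rw [integral_fintype_prod_eq_prod (fun (_ : ι) (x : ℝ) => qx η x), Finset.prod_const,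
    Finset.card_univ]
  exact pow_le_pow_left₀ (int_qx_nonneg η) (int_qx_le η) _

/-- the bad event of a family -/
def Bd (η : ℝ) (x : ι → ℝ) : Prop := ∃ i, 1 / 2 < |η * x i|

open Classical in
/-- indicator times product -/
noncomputable def bq (η : ℝ) (x : ι → ℝ) : ℝ := if Bd η x then ∏ i, qx η (x i) else 0

theorem measurableSet_Bd (η : ℝ) : MeasurableSet {x : ι → ℝ | Bd η x} := by
  have : {x : ι → ℝ | Bd η x} = ⋃ i, {x : ι → ℝ | 1 / 2 < |η * x i|} := by
    ext x
    simp [Bd]
  rw [this]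
  exact MeasurableSet.iUnion fun i => measurableSet_lt measurable_const (by fun_prop)

theorem bq_le (η : ℝ) (x : ι → ℝ) :
    bq η x ≤ ∑ i, ∏ j, (fun (j : ι) (y : ℝ) => if j = i then tx η y else qx η y) j (x j) := by
  have hnn : ∀ i j : ι, 0 ≤ (fun (j : ι) (y : ℝ) => if j = i then tx η y else qx η y) j (x j) := by
    intro i j
    dsimp only
    split_ifs
    · exact tx_nonneg _ _
    · linarith [one_le_qx η (x j)]
  unfold bq
  split_ifs with h
  · obtain ⟨i, hi⟩ := h
    refine le_trans ?_ (Finset.single_le_sum (f := fun i => ∏ j,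
      (fun (j : ι) (y : ℝ) => if j = i then tx η y else qx η y) j (x j))
      (fun i _ => Finset.prod_nonneg fun j _ => hnn i j) (Finset.mem_univ i))
    refine le_of_eq (Finset.prod_congr rfl fun j _ => ?_)
    dsimp only
    split_ifs with hj
    · subst hj
      unfold tx
      rw [if_pos hi]
    · rfl
  · exact Finset.sum_nonneg fun i _ => Finset.prod_nonneg fun j _ => hnn i j

theorem measurable_prod_qx (η : ℝ) : Measurable (fun x : ι → ℝ => ∏ i, qx η (x i)) :=
  Finset.measurable_prod _ fun i _ => (measurable_qx η).comp (measurable_pi_apply i)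

theorem measurable_bq (η : ℝ) : Measurable (bq η : (ι → ℝ) → ℝ) := by
  classical
  unfold bq
  exact Measurable.ite (measurableSet_Bd η) (measurable_prod_qx η) measurable_const

theorem prod_qx_nonneg (η : ℝ) (x : ι → ℝ) : 0 ≤ ∏ i, qx η (x i) :=
  Finset.prod_nonneg fun i _ => zero_le_one.trans (one_le_qx η (x i))

theorem bq_nonneg (η : ℝ) (x : ι → ℝ) : 0 ≤ bq η x := by
  unfold bq
  split_ifs
  · exact prod_qx_nonneg η x
  · exact le_rfl

theorem bq_le' (η : ℝ) (x : ι → ℝ) : bq η x ≤ ∏ i, qx η (x i) := by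
  unfold bq
  split_ifs
  · exact le_rfl
  · exact prod_qx_nonneg η x

theorem integrable_bq (η : ℝ) : Integrable (bq η : (ι → ℝ) → ℝ) (Measure.pi fun _ : ι => gaussianReal 0 1) := by
  refine (integrable_prod_qx η).mono' (measurable_bq η).aestronglyMeasurable
    (Filter.Eventually.of_forall fun x => ?_)
  rw [Real.norm_eq_abs, abs_of_nonneg (bq_nonneg η x)]
  exact bq_le' η x

theorem int_bq (η : ℝ) :
    ∫ x : ι → ℝ, bq η x ∂(Measure.pi fun _ : ι => gaussianReal 0 1) ≤ (Fintype.card ι * rho η) * (1 + rho η) ^ Fintype.card ι := by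
  have hI : ∀ i : ι, Integrable (fun x : ι → ℝ => ∏ j,
      (fun (j : ι) (y : ℝ) => if j = i then tx η y else qx η y) j (x j)) (Measure.pi fun _ : ι => gaussianReal 0 1) := by
    intro i
    refine Integrable.fintype_prod (μ := fun _ : ι => gaussianReal 0 1)
      (f := fun (j : ι) (y : ℝ) => if j = i then tx η y else qx η y) fun j => ?_
    by_cases hj : j = i
    · simp only [if_pos hj]
      exact integrable_tx η
    · simp only [if_neg hj]
      exact integrable_qx η
  refine (integral_mono (integrable_bq η) (integrable_finsetSum _ fun i _ => hI i)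
    fun x => bq_le η x).trans ?_
  rw [integral_finsetSum _ fun i _ => hI i]
  have hr := rho_nonneg' η
  have h1 : ∀ i : ι, ∫ x : ι → ℝ, ∏ j,
      (fun (j : ι) (y : ℝ) => if j = i then tx η y else qx η y) j (x j) ∂(Measure.pi fun _ : ι => gaussianReal 0 1) ≤
      rho η * (1 + rho η) ^ Fintype.card ι := by
    intro i
    rw [integral_fintype_prod_eq_prod (fun (j : ι) (y : ℝ) => if j = i then tx η y else qx η y),
      ← Finset.mul_prod_erase _ _ (Finset.mem_univ i)]
    simp only [if_true]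
    rw [← rho_eq]
    refine mul_le_mul_of_nonneg_left ?_ hr
    have h2 : ∀ j ∈ Finset.univ.erase i,
        ∫ y, (if j = i then tx η y else qx η y) ∂(gaussianReal 0 1) =
        ∫ y, qx η y ∂(gaussianReal 0 1) := by
      intro j hj
      simp only [if_neg (Finset.ne_of_mem_erase hj)]
    rw [Finset.prod_congr rfl h2, Finset.prod_const]
    refine (pow_le_pow_left₀ (int_qx_nonneg η) (int_qx_le η) _).trans ?_
    refine pow_le_pow_right₀ (by linarith) ?_
    exact (Finset.card_erase_le).trans (by simp)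
  refine (Finset.sum_le_sum fun i _ => h1 i).trans ?_
  rw [Finset.sum_const, Finset.card_univ, nsmul_eq_mul]
  exact le_of_eq (by ring)

end Pi

/-- Cauchy–Schwarz -/
theorem cs {α : Type} [MeasurableSpace α] {μ : Measure α} (f g : α → ℝ)
    (hf : Integrable (fun x => f x ^ 2) μ) (hg : Integrable (fun x => g x ^ 2) μ)
    (hfg : Integrable (fun x => f x * g x) μ) :
    (∫ x, f x * g x ∂μ) ^ 2 ≤ (∫ x, f x ^ 2 ∂μ) * ∫ x, g x ^ 2 ∂μ := by
  have h : ∀ t : ℝ, 0 ≤ (∫ x, g x ^ 2 ∂μ) * (t * t) + (2 * ∫ x, f x * g x ∂μ) * t +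
      ∫ x, f x ^ 2 ∂μ := by
    intro t
    have h1 : 0 ≤ ∫ x, (f x + t * g x) ^ 2 ∂μ := integral_nonneg fun x => sq_nonneg _
    have h2 : ∫ x, (f x + t * g x) ^ 2 ∂μ = ∫ x, (f x ^ 2 + (2 * t) * (f x * g x) +
        (t * t) * g x ^ 2) ∂μ := by
      congr 1
      funext x
      ring
    have hA : Integrable (fun x => f x ^ 2 + (2 * t) * (f x * g x)) μ :=
      hf.add (hfg.const_mul _)
    rw [h2, integral_add hA (hg.const_mul _),
      integral_add hf (hfg.const_mul _), integral_const_mul, integral_const_mul] at h1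
    linarith
  have h3 := discrim_le_zero h
  unfold discrim at h3
  nlinarith

end Tl

open Tl

/-- `v` is a standard Gaussian vector for every `τ ∈ [0,1]` -/
theorem map_vv {n : ℕ} (τ : ℝ) (h0 : 0 ≤ τ) (h1 : τ ≤ 1) :
    (gam n).map (fun ω => vv τ ω) = Measure.pi fun _ : V n => gaussianReal 0 1 := by
  have hs : 0 ≤ 1 - τ ^ 2 := by nlinarith
  have hmp : MeasurePreserving
      (MeasurableEquiv.sumPiEquivProdPi (fun _ : V n ⊕ V n => ℝ))
      (Measure.pi fun _ : V n ⊕ V n => gaussianReal 0 1) (gam n) :=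
    measurePreserving_sumPiEquivProdPi (fun _ : V n ⊕ V n => gaussianReal 0 1)
  have hvm : Measurable (fun ω : Lk n => vv τ ω) := by
    unfold vv
    fun_prop
  rw [← hmp.map_eq, Measure.map_map hvm (MeasurableEquiv.measurable _)]
  have h := Link.map_orth (ι := V n ⊕ V n) (κ := V n)
    (fun j c => Sum.elim (fun i => τ * Hd j i)
      (fun i => if i = j then Real.sqrt (1 - τ ^ 2) else 0) c) (by
      intro i j
      rw [Fintype.sum_sum_type]
      simp only [Sum.elim_inl, Sum.elim_inr]
      have h2 : ∑ x : V n, τ * Hd i x * (τ * Hd j x) = if i = j then τ ^ 2 else 0 := by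
        have : ∀ x, τ * Hd i x * (τ * Hd j x) = τ ^ 2 * (Hd x i * Hd x j) := fun x => by
          rw [Hd_symm x i, Hd_symm x j]; ring
        simp only [this]
        rw [← Finset.mul_sum, Hd_orth]
        split_ifs <;> ring
      have h3 : ∑ x : V n, ((if x = i then Real.sqrt (1 - τ ^ 2) else 0) *
          if x = j then Real.sqrt (1 - τ ^ 2) else 0) = if i = j then 1 - τ ^ 2 else 0 := by
        simp only [ite_mul, zero_mul, Finset.sum_ite_eq', Finset.mem_univ, if_true]
        by_cases hij : i = j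
        · rw [if_pos hij, if_pos hij, Real.mul_self_sqrt hs]
        · rw [if_neg hij, if_neg hij, mul_zero]
      rw [h2, h3]
      split_ifs <;> ring)
  unfold Vale.Agent.P150.stdG at h
  rw [← h]
  congr 1
  funext ω j
  rw [Fintype.sum_sum_type]
  simp only [Sum.elim_inl, Sum.elim_inr]
  simp only [ite_mul, zero_mul, Finset.sum_ite_eq', Finset.mem_univ, if_true]
  simp only [Function.comp_apply, vv]
  rw [Finset.mul_sum]
  congr 1
  exact Finset.sum_congr rfl fun k _ => by rw [mul_assoc]; rfl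


namespace Tl

theorem measurable_vv {n : ℕ} (τ : ℝ) : Measurable (fun ω : Lk n => vv τ ω) := by
  unfold vv
  fun_prop

theorem mp_fst {n : ℕ} : MeasurePreserving (fun ω : Lk n => ω.1) (gam n)
    (Measure.pi fun _ : V n => gaussianReal 0 1) := measurePreserving_fst

theorem mp_vv {n : ℕ} (τ : ℝ) (h0 : 0 ≤ τ) (h1 : τ ≤ 1) :
    MeasurePreserving (fun ω : Lk n => vv τ ω) (gam n)
      (Measure.pi fun _ : V n => gaussianReal 0 1) := ⟨measurable_vv τ, map_vv τ h0 h1⟩

section link

variable {n : ℕ} {η : ℝ}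

/-- product of `mx` -/
noncomputable def pm (η : ℝ) (x : V n → ℝ) : ℝ := ∏ i, mx η (x i)

open Classical in
/-- truncated product of `mx` -/
noncomputable def bp (η : ℝ) (x : V n → ℝ) : ℝ := if Bd η x then pm η x else 0

theorem measurable_pm : Measurable (pm η : (V n → ℝ) → ℝ) :=
  Finset.measurable_prod _ fun i _ => (measurable_mx η).comp (measurable_pi_apply i)

theorem measurable_bp : Measurable (bp η : (V n → ℝ) → ℝ) := by
  classical
  unfold bp
  exact Measurable.ite (measurableSet_Bd η) measurable_pm measurable_const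

theorem pm_pos (x : V n → ℝ) : 0 < pm η x :=
  Finset.prod_pos fun i _ => zero_lt_one.trans_le (one_le_mx η (x i))

theorem bp_nonneg (x : V n → ℝ) : 0 ≤ bp η x := by
  unfold bp
  split_ifs
  · exact (pm_pos x).le
  · exact le_rfl

theorem bp_le (x : V n → ℝ) : bp η x ≤ pm η x := by
  unfold bp
  split_ifs
  · exact le_rfl
  · exact (pm_pos x).le

theorem pm_sq (x : V n → ℝ) : pm η x ^ 2 = ∏ i, qx η (x i) := by
  unfold pm
  rw [← Finset.prod_pow]
  exact Finset.prod_congr rfl fun i _ => mx_sq η (x i)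

theorem bp_sq (x : V n → ℝ) : bp η x ^ 2 = bq η x := by
  unfold bp bq
  split_ifs
  · exact pm_sq x
  · simp

variable {X Y : Lk n → V n → ℝ}

theorem integrable_pm_sq (hX : MeasurePreserving X (gam n)
    (Measure.pi fun _ : V n => gaussianReal 0 1)) :
    Integrable (fun ω => pm η (X ω) ^ 2) (gam n) := by
  simp only [pm_sq]
  exact hX.integrable_comp_of_integrable (integrable_prod_qx η)

theorem int_pm_sq (hX : MeasurePreserving X (gam n)
    (Measure.pi fun _ : V n => gaussianReal 0 1)) :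
    ∫ ω, pm η (X ω) ^ 2 ∂(gam n) ≤ (1 + rho η) ^ (2 ^ n) := by
  simp only [pm_sq]
  have h := int_prod_qx (ι := V n) η
  rw [← hX.map_eq, integral_map hX.measurable.aemeasurable
    (measurable_prod_qx η).aestronglyMeasurable] at h
  have hc : Fintype.card (V n) = 2 ^ n := by simp
  rwa [hc] at h

theorem integrable_bp_sq (hX : MeasurePreserving X (gam n)
    (Measure.pi fun _ : V n => gaussianReal 0 1)) :
    Integrable (fun ω => bp η (X ω) ^ 2) (gam n) := by
  simp only [bp_sq]
  exact hX.integrable_comp_of_integrable (integrable_bq η)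

theorem int_bp_sq (hX : MeasurePreserving X (gam n)
    (Measure.pi fun _ : V n => gaussianReal 0 1)) :
    ∫ ω, bp η (X ω) ^ 2 ∂(gam n) ≤ (2 ^ n * rho η) * (1 + rho η) ^ (2 ^ n) := by
  simp only [bp_sq]
  have h := int_bq (ι := V n) η
  rw [← hX.map_eq, integral_map hX.measurable.aemeasurable
    (measurable_bq η).aestronglyMeasurable] at h
  have hc : Fintype.card (V n) = 2 ^ n := by simp
  rw [hc] at h
  push_cast at h
  exact h

theorem integrable_pm_pm (hX : MeasurePreserving X (gam n)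
    (Measure.pi fun _ : V n => gaussianReal 0 1)) (hY : MeasurePreserving Y (gam n)
    (Measure.pi fun _ : V n => gaussianReal 0 1)) :
    Integrable (fun ω => pm η (X ω) * pm η (Y ω)) (gam n) := by
  refine ((integrable_pm_sq (η := η) hX).add (integrable_pm_sq (η := η) hY)).mono'
    ((measurable_pm.comp hX.measurable).mul
      (measurable_pm.comp hY.measurable)).aestronglyMeasurable
    (Filter.Eventually.of_forall fun ω => ?_)
  rw [Real.norm_eq_abs, abs_of_pos (mul_pos (pm_pos _) (pm_pos _))]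
  simp only [Pi.add_apply]
  nlinarith [sq_nonneg (pm η (X ω) - pm η (Y ω)), pm_pos (η := η) (X ω), pm_pos (η := η) (Y ω)]

theorem integrable_bp_pm (hX : MeasurePreserving X (gam n)
    (Measure.pi fun _ : V n => gaussianReal 0 1)) (hY : MeasurePreserving Y (gam n)
    (Measure.pi fun _ : V n => gaussianReal 0 1)) :
    Integrable (fun ω => bp η (X ω) * pm η (Y ω)) (gam n) := by
  refine (integrable_pm_pm (η := η) hX hY).mono'
    ((measurable_bp.comp hX.measurable).mul
      (measurable_pm.comp hY.measurable)).aestronglyMeasurable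
    (Filter.Eventually.of_forall fun ω => ?_)
  rw [Real.norm_eq_abs, abs_of_nonneg (mul_nonneg (bp_nonneg _) (pm_pos _).le)]
  exact mul_le_mul_of_nonneg_right (bp_le _) (pm_pos _).le

theorem int_pm_pm (hX : MeasurePreserving X (gam n)
    (Measure.pi fun _ : V n => gaussianReal 0 1)) (hY : MeasurePreserving Y (gam n)
    (Measure.pi fun _ : V n => gaussianReal 0 1)) :
    ∫ ω, pm η (X ω) * pm η (Y ω) ∂(gam n) ≤ (1 + rho η) ^ (2 ^ n) := by
  have hr := rho_nonneg' η
  have h := cs (fun ω => pm η (X ω)) (fun ω => pm η (Y ω)) (integrable_pm_sq hX)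
    (integrable_pm_sq hY) (integrable_pm_pm hX hY)
  have hK : 0 ≤ (1 + rho η) ^ (2 ^ n) := by positivity
  have h2 : (∫ ω, pm η (X ω) * pm η (Y ω) ∂(gam n)) ^ 2 ≤ ((1 + rho η) ^ (2 ^ n)) ^ 2 := by
    refine h.trans ?_
    rw [sq ((1 + rho η) ^ (2 ^ n))]
    exact mul_le_mul (int_pm_sq hX) (int_pm_sq hY) (integral_nonneg fun x => sq_nonneg _) hK
  exact (le_abs_self _).trans (abs_le_of_sq_le_sq h2 hK)

theorem int_bp_pm (hX : MeasurePreserving X (gam n)
    (Measure.pi fun _ : V n => gaussianReal 0 1)) (hY : MeasurePreserving Y (gam n)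
    (Measure.pi fun _ : V n => gaussianReal 0 1)) :
    ∫ ω, bp η (X ω) * pm η (Y ω) ∂(gam n) ≤
      Real.sqrt (2 ^ n * rho η) * (1 + rho η) ^ (2 ^ n) := by
  have hr := rho_nonneg' η
  have h := cs (fun ω => bp η (X ω)) (fun ω => pm η (Y ω)) (integrable_bp_sq hX)
    (integrable_pm_sq hY) (integrable_bp_pm hX hY)
  have hK : 0 ≤ (1 + rho η) ^ (2 ^ n) := by positivity
  have h2 : (∫ ω, bp η (X ω) * pm η (Y ω) ∂(gam n)) ^ 2 ≤
      (Real.sqrt (2 ^ n * rho η) * (1 + rho η) ^ (2 ^ n)) ^ 2 := by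
    refine h.trans ?_
    rw [mul_pow, Real.sq_sqrt (by positivity), sq ((1 + rho η) ^ (2 ^ n)), ← mul_assoc]
    exact mul_le_mul (int_bp_sq hX) (int_pm_sq hY) (integral_nonneg fun x => sq_nonneg _)
      (by positivity)
  exact (le_abs_self _).trans (abs_le_of_sq_le_sq h2 (by positivity))

end link

section chain

variable {n r : ℕ} {η τ : ℝ}

theorem par_nonneg (h0 : 0 ≤ τ) (l : Fin r) : 0 ≤ par τ l := by
  unfold par
  split_ifs
  · exact h0
  · exact zero_le_one

theorem par_le_one (h1 : τ ≤ 1) (l : Fin r) : par τ l ≤ 1 := by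
  unfold par
  split_ifs
  · exact h1
  · exact le_rfl

/-- the factor of link `l` -/
noncomputable def Gl (η τ : ℝ) (l : Fin r) (x : Lk n) : ℝ := pm η x.1 * pm η (vv (par τ l) x)

theorem Gl_pos (l : Fin r) (x : Lk n) : 0 < Gl η τ l x := mul_pos (pm_pos _) (pm_pos _)

theorem integrable_Gl (h0 : 0 ≤ τ) (h1 : τ ≤ 1) (l : Fin r) :
    Integrable (Gl η τ l : Lk n → ℝ) (gam n) :=
  integrable_pm_pm mp_fst (mp_vv _ (par_nonneg h0 l) (par_le_one h1 l))

theorem int_Gl (h0 : 0 ≤ τ) (h1 : τ ≤ 1) (l : Fin r) :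
    ∫ x, Gl η τ l x ∂(gam n) ≤ (1 + rho η) ^ (2 ^ n) :=
  int_pm_pm mp_fst (mp_vv _ (par_nonneg h0 l) (par_le_one h1 l))

theorem dom_eq (ω : Fin r → Lk n) : dom η τ ω = ∏ l, Gl η τ l (ω l) := by
  unfold dom Gl pm mx
  exact Finset.prod_congr rfl fun l _ => Finset.prod_mul_distrib

instance instProbGam : IsProbabilityMeasure (gam n) := by
  unfold gam
  infer_instance

theorem int_chain (h0 : 0 ≤ τ) (h1 : τ ≤ 1) (l : Fin r) (h : Lk n → ℝ)
    (hh : Integrable h (gam n)) (_hh0 : ∀ x, 0 ≤ h x)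
    (hh1 : ∫ x, h x ∂(gam n) ≤ Real.sqrt (2 ^ n * rho η) * (1 + rho η) ^ (2 ^ n)) :
    Integrable (fun ω : Fin r → Lk n => ∏ l',
      (fun (l' : Fin r) (x : Lk n) => if l' = l then h x else Gl η τ l' x) l' (ω l')) (Gam n r) ∧
    ∫ ω : Fin r → Lk n, ∏ l',
      (fun (l' : Fin r) (x : Lk n) => if l' = l then h x else Gl η τ l' x) l' (ω l') ∂(Gam n r) ≤
      Real.sqrt (2 ^ n * rho η) * (1 + rho η) ^ (2 ^ n * r) := by
  have hr := rho_nonneg' η
  constructor
  · refine Integrable.fintype_prod (μ := fun _ : Fin r => gam n)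
      (f := fun (l' : Fin r) (x : Lk n) => if l' = l then h x else Gl η τ l' x) fun l' => ?_
    by_cases hl : l' = l
    · simp only [if_pos hl]
      exact hh
    · simp only [if_neg hl]
      exact integrable_Gl h0 h1 l'
  · unfold Gam
    rw [integral_fintype_prod_eq_prod (fun (l' : Fin r) (x : Lk n) =>
      if l' = l then h x else Gl η τ l' x), ← Finset.mul_prod_erase _ _ (Finset.mem_univ l)]
    simp only [if_true]
    have h2 : ∏ l' ∈ Finset.univ.erase l,
        ∫ x, (if l' = l then h x else Gl η τ l' x) ∂(gam n) ≤ ((1 + rho η) ^ (2 ^ n)) ^ (r - 1) := by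
      have hc : (Finset.univ.erase l).card = r - 1 := by
        rw [Finset.card_erase_of_mem (Finset.mem_univ l)]
        simp
      rw [← hc, ← Finset.prod_const]
      refine Finset.prod_le_prod (fun l' hl => ?_) fun l' hl => ?_
      · simp only [if_neg (Finset.ne_of_mem_erase hl)]
        exact integral_nonneg fun x => (Gl_pos l' x).le
      · simp only [if_neg (Finset.ne_of_mem_erase hl)]
        exact int_Gl h0 h1 l'
    have hp : 0 ≤ ∏ l' ∈ Finset.univ.erase l,
        ∫ x, (if l' = l then h x else Gl η τ l' x) ∂(gam n) := by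
      refine Finset.prod_nonneg fun l' hl => ?_
      simp only [if_neg (Finset.ne_of_mem_erase hl)]
      exact integral_nonneg fun x => (Gl_pos l' x).le
    refine (mul_le_mul hh1 h2 hp (by positivity)).trans (le_of_eq ?_)
    rw [mul_assoc, ← pow_succ', Nat.sub_add_cancel (Nat.one_le_iff_ne_zero.mpr (by
      intro h; subst h; exact l.elim0)), ← pow_mul]

end chain

end Tl

theorem measurableSet_bad {n r : ℕ} (η τ : ℝ) :
    MeasurableSet (bad η τ : Set (Fin r → Lk n)) := by
  have : (bad η τ : Set (Fin r → Lk n)) = ⋃ l : Fin r, ⋃ i : V n,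
      ({ω | 1 / 2 < |η * (ω l).1 i|} ∪ {ω | 1 / 2 < |η * vv (par τ l) (ω l) i|}) := by
    ext ω
    simp [bad]
  rw [this]
  refine MeasurableSet.iUnion fun l => MeasurableSet.iUnion fun i => MeasurableSet.union ?_ ?_
  · exact measurableSet_lt measurable_const (by fun_prop)
  · have h : Measurable (fun ω : Fin r → Lk n => vv (par τ l) (ω l) i) :=
      (measurable_pi_apply i).comp ((measurable_vv (par τ l)).comp (measurable_pi_apply l))
    exact measurableSet_lt measurable_const ((h.const_mul η).abs)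

theorem integrable_dom {n r : ℕ} (η τ : ℝ) (h0 : 0 ≤ τ) (h1 : τ ≤ 1) :
    Integrable (fun ω => dom η τ ω) (Gam n r) := by
  simp only [dom_eq]
  exact Integrable.fintype_prod (μ := fun _ : Fin r => gam n)
    (f := fun (l : Fin r) (x : Lk n) => Gl η τ l x) fun l => integrable_Gl h0 h1 l

theorem tail_bound {n r : ℕ} (η τ : ℝ) (h0 : 0 ≤ τ) (h1 : τ ≤ 1) :
    ∫ ω in bad η τ, dom η τ ω ∂(Gam n r) ≤ eps1 n r η := by
  have hu : ∀ l : Fin r, _ := fun l : Fin r => int_chain (η := η) h0 h1 l
    (fun x : Lk n => bp η x.1 * pm η (vv (par τ l) x))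
    (integrable_bp_pm mp_fst (mp_vv _ (par_nonneg h0 l) (par_le_one h1 l)))
    (fun x => mul_nonneg (bp_nonneg _) (pm_pos _).le)
    (int_bp_pm mp_fst (mp_vv _ (par_nonneg h0 l) (par_le_one h1 l)))
  have hv : ∀ l : Fin r, _ := fun l : Fin r => int_chain (η := η) h0 h1 l
    (fun x : Lk n => bp η (vv (par τ l) x) * pm η x.1)
    (integrable_bp_pm (mp_vv _ (par_nonneg h0 l) (par_le_one h1 l)) mp_fst)
    (fun x => mul_nonneg (bp_nonneg _) (pm_pos _).le)
    (int_bp_pm (mp_vv _ (par_nonneg h0 l) (par_le_one h1 l)) mp_fst)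
  rw [← integral_indicator (measurableSet_bad η τ)]
  set Fu : Fin r → (Fin r → Lk n) → ℝ := fun l ω => ∏ l',
    (fun (l' : Fin r) (x : Lk n) => if l' = l then bp η x.1 * pm η (vv (par τ l) x)
      else Gl η τ l' x) l' (ω l') with hFu
  set Fv : Fin r → (Fin r → Lk n) → ℝ := fun l ω => ∏ l',
    (fun (l' : Fin r) (x : Lk n) => if l' = l then bp η (vv (par τ l) x) * pm η x.1
      else Gl η τ l' x) l' (ω l') with hFv
  have hFu0 : ∀ l ω, 0 ≤ Fu l ω := by
    intro l ω
    refine Finset.prod_nonneg fun l' _ => ?_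
    dsimp only
    split_ifs
    · exact mul_nonneg (bp_nonneg _) (pm_pos _).le
    · exact (Gl_pos _ _).le
  have hFv0 : ∀ l ω, 0 ≤ Fv l ω := by
    intro l ω
    refine Finset.prod_nonneg fun l' _ => ?_
    dsimp only
    split_ifs
    · exact mul_nonneg (bp_nonneg _) (pm_pos _).le
    · exact (Gl_pos _ _).le
  have hpt : ∀ ω : Fin r → Lk n, (bad η τ).indicator (fun ω => dom η τ ω) ω ≤
      ∑ l, (Fu l ω + Fv l ω) := by
    intro ω
    have hs0 : 0 ≤ ∑ l, (Fu l ω + Fv l ω) :=
      Finset.sum_nonneg fun l _ => add_nonneg (hFu0 l ω) (hFv0 l ω)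
    by_cases hω : ω ∈ bad η τ
    · rw [Set.indicator_of_mem hω, dom_eq]
      obtain ⟨l, i, hi⟩ := hω
      have hsl : Fu l ω + Fv l ω ≤ ∑ l, (Fu l ω + Fv l ω) :=
        Finset.single_le_sum (f := fun l => Fu l ω + Fv l ω)
          (fun l _ => add_nonneg (hFu0 l ω) (hFv0 l ω)) (Finset.mem_univ l)
      rcases hi with hi | hi
      · have e : ∏ l', Gl η τ l' (ω l') = Fu l ω := by
          refine Finset.prod_congr rfl fun l' _ => ?_
          dsimp only
          split_ifs with hl
          · subst hl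
            have hb : Bd η (ω l').1 := ⟨i, hi⟩
            unfold Gl bp
            rw [if_pos hb]
          · rfl
        rw [e]
        linarith [hFv0 l ω]
      · have e : ∏ l', Gl η τ l' (ω l') = Fv l ω := by
          refine Finset.prod_congr rfl fun l' _ => ?_
          dsimp only
          split_ifs with hl
          · subst hl
            have hb : Bd η (vv (par τ l') (ω l')) := ⟨i, hi⟩
            unfold Gl bp
            rw [if_pos hb, mul_comm]
          · rfl
        rw [e]
        linarith [hFu0 l ω]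
    · rw [Set.indicator_of_notMem hω]
      exact hs0
  have hIu : ∀ l, Integrable (Fu l) (Gam n r) := fun l => (hu l).1
  have hIv : ∀ l, Integrable (Fv l) (Gam n r) := fun l => (hv l).1
  have hIuv : ∀ l, Integrable (fun ω => Fu l ω + Fv l ω) (Gam n r) :=
    fun l => (hIu l).add (hIv l)
  refine (integral_mono ((integrable_dom η τ h0 h1).indicator (measurableSet_bad η τ))
    (integrable_finsetSum _ fun l _ => hIuv l) hpt).trans ?_
  rw [integral_finsetSum _ fun l _ => hIuv l]
  have hl : ∀ l : Fin r, ∫ ω, (Fu l ω + Fv l ω) ∂(Gam n r) ≤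
      2 * (Real.sqrt (2 ^ n * rho η) * (1 + rho η) ^ (2 ^ n * r)) := by
    intro l
    rw [integral_add (hIu l) (hIv l)]
    linarith [(hu l).2, (hv l).2]
  refine (Finset.sum_le_sum fun l _ => hl l).trans ?_
  rw [Finset.sum_const, Finset.card_univ, nsmul_eq_mul, Fintype.card_fin]
  unfold eps1
  exact le_of_eq (by ring)

theorem rho_nonneg (η : ℝ) : 0 ≤ rho η := rho_nonneg' η

/-- explicit tail estimate -/
theorem rho_le (η : ℝ) (h0 : 0 < η) (h1 : η ≤ 1 / 2) :
    rho η ≤ 11 * Real.exp (-(1 / (16 * η ^ 2))) := by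
  rw [rho_eq, integral_gaussianReal_eq_integral_smul (by norm_num)]
  set K : ℝ := Real.exp (-(1 / (16 * η ^ 2))) with hK
  have hK0 : 0 < K := Real.exp_pos _
  have hint : Integrable (fun x : ℝ => (Real.sqrt (2 * Real.pi))⁻¹ * (8 * Real.exp (-1) * K) *
      Real.exp (-(1 / 8) * x ^ 2)) := (integrable_exp_neg_mul_sq (by norm_num)).const_mul _
  have hpt : ∀ x : ℝ, gaussianPDFReal 0 1 x • tx η x ≤
      (Real.sqrt (2 * Real.pi))⁻¹ * (8 * Real.exp (-1) * K) * Real.exp (-(1 / 8) * x ^ 2) := by
    intro x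
    have e1 : gaussianPDFReal 0 1 x = (Real.sqrt (2 * Real.pi))⁻¹ * Real.exp (-(1 / 2) * x ^ 2) := by
      rw [gaussianPDFReal]
      simp only [NNReal.coe_one, mul_one, sub_zero]
      congr 2
      ring
    rw [e1, smul_eq_mul]
    have hs : 0 ≤ (Real.sqrt (2 * Real.pi))⁻¹ := by positivity
    have h2 : tx η x ≤ 8 * Real.exp (-1) * K * Real.exp (3 / 8 * x ^ 2) := by
      unfold tx
      split_ifs with hx
      · have hx2 : 1 < 4 * (η ^ 2 * x ^ 2) := by
          have h3 : 1 / 4 < |η * x| ^ 2 := by nlinarith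
          rw [sq_abs, mul_pow] at h3
          linarith
        have hη : 4 * η ^ 2 ≤ 1 := by nlinarith
        have hq : qx η x ≤ x ^ 2 := by
          unfold qx
          refine max_le ?_ ?_
          · nlinarith [sq_nonneg x]
          · rw [mul_pow]
            nlinarith [sq_nonneg x]
        have h4 : x ^ 2 ≤ 8 * Real.exp (x ^ 2 / 8 - 1) := by
          have := Real.add_one_le_exp (x ^ 2 / 8 - 1)
          linarith
        have h5 : (1 : ℝ) ≤ Real.exp (x ^ 2 / 4 - 1 / (16 * η ^ 2)) := by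
          have h6 : 1 / (16 * η ^ 2) ≤ x ^ 2 / 4 := by
            rw [div_le_iff₀ (by positivity)]
            nlinarith
          exact Real.one_le_exp (by linarith)
        calc qx η x ≤ 8 * Real.exp (x ^ 2 / 8 - 1) := hq.trans h4
          _ ≤ 8 * Real.exp (x ^ 2 / 8 - 1) * Real.exp (x ^ 2 / 4 - 1 / (16 * η ^ 2)) :=
            le_mul_of_one_le_right (by positivity) h5
          _ = 8 * Real.exp (-1) * K * Real.exp (3 / 8 * x ^ 2) := by
            rw [hK, mul_assoc 8, ← Real.exp_add, mul_assoc 8, mul_assoc 8, ← Real.exp_add,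
              ← Real.exp_add]
            congr 2
            ring
      · positivity
    calc (Real.sqrt (2 * Real.pi))⁻¹ * Real.exp (-(1 / 2) * x ^ 2) * tx η x
        ≤ (Real.sqrt (2 * Real.pi))⁻¹ * Real.exp (-(1 / 2) * x ^ 2) *
          (8 * Real.exp (-1) * K * Real.exp (3 / 8 * x ^ 2)) :=
          mul_le_mul_of_nonneg_left h2 (by positivity)
      _ = (Real.sqrt (2 * Real.pi))⁻¹ * (8 * Real.exp (-1) * K) *
          (Real.exp (-(1 / 2) * x ^ 2) * Real.exp (3 / 8 * x ^ 2)) := by ring
      _ = _ := by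
          rw [← Real.exp_add]
          congr 2
          ring
  refine (integral_mono_of_nonneg (Filter.Eventually.of_forall fun x =>
    mul_nonneg (gaussianPDFReal_nonneg _ _ _) (tx_nonneg η x)) hint
    (Filter.Eventually.of_forall hpt)).trans ?_
  rw [integral_const_mul, integral_gaussian]
  have e2 : Real.sqrt (Real.pi / (1 / 8)) = 2 * Real.sqrt (2 * Real.pi) := by
    have : Real.pi / (1 / 8) = 2 ^ 2 * (2 * Real.pi) := by ring
    rw [this, Real.sqrt_mul (by norm_num), Real.sqrt_sq (by norm_num)]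
  rw [e2]
  have hsp : 0 < Real.sqrt (2 * Real.pi) := Real.sqrt_pos.mpr (by positivity)
  have e3 : (Real.sqrt (2 * Real.pi))⁻¹ * (8 * Real.exp (-1) * K) * (2 * Real.sqrt (2 * Real.pi)) =
      16 * Real.exp (-1) * K := by
    field_simp
    ring
  rw [e3]
  have he : Real.exp (-1) ≤ 1 / 2 := by
    rw [Real.exp_neg, one_div]
    refine inv_anti₀ (by norm_num) ?_
    have := Real.add_one_le_exp (1 : ℝ)
    linarith
  nlinarith

end P362
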