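import Vale.Agent.P362.Chain
import Vale.Agent.P362.MleFF
import Vale.Agent.P362.Tail
import Vale.Agent.P362.SecondMoment
import Vale.Agent.P362.DTDeriv
import Vale.Agent.P362.Hard

/-!
# P362, module TV (3.4, 5): the hard distribution with explicit error terms
-/

namespace P362

open scoped BigOperators
open MeasureTheory ProbabilityTheory

/-- the truncated distribution -/
noncomputable def Dtr {n r : ℕ} (η : ℝ) (y : Fin (r + 1) × V n → Bool) : ℝ :=
  (∫ ω in (bad η 1)ᶜ, ∏ t, (1 + sR (y t) * zz η 1 ω t) / 2 ∂(Gam n r)) +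
    (Gam n r (bad η 1)).toReal * (1 / 2) ^ Fintype.card (Fin (r + 1) × V n)

instance gam_prob (n : ℕ) : IsProbabilityMeasure (gam n) := by unfold gam; infer_instance

instance Gam_prob (n r : ℕ) : IsProbabilityMeasure (Gam n r) := by unfold Gam; infer_instance

theorem abs_sR_mul (b : Bool) (z : ℝ) : |sR b * z| = |z| := by
  rw [abs_mul]; cases b <;> simp [sR]

theorem Dtr_nonneg {n r : ℕ} (hr : 1 ≤ r) (η : ℝ) (y : Fin (r + 1) × V n → Bool) :
    0 ≤ Dtr η y := by
  unfold Dtr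
  refine add_nonneg ?_ (by positivity)
  refine setIntegral_nonneg (measurableSet_bad η 1).compl fun ω hω => ?_
  refine Finset.prod_nonneg fun t _ => ?_
  have h1 := zz_le_half hr η 1 ω hω t
  have h2 := abs_sR_mul (y t) (zz η 1 ω t)
  have h3 := abs_le.mp (h2.le.trans h1)
  linarith [h3.1]

/-- point mass -/
theorem mle_single {I : Type} [Fintype I] [DecidableEq I] (y : I → Bool) (z : I → ℝ) :
    mle (fun y' => if y' = y then 1 else 0) ∅ z = ∏ t, (1 + sR (y t) * z t) / 2 := by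
  unfold mle
  rw [Finset.sum_eq_single y]
  · simp
  · intro y' _ hy
    simp [hy]
  · intro h
    exact absurd (Finset.mem_univ _) h

theorem mle_empty {I : Type} [Fintype I] [DecidableEq I] (g : (I → Bool) → ℝ) (z : I → ℝ) :
    mle g ∅ z = ∑ y, g y * ∏ t, (1 + sR (y t) * z t) / 2 := by
  unfold mle
  simp

/-- expectations under `Dtr` -/
theorem Dtr_int {n r : ℕ} (hr : 1 ≤ r) (η : ℝ) (g : (Fin (r + 1) × V n → Bool) → ℝ) :
    ∑ y, Dtr η y * g y = ∫ ω in (bad η 1)ᶜ, mle g ∅ (zz η 1 ω) ∂(Gam n r) +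
      (Gam n r (bad η 1)).toReal * ((1 / 2) ^ Fintype.card (Fin (r + 1) × V n) * ∑ y, g y) := by
  have h1 : ∀ y : Fin (r + 1) × V n → Bool,
      Integrable (fun ω => ∏ t, (1 + sR (y t) * zz η 1 ω t) / 2) (Gam n r) := by
    intro y
    have := (FF_integral hr η 1 zero_le_one le_rfl (fun y' => if y' = y then 1 else 0) ∅).1
    simpa only [mle_single] using this
  have h2 : ∫ ω in (bad η 1)ᶜ, mle g ∅ (zz η 1 ω) ∂(Gam n r) =
      ∑ y, g y * ∫ ω in (bad η 1)ᶜ, ∏ t, (1 + sR (y t) * zz η 1 ω t) / 2 ∂(Gam n r) := by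
    simp_rw [mle_empty]
    rw [integral_finsetSum]
    · refine Finset.sum_congr rfl fun y _ => ?_
      rw [integral_const_mul]
    · intro y _
      exact ((h1 y).const_mul _).integrableOn
  rw [h2, Finset.mul_sum, Finset.mul_sum, ← Finset.sum_add_distrib]
  refine Finset.sum_congr rfl fun y _ => ?_
  unfold Dtr
  ring

theorem Dtr_sum {n r : ℕ} (hr : 1 ≤ r) (η : ℝ) :
    ∑ y : Fin (r + 1) × V n → Bool, Dtr η y = 1 := by
  have h := Dtr_int hr η (fun _ : Fin (r + 1) × V n → Bool => (1 : ℝ))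
  simp only [mul_one] at h
  rw [h]
  have h1 : ∀ ω : Fin r → Lk n, mle (fun _ : Fin (r + 1) × V n → Bool => (1 : ℝ)) ∅ (zz η 1 ω) = 1 := by
    intro ω
    rw [mle_empty]
    simp only [one_mul]
    have h := Finset.prod_univ_sum (fun _ : Fin (r + 1) × V n => (Finset.univ : Finset Bool))
      (fun t b => (1 + sR b * zz η 1 ω t) / 2)
    rw [Fintype.piFinset_univ] at h
    rw [← h]
    refine Finset.prod_eq_one fun t _ => ?_
    simp [sR]
    ring
  simp_rw [h1]
  rw [setIntegral_const, smul_eq_mul, mul_one]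
  have h2 : (1 / 2 : ℝ) ^ Fintype.card (Fin (r + 1) × V n) *
      ∑ _y : Fin (r + 1) × V n → Bool, (1 : ℝ) = 1 := by
    rw [Finset.sum_const, Finset.card_univ, nsmul_eq_mul, mul_one, Fintype.card_fun,
      Fintype.card_bool]
    push_cast
    rw [← mul_pow]
    norm_num
  rw [h2, mul_one]
  have h3 := measureReal_add_measureReal_compl (μ := Gam n r) (measurableSet_bad (r := r) (n := n) η 1)
  rw [probReal_univ] at h3
  unfold Measure.real at h3 ⊢
  linarith

theorem one_le_dom {n r : ℕ} (η τ : ℝ) (ω : Fin r → Lk n) : 1 ≤ dom η τ ω := by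
  unfold dom
  refine Finset.one_le_prod fun l _ => Finset.one_le_prod fun i _ => ?_
  exact one_le_mul_of_one_le_of_one_le (le_max_left _ _) (le_max_left _ _)

theorem bad_le_eps {n r : ℕ} (η τ : ℝ) (h0 : 0 ≤ τ) (h1 : τ ≤ 1) :
    (Gam n r (bad η τ)).toReal ≤ eps1 n r η := by
  have h := tail_bound (n := n) (r := r) η τ h0 h1
  have h2 : ∫ _ω in bad η τ, (1 : ℝ) ∂(Gam n r) ≤ ∫ ω in bad η τ, dom η τ ω ∂(Gam n r) := by
    refine setIntegral_mono_on ?_ (integrable_dom η τ h0 h1).integrableOn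
      (measurableSet_bad η τ) fun ω _ => one_le_dom η τ ω
    exact (integrable_const _).integrableOn
  rw [setIntegral_const, smul_eq_mul, mul_one] at h2
  exact h2.trans h

theorem Dtr_FF {n r : ℕ} (hr : 1 ≤ r) (η : ℝ) (g : (Fin (r + 1) × V n → Bool) → ℝ) (B : ℝ)
    (hg : ∀ y, |g y| ≤ B) : |∑ y, Dtr η y * g y - FF η 1 g ∅| ≤ 2 * B * eps1 n r η := by
  have hB : 0 ≤ B := (abs_nonneg _).trans (hg fun _ => false)
  obtain ⟨hint, hFF⟩ := FF_integral hr η 1 zero_le_one le_rfl g ∅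
  rw [Dtr_int hr, ← hFF, ← integral_add_compl (measurableSet_bad η 1) hint]
  have h1 : |∫ ω in bad η 1, mle g ∅ (zz η 1 ω) ∂(Gam n r)| ≤ B * eps1 n r η := by
    calc |∫ ω in bad η 1, mle g ∅ (zz η 1 ω) ∂(Gam n r)|
        ≤ ∫ ω in bad η 1, |mle g ∅ (zz η 1 ω)| ∂(Gam n r) := abs_integral_le_integral_abs
      _ ≤ ∫ ω in bad η 1, B * dom η 1 ω ∂(Gam n r) := by
          refine setIntegral_mono_on hint.abs.integrableOn
            ((integrable_dom η 1 zero_le_one le_rfl).const_mul B).integrableOn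
            (measurableSet_bad η 1) fun ω _ => ?_
          exact (mle_bound g B hg ∅ _).trans
            (mul_le_mul_of_nonneg_left (prod_max_le_dom η 1 ω) hB)
      _ = B * ∫ ω in bad η 1, dom η 1 ω ∂(Gam n r) := integral_const_mul _ _
      _ ≤ B * eps1 n r η := mul_le_mul_of_nonneg_left
          (tail_bound η 1 zero_le_one le_rfl) hB
  have h2 : |(1 / 2 : ℝ) ^ Fintype.card (Fin (r + 1) × V n) * ∑ y, g y| ≤ B := by
    rw [abs_mul, abs_of_nonneg (by positivity)]
    calc (1 / 2 : ℝ) ^ Fintype.card (Fin (r + 1) × V n) * |∑ y, g y|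
        ≤ (1 / 2 : ℝ) ^ Fintype.card (Fin (r + 1) × V n) *
          ∑ _y : Fin (r + 1) × V n → Bool, B := by
          refine mul_le_mul_of_nonneg_left ?_ (by positivity)
          exact (Finset.abs_sum_le_sum_abs _ _).trans (Finset.sum_le_sum fun y _ => hg y)
      _ = B := by
          rw [Finset.sum_const, Finset.card_univ, nsmul_eq_mul, Fintype.card_fun,
            Fintype.card_bool]
          push_cast
          rw [← mul_assoc, ← mul_pow]
          norm_num
  have h3 : |(Gam n r (bad η 1)).toReal *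
      ((1 / 2) ^ Fintype.card (Fin (r + 1) × V n) * ∑ y, g y)| ≤ eps1 n r η * B := by
    rw [abs_mul, abs_of_nonneg ENNReal.toReal_nonneg]
    exact mul_le_mul (bad_le_eps η 1 zero_le_one le_rfl) h2 (abs_nonneg _)
      (ENNReal.toReal_nonneg.trans (bad_le_eps η 1 zero_le_one le_rfl))
  have e : ∫ ω in (bad η 1)ᶜ, mle g ∅ (zz η 1 ω) ∂(Gam n r) +
      (Gam n r (bad η 1)).toReal * ((1 / 2) ^ Fintype.card (Fin (r + 1) × V n) * ∑ y, g y) -
      (∫ ω in bad η 1, mle g ∅ (zz η 1 ω) ∂(Gam n r) +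
        ∫ ω in (bad η 1)ᶜ, mle g ∅ (zz η 1 ω) ∂(Gam n r)) =
      (Gam n r (bad η 1)).toReal * ((1 / 2) ^ Fintype.card (Fin (r + 1) × V n) * ∑ y, g y) -
        ∫ ω in bad η 1, mle g ∅ (zz η 1 ω) ∂(Gam n r) := by ring
  rw [e]
  calc _ ≤ _ := abs_sub _ _
    _ ≤ eps1 n r η * B + B * eps1 n r η := add_le_add h3 h1
    _ = 2 * B * eps1 n r η := by ring

/-! ### the derivative bound -/

theorem gr_inj {n r : ℕ} {i j : Fin (r + 1) → V n} (h : gr i = gr j) : i = j := by
  funext l
  have : (l, i l) ∈ gr i := by simp [gr]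
  rw [h] at this
  have h2 : j l = i l := by simpa [gr] using this
  exact h2.symm

theorem gr_card {n r : ℕ} (i : Fin (r + 1) → V n) : (gr i).card = r + 1 := by
  have : gr i = Finset.univ.image (fun l => (l, i l)) := by
    ext ⟨l, a⟩
    simp [gr]
  rw [this, Finset.card_image_of_injective, Finset.card_univ, Fintype.card_fin]
  intro l l' h
  exact (Prod.ext_iff.mp h).1

theorem chi_sq {n : ℕ} (a i : V n) : (chi a i : ℝ) = 1 ∨ (chi a i : ℝ) = -1 := by
  have : ∀ s : Finset (Fin n), (∏ t ∈ s, if a t && i t then (-1 : ℤ) else 1) = 1 ∨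
      (∏ t ∈ s, if a t && i t then (-1 : ℤ) else 1) = -1 := by
    intro s
    induction s using Finset.induction_on with
    | empty => simp
    | insert t s ht ih =>
      rw [Finset.prod_insert ht]
      rcases ih with ih | ih <;> rw [ih] <;> split_ifs <;> simp
  unfold chi
  rcases this Finset.univ with h | h
  · left; exact_mod_cast h
  · right; exact_mod_cast h

/-- the sign of a chain -/
noncomputable def sgc {n r : ℕ} (i : Fin (r + 1) → V n) : ℝ :=
  ∏ l : Fin r, (chi (i l.castSucc) (i l.succ) : ℝ)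

theorem abs_sgc {n r : ℕ} (i : Fin (r + 1) → V n) : |sgc i| = 1 := by
  unfold sgc
  rw [Finset.abs_prod]
  refine Finset.prod_eq_one fun l _ => ?_
  rcases chi_sq (i l.castSucc) (i l.succ) with h | h <;> rw [h] <;> simp

theorem chain_coef {n r : ℕ} (η : ℝ) (i : Fin (r + 1) → V n) :
    ∏ l : Fin r, (η ^ 2 * Hd (i l.castSucc) (i l.succ)) = η ^ (2 * r) / sN n ^ r * sgc i := by
  unfold sgc Hd
  rw [Finset.prod_mul_distrib, Finset.prod_div_distrib, Finset.prod_const, Finset.prod_const,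
    Finset.card_univ, Fintype.card_fin, ← pow_mul]
  ring

/-- the signed sum of the derivatives along graphs -/
theorem graph_sum {n r : ℕ} (f : Finset (Fin (r + 1) × V n) → ℝ) :
    ∑ i : Fin (r + 1) → V n, sgc i * f (gr i) =
      ∑ S ∈ Finset.powersetCard (r + 1) (Finset.univ : Finset (Fin (r + 1) × V n)),
        (∑ i : Fin (r + 1) → V n, if gr i = S then sgc i else 0) * f S := by
  classical
  have h1 : ∀ S, (∑ i : Fin (r + 1) → V n, if gr i = S then sgc i else 0) * f S =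
      ∑ i : Fin (r + 1) → V n, if gr i = S then sgc i * f (gr i) else 0 := by
    intro S
    rw [Finset.sum_mul]
    refine Finset.sum_congr rfl fun i _ => ?_
    split_ifs with h
    · rw [h]
    · rw [zero_mul]
  simp_rw [h1]
  rw [Finset.sum_comm]
  refine Finset.sum_congr rfl fun i _ => ?_
  rw [Finset.sum_ite_eq, if_pos]
  rw [Finset.mem_powersetCard]
  exact ⟨Finset.subset_univ _, gr_card i⟩

theorem coef_le {n r : ℕ} (S : Finset (Fin (r + 1) × V n)) :
    |∑ i : Fin (r + 1) → V n, if gr i = S then sgc i else 0| ≤ 1 := by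
  classical
  by_cases h : ∃ i : Fin (r + 1) → V n, gr i = S
  · obtain ⟨i, rfl⟩ := h
    rw [Finset.sum_eq_single i]
    · simp [abs_sgc]
    · intro j _ hj
      rw [if_neg]
      exact fun h => hj (gr_inj h)
    · intro h
      exact absurd (Finset.mem_univ _) h
  · push Not at h
    rw [Finset.sum_eq_zero]
    · simp
    · intro i _
      rw [if_neg (h i)]

theorem ind_le {I : Type} (T : DTree I Bool) (y : I → Bool) : |T.ind y| ≤ 1 := by
  unfold DTree.ind; split_ifs <;> simp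

theorem sN_pos (n : ℕ) : 0 < sN n := by unfold sN; positivity

theorem deriv_bound {n r : ℕ} (hr : 1 ≤ r) (η τ : ℝ) (hη : 0 ≤ η) (h0 : 0 ≤ τ) (h1 : τ ≤ 1)
    (m p : ℕ) (hp : 1 ≤ p) (T : DTree (Fin (r + 1) × V n) Bool) (hT : T.depth ≤ m) :
    |∑ i : Fin (r + 1) → V n,
        (∏ l : Fin r, (η ^ 2 * Hd (i l.castSucc) (i l.succ))) * FF η τ T.ind (gr i)| ≤
      η ^ (2 * r) / sN n ^ r *
        (((((4 : ℝ) ^ p * m) ^ p * 4 ^ p * ((r + 1) * 2 ^ n)) ^ (r + 1)) ^ ((1 : ℝ) / (2 * p)) +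
          (2 ^ n) ^ (r + 1) * eps1 n r η) := by
  classical
  set K : ℝ := ((((4 : ℝ) ^ p * m) ^ p * 4 ^ p * ((r + 1) * 2 ^ n)) ^ (r + 1)) ^ ((1 : ℝ) / (2 * p))
    with hK
  have hK0 : 0 ≤ K := by positivity
  set Z : (Fin r → Lk n) → ℝ := fun ω => ∑ i : Fin (r + 1) → V n,
    sgc i * mle T.ind (gr i) (zz η τ ω) with hZ
  have hint : ∀ i : Fin (r + 1) → V n,
      Integrable (fun ω => sgc i * mle T.ind (gr i) (zz η τ ω)) (Gam n r) := fun i =>
    (FF_integral hr η τ h0 h1 T.ind (gr i)).1.const_mul _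
  have hZint : Integrable Z (Gam n r) := integrable_finsetSum _ fun i _ => hint i
  have e1 : ∑ i : Fin (r + 1) → V n,
        (∏ l : Fin r, (η ^ 2 * Hd (i l.castSucc) (i l.succ))) * FF η τ T.ind (gr i) =
      η ^ (2 * r) / sN n ^ r * ∫ ω, Z ω ∂(Gam n r) := by
    rw [hZ, integral_finsetSum _ fun i _ => hint i, Finset.mul_sum]
    refine Finset.sum_congr rfl fun i _ => ?_
    rw [integral_const_mul, (FF_integral hr η τ h0 h1 T.ind (gr i)).2, chain_coef]
    ring
  have hcoef : 0 ≤ η ^ (2 * r) / sN n ^ r := by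
    have := sN_pos n
    positivity
  rw [e1, abs_mul, abs_of_nonneg hcoef]
  refine mul_le_mul_of_nonneg_left ?_ hcoef
  -- bounds on the good and on the bad set
  have hgood : ∀ ω ∈ (bad η τ : Set (Fin r → Lk n))ᶜ, |Z ω| ≤ K := by
    intro ω hω
    have h2 := dt_deriv T m hT (zz η τ ω) (fun t => zz_le_half hr η τ ω hω t)
      (fun S => ∑ i : Fin (r + 1) → V n, if gr i = S then sgc i else 0) coef_le (r + 1) p hp
    rw [← graph_sum (fun S => mle T.ind S (zz η τ ω))] at h2
    have hcard : (Fintype.card (Fin (r + 1) × V n) : ℝ) = (r + 1) * 2 ^ n := by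
      rw [Fintype.card_prod, Fintype.card_fin, Fintype.card_fun, Fintype.card_bool,
        Fintype.card_fin]
      push_cast
      ring
    rw [hcard] at h2
    have h3 : |Z ω| ^ (2 * p) ≤
        (((4 : ℝ) ^ p * m) ^ p * 4 ^ p * ((r + 1) * 2 ^ n)) ^ (r + 1) := by
      have hev : Even (2 * p) := even_two_mul p
      rw [hev.pow_abs]
      exact h2
    have h4 : |Z ω| = (|Z ω| ^ (2 * p)) ^ ((1 : ℝ) / (2 * p)) := by
      have := Real.pow_rpow_inv_natCast (abs_nonneg (Z ω)) (n := 2 * p) (by omega)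
      rw [one_div]
      push_cast at this
      exact this.symm
    rw [h4]
    exact Real.rpow_le_rpow (by positivity) h3 (by positivity)
  have hbad : ∀ ω, |Z ω| ≤ (2 ^ n) ^ (r + 1) * dom η τ ω := by
    intro ω
    calc |Z ω| ≤ ∑ i : Fin (r + 1) → V n, |sgc i * mle T.ind (gr i) (zz η τ ω)| :=
          Finset.abs_sum_le_sum_abs _ _
      _ ≤ ∑ _i : Fin (r + 1) → V n, dom η τ ω := by
          refine Finset.sum_le_sum fun i _ => ?_
          rw [abs_mul, abs_sgc, one_mul]
          have := mle_bound T.ind 1 (ind_le T) (gr i) (zz η τ ω)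
          rw [one_mul] at this
          exact this.trans (prod_max_le_dom η τ ω)
      _ = (2 ^ n) ^ (r + 1) * dom η τ ω := by
          rw [Finset.sum_const, Finset.card_univ, nsmul_eq_mul, Fintype.card_fun,
            Fintype.card_fin, Fintype.card_fun, Fintype.card_bool, Fintype.card_fin]
          push_cast
          ring
  have hmb : MeasurableSet (bad η τ : Set (Fin r → Lk n)) := measurableSet_bad η τ
  calc |∫ ω, Z ω ∂(Gam n r)| ≤ ∫ ω, |Z ω| ∂(Gam n r) := abs_integral_le_integral_abs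
    _ = ∫ ω in bad η τ, |Z ω| ∂(Gam n r) + ∫ ω in (bad η τ)ᶜ, |Z ω| ∂(Gam n r) :=
        (integral_add_compl hmb hZint.abs).symm
    _ ≤ ∫ ω in bad η τ, (2 ^ n) ^ (r + 1) * dom η τ ω ∂(Gam n r) +
        ∫ _ω in (bad η τ)ᶜ, K ∂(Gam n r) := by
        refine add_le_add ?_ ?_
        · exact setIntegral_mono_on hZint.abs.integrableOn
            ((integrable_dom η τ h0 h1).const_mul _).integrableOn hmb fun ω _ => hbad ω
        · exact setIntegral_mono_on hZint.abs.integrableOn (integrable_const _).integrableOn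
            hmb.compl hgood
    _ ≤ (2 ^ n) ^ (r + 1) * eps1 n r η + K := by
        refine add_le_add ?_ ?_
        · rw [integral_const_mul]
          exact mul_le_mul_of_nonneg_left (tail_bound η τ h0 h1) (by positivity)
        · rw [setIntegral_const, smul_eq_mul]
          exact mul_le_of_le_one_left hK0 measureReal_le_one
    _ = K + (2 ^ n) ^ (r + 1) * eps1 n r η := by ring

theorem tv_bound {n r : ℕ} (hr : 1 ≤ r) (η : ℝ) (hη : 0 ≤ η) (m p : ℕ) (hp : 1 ≤ p)
    (T : DTree (Fin (r + 1) × V n) Bool) (hT : T.depth ≤ m) :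
    |∑ y, Dtr η y * T.ind y - (1 / 2) ^ Fintype.card (Fin (r + 1) × V n) * ∑ y, T.ind y| ≤
      2 * eps1 n r η + η ^ (2 * r) / sN n ^ r *
        (((((4 : ℝ) ^ p * m) ^ p * 4 ^ p * ((r + 1) * 2 ^ n)) ^ (r + 1)) ^ ((1 : ℝ) / (2 * p)) +
          (2 ^ n) ^ (r + 1) * eps1 n r η) := by
  have h1 := Dtr_FF hr η T.ind 1 (ind_le T)
  rw [mul_one] at h1
  rw [← FF_zero hr η T.ind]
  have h2 := Convex.norm_image_sub_le_of_norm_hasDerivWithin_le
    (f := fun τ => FF η τ T.ind ∅)
    (fun τ (_ : τ ∈ Set.Icc (0 : ℝ) 1) => (FF_deriv hr η τ T.ind).hasDerivWithinAt)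
    (fun τ hτ => deriv_bound hr η τ hη hτ.1 hτ.2 m p hp T hT) (convex_Icc 0 1)
    (Set.left_mem_Icc.mpr zero_le_one) (Set.right_mem_Icc.mpr zero_le_one)
  rw [sub_zero, norm_one, mul_one, Real.norm_eq_abs] at h2
  calc |∑ y, Dtr η y * T.ind y - FF η 0 T.ind ∅|
      ≤ |∑ y, Dtr η y * T.ind y - FF η 1 T.ind ∅| + |FF η 1 T.ind ∅ - FF η 0 T.ind ∅| :=
        abs_sub_le _ _ _
    _ ≤ _ := add_le_add h1 h2

theorem large_bound {n r : ℕ} (hr : 1 ≤ r) (η : ℝ) (hη : 0 < η) (hη1 : η ≤ 1) :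
    ∑ y : Fin (r + 1) × V n → Bool,
        (if psi y (fun _ => false) < η ^ (2 * r) / 2 then Dtr η y else 0) ≤
      4 / (η ^ (2 * r)) ^ 2 * (1 / 2 ^ n + 8 * eps1 n r η) := by
  set δ : ℝ := η ^ (2 * r) with hδ
  have hδ0 : 0 < δ := by positivity
  have hδ1 : δ ≤ 1 := pow_le_one₀ hη.le hη1
  set g : (Fin (r + 1) × V n → Bool) → ℝ := fun y => (psi y (fun _ => false) - δ) ^ 2 with hg
  have hg4 : ∀ y, |g y| ≤ 4 := by
    intro y
    have h1 : psi y (fun _ => false) ^ 2 ≤ 1 := by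
      rw [← psi_unit y]
      exact Finset.single_le_sum (f := fun a => psi y a ^ 2) (fun a _ => sq_nonneg _)
        (Finset.mem_univ _)
    have h2 : |psi y (fun _ => false)| ≤ 1 := (sq_le_one_iff_abs_le_one _).mp h1
    have h3 := abs_le.mp h2
    rw [hg]
    simp only
    rw [abs_of_nonneg (sq_nonneg _)]
    nlinarith
  have h1 := Dtr_FF hr η g 4 hg4
  have h2 := second_moment (n := n) hr η
  have h3 : ∑ y, Dtr η y * g y ≤ 1 / 2 ^ n + 8 * eps1 n r η := by
    have := (abs_le.mp h1).2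
    linarith
  calc ∑ y : Fin (r + 1) × V n → Bool,
        (if psi y (fun _ => false) < δ / 2 then Dtr η y else 0)
      ≤ ∑ y : Fin (r + 1) × V n → Bool, 4 / δ ^ 2 * (Dtr η y * g y) := by
        refine Finset.sum_le_sum fun y _ => ?_
        have hD := Dtr_nonneg hr η y
        split_ifs with h
        · have h4 : δ ^ 2 / 4 ≤ g y := by
            rw [hg]
            simp only
            nlinarith
          have h5 : 1 ≤ 4 / δ ^ 2 * g y := by
            rw [div_mul_eq_mul_div, le_div_iff₀ (by positivity)]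
            linarith
          calc Dtr η y = Dtr η y * 1 := by ring
            _ ≤ Dtr η y * (4 / δ ^ 2 * g y) := mul_le_mul_of_nonneg_left h5 hD
            _ = 4 / δ ^ 2 * (Dtr η y * g y) := by ring
        · have : 0 ≤ g y := sq_nonneg _
          positivity
    _ = 4 / δ ^ 2 * ∑ y, Dtr η y * g y := by rw [Finset.mul_sum]
    _ ≤ 4 / δ ^ 2 * (1 / 2 ^ n + 8 * eps1 n r η) :=
        mul_le_mul_of_nonneg_left h3 (by positivity)

end P362
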