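import Vale.Agent.P362.CheckTrees
import Vale.Agent.P362.SecondMoment

/-!
# P362, module TOURN: the tournament inequality
-/

namespace P362

open scoped BigOperators

/-- abstract form -/
theorem tournament {P B : Type} [Fintype P] [Fintype B] [DecidableEq B] (blkOf : P → B)
    (w : P → ℝ) (hw : ∀ a, 0 ≤ w a) (hb : ∀ b, ∑ a, (if blkOf a = b then w a else 0) ≤ 1)
    (s : P → P → Prop) [DecidableRel s] (hs : ∀ a a', blkOf a ≠ blkOf a' → ¬ (s a a' ∧ s a' a)) :
    ∑ a', w a' * ∑ a, (if s a a' then w a else 0) ≤ ((∑ a, w a) ^ 2 + ∑ a, w a) / 2 := by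
  have h1 : ∑ a', w a' * ∑ a, (if s a a' then w a else 0) =
      ∑ a', ∑ a, w a' * (if s a a' then w a else 0) :=
    Finset.sum_congr rfl fun a' _ => Finset.mul_sum _ _ _
  have h2 : ∑ a', w a' * ∑ a, (if s a a' then w a else 0) =
      ∑ a', ∑ a, w a * (if s a' a then w a' else 0) := by
    rw [h1, Finset.sum_comm]
  have h3 : ∑ a', ∑ a, (w a' * (if s a a' then w a else 0) + w a * (if s a' a then w a' else 0)) ≤
      ∑ a', ∑ a, (w a' * w a + w a' * (if blkOf a = blkOf a' then w a else 0)) := by
    refine Finset.sum_le_sum fun a' _ => Finset.sum_le_sum fun a _ => ?_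
    have h0 : 0 ≤ w a' * w a := mul_nonneg (hw a') (hw a)
    by_cases hb' : blkOf a = blkOf a'
    · rw [if_pos hb']
      split_ifs <;> nlinarith
    · have hh := hs a a' hb'
      rw [if_neg hb']
      split_ifs with h5 h6
      · exact absurd ⟨h5, h6⟩ hh
      · nlinarith
      · nlinarith
      · nlinarith
  have h4 : ∑ a', ∑ a, (w a' * w a + w a' * (if blkOf a = blkOf a' then w a else 0)) ≤
      (∑ a, w a) ^ 2 + ∑ a, w a := by
    simp only [Finset.sum_add_distrib]
    refine add_le_add ?_ ?_
    · rw [sq, Finset.sum_mul_sum]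
    · refine Finset.sum_le_sum fun a' _ => ?_
      rw [← Finset.mul_sum]
      have := mul_le_mul_of_nonneg_left (hb (blkOf a')) (hw a')
      linarith
  have h5 : ∑ a', ∑ a, (w a' * (if s a a' then w a else 0) + w a * (if s a' a then w a' else 0)) =
      2 * ∑ a', w a' * ∑ a, (if s a a' then w a else 0) := by
    simp only [Finset.sum_add_distrib]
    rw [← h1, ← h2]
    ring
  linarith

open Classical in
/-- the weight of the pairs surviving all references in `L` -/
noncomputable def WL {n r : ℕ} (x : Idx n r → Bool) (L : List (V n × V n)) : ℝ :=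
  ∑ P : V n × V n, if (∀ R ∈ L, surv x P R) then psi (blk x P.1) P.2 ^ 2 else 0

theorem WL_nonneg {n r : ℕ} (x : Idx n r → Bool) (L : List (V n × V n)) : 0 ≤ WL x L := by
  refine Finset.sum_nonneg fun P _ => ?_
  split_ifs
  · positivity
  · exact le_rfl

theorem WL_le {n r : ℕ} (x : Idx n r → Bool) (L : List (V n × V n)) : WL x L ≤ 2 ^ n := by
  have h1 : WL x L ≤ ∑ P : V n × V n, psi (blk x P.1) P.2 ^ 2 := by
    refine Finset.sum_le_sum fun P _ => ?_
    split_ifs
    · exact le_rfl
    · positivity
  refine h1.trans (le_of_eq ?_)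
  rw [Fintype.sum_prod_type]
  simp only [psi_unit]
  simp

theorem WL_cons_le {n r : ℕ} (x : Idx n r → Bool) (L : List (V n × V n)) (R : V n × V n) :
    WL x (R :: L) ≤ WL x L := by
  refine Finset.sum_le_sum fun P _ => ?_
  by_cases h : ∀ R' ∈ R :: L, surv x P R'
  · rw [if_pos h, if_pos fun R' hR' => h R' (List.mem_cons_of_mem _ hR')]
  · rw [if_neg h]
    split_ifs
    · positivity
    · exact le_rfl

theorem WL_ge {n r : ℕ} {δ : ℝ} (hδ : 0 ≤ δ) {x : Idx n r → Bool} {p a : V n}
    (h : valid δ x p a) (hψ : δ ≤ psi (blk x p) a) (L : List (V n × V n)) : δ ^ 2 ≤ WL x L := by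
  classical
  have h1 : (if (∀ R ∈ L, surv x (p, a) R) then psi (blk x (p, a).1) (p, a).2 ^ 2 else 0) ≤
      WL x L := by
    unfold WL
    refine Finset.single_le_sum
      (f := fun P : V n × V n => if (∀ R ∈ L, surv x P R) then psi (blk x P.1) P.2 ^ 2 else 0)
      (fun P _ => ?_) (Finset.mem_univ (p, a))
    split_ifs
    · positivity
    · exact le_rfl
  rw [if_pos fun R _ => surv_of_valid h R] at h1
  exact (pow_le_pow_left₀ hδ hψ 2).trans h1

open Classical in
theorem WL_step {n r : ℕ} (x : Idx n r → Bool) (L : List (V n × V n)) :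
    ∑ R : V n × V n, (if (∀ R' ∈ L, surv x R R') then psi (blk x R.1) R.2 ^ 2 else 0) *
      WL x (R :: L) ≤ (WL x L ^ 2 + WL x L) / 2 := by
  have h := tournament (P := V n × V n) (B := V n) Prod.fst
    (fun P => if (∀ R' ∈ L, surv x P R') then psi (blk x P.1) P.2 ^ 2 else 0)
    (fun P => by
      split_ifs
      · positivity
      · exact le_rfl)
    (fun b => by
      rw [Fintype.sum_prod_type]
      have h1 : ∀ p : V n, ∑ a : V n, (if (p, a).1 = b then
          (if (∀ R' ∈ L, surv x (p, a) R') then psi (blk x (p, a).1) (p, a).2 ^ 2 else 0) else 0) ≤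
          if p = b then 1 else 0 := by
        intro p
        by_cases hp : p = b
        · simp only [hp, if_true]
          rw [← psi_unit (blk x b)]
          refine Finset.sum_le_sum fun a _ => ?_
          split_ifs
          · exact le_rfl
          · positivity
        · simp [hp]
      refine (Finset.sum_le_sum fun p _ => h1 p).trans ?_
      simp)
    (fun P R => surv x P R) (fun P R hPR => surv_antisymm hPR)
  refine le_trans (le_of_eq ?_) h
  refine Finset.sum_congr rfl fun R _ => ?_
  congr 1
  unfold WL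
  refine Finset.sum_congr rfl fun P _ => ?_
  by_cases h1 : surv x P R
  · rw [if_pos h1]
    by_cases h2 : ∀ R' ∈ L, surv x P R'
    · rw [if_pos h2, if_pos]
      intro R' hR'
      rcases List.mem_cons.mp hR' with rfl | h3
      · exact h1
      · exact h2 R' h3
    · rw [if_neg h2, if_neg]
      exact fun h3 => h2 fun R' hR' => h3 R' (List.mem_cons_of_mem _ hR')
  · rw [if_neg h1, if_neg]
    exact fun h3 => h1 (h3 R List.mem_cons_self)

end P362
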