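import Vale.Agent.P362.Func

/-!
# P362, module TRANSCRIPT part A: decoding and twisting
-/

namespace P362

open scoped BigOperators

theorem dec_surj_aux (m : ℕ) : ∀ t : ℕ, t < 2 ^ m →
    ∃ w : Fin m → Bool, (∑ b, if w b then 2 ^ (b : ℕ) else 0 : ℤ) = t := by
  induction m with
  | zero =>
    intro t ht
    refine ⟨fun _ => false, ?_⟩
    have : t = 0 := by simpa using ht
    simp [this]
  | succ m ih =>
    intro t ht
    by_cases h : t < 2 ^ m
    · obtain ⟨w, hw⟩ := ih t h
      refine ⟨Fin.snoc (α := fun _ => Bool) w false, ?_⟩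
      rw [Fin.sum_univ_castSucc]
      simpa using hw
    · have h' : t - 2 ^ m < 2 ^ m := by
        rw [pow_succ] at ht
        omega
      obtain ⟨w, hw⟩ := ih (t - 2 ^ m) h'
      refine ⟨Fin.snoc (α := fun _ => Bool) w true, ?_⟩
      rw [Fin.sum_univ_castSucc]
      simp only [Fin.snoc_castSucc, Fin.snoc_last, Fin.val_castSucc, Fin.val_last, if_true]
      rw [hw, Nat.cast_sub (not_lt.mp h)]
      push_cast
      ring

/-- every integer of absolute value at most `2^(B-1) - 1` is a decoded word of length `B` -/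
theorem dec_surj {B : ℕ} (hB : 1 ≤ B) (t : ℤ) (h0 : -(2 : ℤ) ^ (B - 1) ≤ t)
    (h1 : t < 2 ^ (B - 1)) : ∃ w : Fin B → Bool, dec w = t := by
  have h2 : (2 : ℤ) ^ B = 2 ^ (B - 1) + 2 ^ (B - 1) := by
    conv_lhs => rw [show B = (B - 1) + 1 by omega]
    rw [pow_succ]
    ring
  obtain ⟨w, hw⟩ := dec_surj_aux B (t + 2 ^ (B - 1)).toNat (by
    have : ((t + 2 ^ (B - 1)).toNat : ℤ) < 2 ^ B := by
      rw [Int.toNat_of_nonneg (by linarith), h2]
      linarith
    exact_mod_cast this)
  refine ⟨w, ?_⟩
  unfold dec
  rw [hw, Int.toNat_of_nonneg (by linarith)]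
  ring

/-- a blank word decodes to a negative number -/
theorem dec_blank {B : ℕ} : dec (fun _ : Fin B => false) < 0 := by
  unfold dec
  simp

/-- `ψ_a` is `ψ_0` of the twisted data -/
def twist {n r : ℕ} (a : V n) (y : Fin (r + 1) × V n → Bool) : Fin (r + 1) × V n → Bool :=
  fun t => if t.1 = Fin.last r ∧ chi a t.2 = -1 then !(y t) else y t

theorem twist_twist {n r : ℕ} (a : V n) (y : Fin (r + 1) × V n → Bool) :
    twist a (twist a y) = y := by
  funext t
  unfold twist
  by_cases h : t.1 = Fin.last r ∧ chi a t.2 = -1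
  · simp only [h, and_self, if_true, Bool.not_not]
  · simp only [h, if_false]

theorem chi_eq_one_or {n : ℕ} (a i : V n) : chi a i = 1 ∨ chi a i = -1 := by
  unfold chi
  induction (Finset.univ : Finset (Fin n)) using Finset.induction_on with
  | empty => simp
  | insert s S hs ih =>
    rw [Finset.prod_insert hs]
    rcases ih with h | h <;> rw [h] <;> by_cases hb : (a s && i s) = true <;> simp [hb]

theorem chi_zero {n : ℕ} (i : V n) : chi (fun _ => false) i = 1 := by
  simp [chi]

theorem sg_twist_last {n r : ℕ} (a : V n) (y : Fin (r + 1) × V n → Bool) (i : V n) :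
    sg (twist a y (Fin.last r, i)) = chi a i * sg (y (Fin.last r, i)) := by
  unfold twist
  rcases chi_eq_one_or a i with h | h
  · simp [h]
  · simp only [h, and_self, if_true]
    cases y (Fin.last r, i) <;> simp [sg]

theorem lay_twist {n r : ℕ} (a : V n) (y : Fin (r + 1) × V n → Bool) (l : ℕ) (hl : l ≤ r) :
    lay (twist a y) l = lay y l := by
  induction l with
  | zero => rfl
  | succ l ih =>
    have hl' : l < r + 1 := by omega
    simp only [lay, hl', dif_pos, ih (by omega)]
    congr 1
    funext i
    congr 2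
    unfold twist
    rw [if_neg]
    rintro ⟨h, -⟩
    have := congrArg Fin.val h
    simp at this
    omega

theorem psi_twist {n r : ℕ} (a : V n) (y : Fin (r + 1) × V n → Bool) :
    psi (twist a y) a = psi y (fun _ => false) := by
  unfold psi
  congr 2
  simp only [lay, lt_add_iff_pos_right, zero_lt_one, dif_pos, lay_twist a y r le_rfl, wht]
  apply Finset.sum_congr rfl
  intro i _
  have := sg_twist_last a y i
  have h2 : (⟨r, by omega⟩ : Fin (r + 1)) = Fin.last r := rfl
  rw [h2, this, chi_zero]
  rcases chi_eq_one_or a i with h | h <;> rw [h] <;> ring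

end P362
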