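import Vale.Agent.P362.TrA

/-!
# P362, module TRANSCRIPT part B: butterfly steps compute the Walsh–Hadamard transform
-/

namespace P362

open scoped BigOperators

variable {n r : ℕ}

/-- `s` butterfly steps applied to `g` -/
def bst (g : V n → ℤ) : ℕ → V n → ℤ
  | 0 => g
  | s + 1 => fun i => if h : s < n then
      bst g s (Function.update i ⟨s, h⟩ false) +
        (if i ⟨s, h⟩ then -1 else 1) * bst g s (Function.update i ⟨s, h⟩ true) else bst g s i

/-- kernel after `s` steps -/
def bker (s : ℕ) (i j : V n) : ℤ :=
  if ∀ t : Fin n, s ≤ (t : ℕ) → j t = i t then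
    ∏ t : Fin n, if (t : ℕ) < s then (if i t && j t then -1 else 1) else 1 else 0

theorem bker_zero (i j : V n) : bker 0 i j = if j = i then 1 else 0 := by
  unfold bker
  by_cases h : j = i
  · subst h; simp
  · rw [if_neg, if_neg h]
    intro h'
    exact h (funext fun t => h' t (Nat.zero_le _))

theorem bker_last (i j : V n) : bker n i j = chi i j := by
  unfold bker chi
  rw [if_pos]
  · apply Finset.prod_congr rfl
    intro t _
    rw [if_pos t.2]
  · intro t ht
    exact absurd t.2 (not_lt.mpr ht)

theorem bker_succ (s : ℕ) (h : s < n) (i j : V n) :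
    bker (s + 1) i j = bker s (Function.update i ⟨s, h⟩ false) j +
      (if i ⟨s, h⟩ then -1 else 1) * bker s (Function.update i ⟨s, h⟩ true) j := by
  have key : ∀ b : Bool, bker s (Function.update i ⟨s, h⟩ b) j =
      if j ⟨s, h⟩ = b then (if ∀ t : Fin n, s + 1 ≤ (t : ℕ) → j t = i t then
        ∏ t : Fin n, if (t : ℕ) < s then (if i t && j t then -1 else 1) else 1 else 0) else 0 := by
    intro b
    unfold bker
    have hprod : (∏ t : Fin n, if (t : ℕ) < s then
        (if Function.update i ⟨s, h⟩ b t && j t then (-1 : ℤ) else 1) else 1) =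
        ∏ t : Fin n, if (t : ℕ) < s then (if i t && j t then (-1 : ℤ) else 1) else 1 := by
      apply Finset.prod_congr rfl
      intro t _
      by_cases ht : (t : ℕ) < s
      · have : t ≠ ⟨s, h⟩ := fun e => by rw [e] at ht; exact lt_irrefl _ ht
        rw [Function.update_of_ne this]
      · simp [ht]
    rw [hprod]
    by_cases hb : j ⟨s, h⟩ = b
    · rw [if_pos hb]
      congr 1
      apply propext
      constructor
      · intro H t ht
        have := H t (by omega)
        rwa [Function.update_of_ne] at this
        intro e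
        rw [e] at ht
        simp at ht
      · intro H t ht
        by_cases e : t = ⟨s, h⟩
        · rw [e, Function.update_self]
          exact hb
        · rw [Function.update_of_ne e]
          apply H
          have : (t : ℕ) ≠ s := fun e' => e (Fin.ext e')
          omega
    · rw [if_neg hb, if_neg]
      intro H
      apply hb
      have := H ⟨s, h⟩ le_rfl
      rwa [Function.update_self] at this
  rw [key false, key true]
  have hprod : (∏ t : Fin n, if (t : ℕ) < s + 1 then
      (if i t && j t then (-1 : ℤ) else 1) else 1) =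
      (if i ⟨s, h⟩ && j ⟨s, h⟩ then (-1 : ℤ) else 1) *
        ∏ t : Fin n, if (t : ℕ) < s then (if i t && j t then (-1 : ℤ) else 1) else 1 := by
    rw [← Finset.mul_prod_erase Finset.univ _ (Finset.mem_univ (⟨s, h⟩ : Fin n)),
      ← Finset.mul_prod_erase Finset.univ (fun t : Fin n => if (t : ℕ) < s then
        (if i t && j t then (-1 : ℤ) else 1) else 1) (Finset.mem_univ (⟨s, h⟩ : Fin n))]
    simp only [lt_add_iff_pos_right, zero_lt_one, if_true, lt_irrefl, if_false, one_mul]
    congr 1
    apply Finset.prod_congr rfl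
    intro t ht
    have e : t ≠ ⟨s, h⟩ := (Finset.mem_erase.mp ht).1
    have : (t : ℕ) ≠ s := fun e' => e (Fin.ext e')
    have e2 : ((t : ℕ) < s + 1) ↔ ((t : ℕ) < s) := by
      omega
    simp only [e2]
  unfold bker
  rw [hprod]
  by_cases hc : ∀ t : Fin n, s + 1 ≤ (t : ℕ) → j t = i t
  · simp only [if_pos hc]
    cases hj : j ⟨s, h⟩ <;> cases hi : i ⟨s, h⟩ <;> simp
  · simp only [if_neg hc]
    simp

theorem bst_eq (g : V n → ℤ) (s : ℕ) (hs : s ≤ n) (i : V n) :
    bst g s i = ∑ j, bker s i j * g j := by
  induction s generalizing i with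
  | zero => simp [bst, bker_zero]
  | succ s ih =>
    have h : s < n := hs
    simp only [bst, h, dif_pos, ih (le_of_lt h)]
    rw [Finset.mul_sum, ← Finset.sum_add_distrib]
    apply Finset.sum_congr rfl
    intro j _
    rw [bker_succ s h]
    ring

theorem bst_eq_wht (g : V n → ℤ) : bst g n = wht g := by
  funext i
  rw [bst_eq g n le_rfl]
  simp [wht, bker_last]

theorem bst_bound (g : V n → ℤ) (B : ℤ) (hg : ∀ i, |g i| ≤ B) (s : ℕ) (i : V n) :
    |bst g s i| ≤ 2 ^ s * B := by
  induction s generalizing i with
  | zero => simpa [bst] using hg i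
  | succ s ih =>
    have hB : 0 ≤ B := (abs_nonneg _).trans (hg i)
    simp only [bst]
    split_ifs with h h2
    · calc _ ≤ |bst g s (Function.update i ⟨s, h⟩ false)| +
            |-1 * bst g s (Function.update i ⟨s, h⟩ true)| := abs_add_le _ _
        _ ≤ 2 ^ s * B + 2 ^ s * B := by
            rw [abs_mul]
            simp only [abs_neg, abs_one, one_mul]
            exact add_le_add (ih _) (ih _)
        _ = 2 ^ (s + 1) * B := by ring
    · calc _ ≤ |bst g s (Function.update i ⟨s, h⟩ false)| +
            |1 * bst g s (Function.update i ⟨s, h⟩ true)| := abs_add_le _ _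
        _ ≤ 2 ^ s * B + 2 ^ s * B := by
            rw [one_mul]
            exact add_le_add (ih _) (ih _)
        _ = 2 ^ (s + 1) * B := by ring
    · calc _ ≤ 2 ^ s * B := ih i
        _ ≤ 2 ^ (s + 1) * B := by
            rw [pow_succ]
            have : 0 ≤ 2 ^ s * B := by positivity
            linarith

/-- masked previous layer -/
def msk (y : Fin (r + 1) × V n → Bool) (l : Fin (r + 1)) (i : V n) : ℤ :=
  sg (y (l, i)) * lay y l i

theorem lay_succ (y : Fin (r + 1) × V n → Bool) (l : Fin (r + 1)) :
    lay y (l + 1) = bst (msk y l) n := by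
  rw [bst_eq_wht]
  simp only [lay]
  congr 1
  funext i
  rw [dif_pos l.2]
  rfl

theorem abs_sg (b : Bool) : |sg b| = 1 := by cases b <;> simp [sg]

theorem lay_bound (y : Fin (r + 1) × V n → Bool) (l : ℕ) (hl : l ≤ r + 1) (a : V n) :
    |lay y l a| ≤ 2 ^ (n * l) := by
  induction l generalizing a with
  | zero => simp [lay]
  | succ l ih =>
    have h : l < r + 1 := hl
    have e := lay_succ y ⟨l, h⟩
    simp only at e
    rw [e]
    have hm : ∀ i, |msk y ⟨l, h⟩ i| ≤ 2 ^ (n * l) := by
      intro i
      unfold msk
      rw [abs_mul, abs_sg, one_mul]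
      exact ih (le_of_lt h) i
    have hb := bst_bound (msk y ⟨l, h⟩) _ hm n a
    have e3 : (2 : ℤ) ^ n * 2 ^ (n * l) = 2 ^ (n * (l + 1)) := by
      rw [← pow_add]
      congr 1
      ring
    rw [e3] at hb
    exact hb

theorem words_correct (δ : ℝ) (x : Idx n r → Bool) (p a : V n)
    (h1 : ∀ l i, chkOK δ x p a (.mask l i)) (h2 : ∀ l s i, chkOK δ x p a (.bfly l s i))
    (l : Fin (r + 1)) :
    ∀ s : Fin (n + 1), ∀ i, tw x p a l s i = bst (msk (blk x p) l) s i := by
  induction l using Fin.induction with
  | zero =>
    intro s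
    induction s using Fin.induction with
    | zero =>
      intro i
      have := h1 0 i
      simp only [chkOK, prevw, dif_pos] at this
      rw [this]
      simp [bst, msk, lay, blk]
    | succ s ih =>
      intro i
      have := h2 0 s i
      simp only [chkOK] at this
      rw [this, ih, ih]
      simp [bst]
  | succ l ihl =>
    intro s
    induction s using Fin.induction with
    | zero =>
      intro i
      have := h1 l.succ i
      simp only [chkOK, prevw, Fin.succ_ne_zero, dif_neg, not_false_eq_true, Fin.pred_succ] at this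
      rw [this, ihl (Fin.last n) i]
      have e := lay_succ (blk x p) l.castSucc
      simp only [Fin.val_last, Fin.val_castSucc] at e ⊢
      simp [bst, msk, blk, e]
    | succ s ih =>
      intro i
      have := h2 l.succ s i
      simp only [chkOK] at this
      rw [this, ih, ih]
      simp [bst]

theorem sN_pos (n : ℕ) : 0 < sN n := by
  unfold sN
  positivity

/-- soundness -/
theorem psi_of_checks (δ : ℝ) (x : Idx n r → Bool) (p a : V n)
    (h1 : ∀ l i, chkOK δ x p a (.mask l i)) (h2 : ∀ l s i, chkOK δ x p a (.bfly l s i))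
    (h3 : chkOK δ x p a .fin) : δ ≤ psi (blk x p) a := by
  simp only [chkOK] at h3
  rw [words_correct δ x p a h1 h2] at h3
  unfold psi
  rw [le_div_iff₀ (pow_pos (sN_pos n) _)]
  have e := lay_succ (blk x p) (Fin.last r)
  simp only [Fin.val_last] at e h3
  rw [e]
  exact h3

/-- completeness -/
theorem exists_words (y : Fin (r + 1) × V n → Bool) :
    ∃ W : Fin (r + 1) → Fin (n + 1) → V n → Fin (wlen n r) → Bool,
      ∀ (δ : ℝ) (x : Idx n r → Bool) (p a : V n), blk x p = y →
        (∀ l s i b, x (.word p a l s i b) = W l s i b) → δ ≤ psi y a →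
        (∀ l i, chkOK δ x p a (.mask l i)) ∧ (∀ l s i, chkOK δ x p a (.bfly l s i)) ∧
          chkOK δ x p a .fin := by
  have hb : ∀ (l : Fin (r + 1)) (s : Fin (n + 1)) (i : V n),
      |bst (msk y l) s i| < 2 ^ (wlen n r - 1) := by
    intro l s i
    have h1 : |bst (msk y l) s i| ≤ 2 ^ (s : ℕ) * 2 ^ (n * l) := by
      apply bst_bound
      intro j
      unfold msk
      rw [abs_mul, abs_sg, one_mul]
      exact lay_bound y l (le_of_lt l.2) j
    refine lt_of_le_of_lt h1 ?_
    rw [← pow_add]
    apply pow_lt_pow_right₀ (by norm_num)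
    unfold wlen
    have hl : (l : ℕ) ≤ r := Nat.lt_succ_iff.mp l.2
    have hs : (s : ℕ) ≤ n := Nat.lt_succ_iff.mp s.2
    have : n * (l : ℕ) ≤ n * r := Nat.mul_le_mul_left _ hl
    have e : n * (r + 1) = n * r + n := by ring
    omega
  have hW : ∀ (l : Fin (r + 1)) (s : Fin (n + 1)) (i : V n),
      ∃ w : Fin (wlen n r) → Bool, dec w = bst (msk y l) s i := by
    intro l s i
    have := abs_lt.mp (hb l s i)
    exact dec_surj (by unfold wlen; omega) _ (le_of_lt this.1) this.2
  choose W hW using hW
  refine ⟨W, fun δ x p a hy hx hψ => ?_⟩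
  have ht : ∀ l s i, tw x p a l s i = bst (msk y l) s i := by
    intro l s i
    rw [← hW l s i]
    unfold tw
    congr 1
    funext b
    exact hx l s i b
  refine ⟨fun l i => ?_, fun l s i => ?_, ?_⟩
  · simp only [chkOK]
    rw [ht]
    have hd : x (.data p l i) = y (l, i) := by rw [← hy]; rfl
    rw [hd]
    by_cases hl : l = 0
    · subst hl
      simp [prevw, bst, msk, lay]
    · obtain ⟨l', rfl⟩ := Fin.exists_succ_eq.mpr hl
      simp only [prevw, Fin.succ_ne_zero, dif_neg, not_false_eq_true, Fin.pred_succ]
      rw [ht]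
      have e := lay_succ y l'.castSucc
      simp only [Fin.val_last, Fin.val_castSucc] at e ⊢
      simp [bst, msk, e]
  · simp only [chkOK]
    rw [ht, ht, ht]
    simp [bst]
  · simp only [chkOK]
    rw [ht]
    unfold psi at hψ
    rw [le_div_iff₀ (pow_pos (sN_pos n) _)] at hψ
    have e := lay_succ y (Fin.last r)
    simp only [Fin.val_last] at e ⊢
    rw [← e]
    exact hψ

end P362
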