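import Vale.Agent.P362.Func

/-!
# P362, module TRANSCRIPT, part 1: the butterfly steps compute the Walsh–Hadamard transform
-/

namespace P362

open scoped BigOperators

/-- the vector after the first `s` butterfly steps -/
def pt {n : ℕ} (g : V n → ℤ) : ℕ → V n → ℤ
  | 0 => g
  | s + 1 => fun i => if h : s < n then
      pt g s (Function.update i ⟨s, h⟩ false) +
        (if i ⟨s, h⟩ then -1 else 1) * pt g s (Function.update i ⟨s, h⟩ true)
      else pt g s i

/-- the `t`-th factor of the character -/
def chf {n : ℕ} (i j : V n) (t : Fin n) : ℤ := if i t && j t then -1 else 1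

theorem pt_eq {n : ℕ} (g : V n → ℤ) (s : ℕ) (hs : s ≤ n) (i : V n) :
    pt g s i = ∑ j : V n, if (∀ t : Fin n, s ≤ (t : ℕ) → j t = i t) then
      (∏ t with (t : Fin n).1 < s, chf i j t) * g j else 0 := by
  induction s generalizing i with
  | zero =>
    rw [Finset.sum_eq_single i]
    · rw [if_pos fun t _ => rfl]
      simp [pt]
    · intro j _ hj
      rw [if_neg]
      intro h
      exact hj (funext fun t => h t (Nat.zero_le _))
    · intro h
      exact absurd (Finset.mem_univ _) h
  | succ s ih =>
    have hs' : s < n := hs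
    set k : Fin n := ⟨s, hs'⟩ with hk
    have e : pt g (s + 1) i = pt g s (Function.update i k false) +
        (if i k then -1 else 1) * pt g s (Function.update i k true) := by
      simp only [pt, dif_pos hs', hk]
    rw [e, ih hs'.le, ih hs'.le, Finset.mul_sum, ← Finset.sum_add_distrib]
    refine Finset.sum_congr rfl fun j _ => ?_
    have hset : (Finset.univ.filter fun t : Fin n => t.1 < s + 1) =
        insert k (Finset.univ.filter fun t : Fin n => t.1 < s) := by
      ext t
      simp only [Finset.mem_filter, Finset.mem_univ, true_and, Finset.mem_insert, Fin.ext_iff, hk]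
      omega
    have hnot : k ∉ Finset.univ.filter fun t : Fin n => t.1 < s := by simp [hk]
    have hprod : ∀ b : Bool, ∏ t with (t : Fin n).1 < s, chf (Function.update i k b) j t =
        ∏ t with (t : Fin n).1 < s, chf i j t := by
      intro b
      refine Finset.prod_congr rfl fun t ht => ?_
      have htk : t ≠ k := fun h => hnot (h ▸ ht)
      unfold chf
      rw [Function.update_of_ne htk]
    have hcond : ∀ b : Bool, (∀ t : Fin n, s ≤ (t : ℕ) → j t = Function.update i k b t) ↔
        (j k = b ∧ ∀ t : Fin n, s + 1 ≤ (t : ℕ) → j t = i t) := by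
      intro b
      constructor
      · intro h
        refine ⟨by simpa using h k le_rfl, fun t ht => ?_⟩
        have htk : t ≠ k := fun h => by
          rw [h, hk] at ht
          simp at ht
        simpa [Function.update_of_ne htk] using h t (by omega)
      · rintro ⟨h1, h2⟩ t ht
        by_cases htk : t = k
        · subst htk
          simpa using h1
        · rw [Function.update_of_ne htk]
          refine h2 t ?_
          have : (t : ℕ) ≠ s := fun h => htk (Fin.ext h)
          omega
    rw [hset, Finset.prod_insert hnot]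
    simp only [hcond, hprod]
    by_cases hc : ∀ t : Fin n, s + 1 ≤ (t : ℕ) → j t = i t
    · rw [if_pos hc]
      have hb : ∀ b : Bool, (j k = b ∧ ∀ t : Fin n, s + 1 ≤ (t : ℕ) → j t = i t) ↔ j k = b :=
        fun b => and_iff_left hc
      simp only [hb]
      cases hj : j k with
      | false =>
        have h1 : chf i j k = 1 := by simp [chf, hj]
        rw [h1]
        simp
      | true =>
        have h1 : chf i j k = if i k then -1 else 1 := by simp [chf, hj]
        rw [h1]
        simp [mul_assoc]
    · rw [if_neg hc]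
      have hb : ∀ b : Bool, ¬ (j k = b ∧ ∀ t : Fin n, s + 1 ≤ (t : ℕ) → j t = i t) :=
        fun b h => hc h.2
      rw [if_neg (hb false), if_neg (hb true)]
      simp

theorem pt_n {n : ℕ} (g : V n → ℤ) (i : V n) : pt g n i = wht g i := by
  rw [pt_eq g n le_rfl, wht]
  refine Finset.sum_congr rfl fun j _ => ?_
  rw [if_pos fun t ht => absurd t.2 (not_lt.2 ht)]
  congr 1
  unfold chi
  refine Finset.prod_congr ?_ fun t _ => rfl
  ext t
  simp

theorem pt_succ {n : ℕ} (g : V n → ℤ) (s : Fin n) (i : V n) :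
    pt g ((s : ℕ) + 1) i = pt g s (Function.update i s false) +
      (if i s then -1 else 1) * pt g s (Function.update i s true) := by
  simp only [pt, dif_pos s.2]

theorem pt_abs {n : ℕ} (g : V n → ℤ) (K : ℤ) (hg : ∀ i, |g i| ≤ K) (s : ℕ) (i : V n) :
    |pt g s i| ≤ 2 ^ s * K := by
  have hK : 0 ≤ K := (abs_nonneg _).trans (hg i)
  induction s generalizing i with
  | zero => simpa [pt] using hg i
  | succ s ih =>
    by_cases h : s < n
    · have e := pt_succ g ⟨s, h⟩ i
      have e' : pt g (s + 1) i = pt g s (Function.update i ⟨s, h⟩ false) +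
        (if i ⟨s, h⟩ then -1 else 1) * pt g s (Function.update i ⟨s, h⟩ true) := e
      rw [e']
      refine (abs_add_le _ _).trans ?_
      rw [abs_mul]
      have h1 : |(if i ⟨s, h⟩ then (-1 : ℤ) else 1)| = 1 := by split_ifs <;> simp
      rw [h1, one_mul, pow_succ]
      have h2 := ih (Function.update i ⟨s, h⟩ false)
      have h3 := ih (Function.update i ⟨s, h⟩ true)
      linarith
    · have e : pt g (s + 1) i = pt g s i := by simp only [pt, dif_neg h]
      rw [e, pow_succ]
      have := ih i
      have h2 : (0 : ℤ) ≤ 2 ^ s * K := by positivity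
      linarith

/-- masked vector of level `l` -/
def mlay {n r : ℕ} (y : Fin (r + 1) × V n → Bool) (l : Fin (r + 1)) (i : V n) : ℤ :=
  sg (y (l, i)) * lay y l i

theorem lay_succ {n r : ℕ} (y : Fin (r + 1) × V n → Bool) (l : Fin (r + 1)) :
    lay y ((l : ℕ) + 1) = wht (mlay y l) := by
  simp only [lay, dif_pos l.2]
  rfl

theorem lay_abs {n r : ℕ} (y : Fin (r + 1) × V n → Bool) (l : ℕ) (hl : l ≤ r + 1) (i : V n) :
    |lay y l i| ≤ 2 ^ (n * l) := by
  induction l generalizing i with
  | zero => simp [lay]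
  | succ l ih =>
    have e := lay_succ y ⟨l, hl⟩
    have e' : lay y (l + 1) = wht (mlay y ⟨l, hl⟩) := e
    rw [e', ← pt_n]
    refine (pt_abs _ (2 ^ (n * l)) (fun j => ?_) n i).trans (le_of_eq ?_)
    · unfold mlay
      rw [abs_mul]
      have h1 : |sg (y (⟨l, hl⟩, j))| = 1 := by unfold sg; split_ifs <;> simp
      rw [h1, one_mul]
      exact ih (by omega) j
    · rw [← pow_add]
      congr 1
      ring

/-- the checks force the transcript -/
theorem tw_eq {n r : ℕ} (δ : ℝ) (x : Idx n r → Bool) (p a : V n)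
    (h1 : ∀ l i, chkOK δ x p a (.mask l i)) (h2 : ∀ l s i, chkOK δ x p a (.bfly l s i))
    (l : ℕ) (hl : l < r + 1) :
    (∀ i, prevw x p a ⟨l, hl⟩ i = lay (blk x p) l i) ∧
    (∀ (s : Fin (n + 1)) i, tw x p a ⟨l, hl⟩ s i = pt (mlay (blk x p) ⟨l, hl⟩) s i) := by
  have key : ∀ l : Fin (r + 1), (∀ i, prevw x p a l i = lay (blk x p) l i) →
      ∀ (s : ℕ) (hs : s < n + 1) i, tw x p a l ⟨s, hs⟩ i = pt (mlay (blk x p) l) s i := by
    intro l hprev s
    induction s with
    | zero =>
      intro hs i
      have := h1 l i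
      simp only [chkOK] at this
      have e : tw x p a l ⟨0, hs⟩ i = tw x p a l 0 i := rfl
      rw [e, this, hprev]
      rfl
    | succ s ih =>
      intro hs i
      have hs' : s < n := by omega
      have := h2 l ⟨s, hs'⟩ i
      simp only [chkOK] at this
      have e : tw x p a l ⟨s + 1, hs⟩ i = tw x p a l (Fin.succ ⟨s, hs'⟩) i := rfl
      rw [e, this]
      have e2 : (Fin.castSucc ⟨s, hs'⟩ : Fin (n + 1)) = ⟨s, by omega⟩ := rfl
      rw [e2, ih, ih]
      exact (pt_succ _ ⟨s, hs'⟩ i).symm
  induction l with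
  | zero =>
    have h0 : ∀ i, prevw x p a ⟨0, hl⟩ i = lay (blk x p) 0 i := by
      intro i
      have e0 : (⟨0, hl⟩ : Fin (r + 1)) = 0 := rfl
      unfold prevw
      rw [dif_pos e0]
      rfl
    exact ⟨h0, fun s i => key ⟨0, hl⟩ h0 s s.2 i⟩
  | succ l ih =>
    have hprev : ∀ i, prevw x p a ⟨l + 1, hl⟩ i = lay (blk x p) (l + 1) i := by
      intro i
      unfold prevw
      rw [dif_neg (by simp [Fin.ext_iff])]
      have e : (Fin.pred (⟨l + 1, hl⟩ : Fin (r + 1)) (by simp [Fin.ext_iff])).castSucc =
          (⟨l, by omega⟩ : Fin (r + 1)) := by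
        ext
        simp
      rw [e, (ih (by omega)).2 (Fin.last n) i]
      have e2 := lay_succ (blk x p) ⟨l, by omega⟩
      have e3 : lay (blk x p) (l + 1) = wht (mlay (blk x p) ⟨l, by omega⟩) := e2
      rw [e3, ← pt_n]
      rfl
    exact ⟨hprev, fun s i => key ⟨l + 1, hl⟩ hprev s s.2 i⟩

theorem tw_last {n r : ℕ} (δ : ℝ) (x : Idx n r → Bool) (p a : V n)
    (h1 : ∀ l i, chkOK δ x p a (.mask l i)) (h2 : ∀ l s i, chkOK δ x p a (.bfly l s i)) (i : V n) :
    tw x p a (Fin.last r) (Fin.last n) i = lay (blk x p) (r + 1) i := by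
  have h := (tw_eq δ x p a h1 h2 r (by omega)).2 (Fin.last n) i
  have e2 : lay (blk x p) (r + 1) = wht (mlay (blk x p) ⟨r, by omega⟩) :=
    lay_succ (blk x p) ⟨r, by omega⟩
  rw [e2, ← pt_n]
  exact h

/-- soundness: mask, butterfly and final checks force `ψ_{p,a} ≥ δ` -/
theorem psi_of_checks' {n r : ℕ} (δ : ℝ) (x : Idx n r → Bool) (p a : V n)
    (h1 : ∀ l i, chkOK δ x p a (.mask l i)) (h2 : ∀ l s i, chkOK δ x p a (.bfly l s i))
    (h3 : chkOK δ x p a .fin) : δ ≤ psi (blk x p) a := by
  simp only [chkOK] at h3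
  rw [tw_last δ x p a h1 h2] at h3
  unfold psi
  have : 0 < sN n ^ (r + 2) := by
    unfold sN
    positivity
  rw [le_div_iff₀ this]
  exact h3

/-- completeness -/
theorem exists_words' {n r : ℕ}
    (hdec : ∀ {B : ℕ}, 1 ≤ B → ∀ t : ℤ, -(2 : ℤ) ^ (B - 1) ≤ t → t < 2 ^ (B - 1) →
      ∃ w : Fin B → Bool, dec w = t) (y : Fin (r + 1) × V n → Bool) :
    ∃ W : Fin (r + 1) → Fin (n + 1) → V n → Fin (wlen n r) → Bool,
      ∀ (δ : ℝ) (x : Idx n r → Bool) (p a : V n), blk x p = y →
        (∀ l s i b, x (.word p a l s i b) = W l s i b) → δ ≤ psi y a →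
        (∀ l i, chkOK δ x p a (.mask l i)) ∧ (∀ l s i, chkOK δ x p a (.bfly l s i)) ∧
          chkOK δ x p a .fin := by
  have hw : ∀ (l : Fin (r + 1)) (s : Fin (n + 1)) (i : V n),
      ∃ w : Fin (wlen n r) → Bool, dec w = pt (mlay y l) s i := by
    intro l s i
    have hb : |pt (mlay y l) s i| ≤ 2 ^ (n * (r + 1)) := by
      refine (pt_abs _ (2 ^ (n * (l : ℕ))) (fun j => ?_) s i).trans ?_
      · unfold mlay
        rw [abs_mul]
        have h1 : |sg (y (l, j))| = 1 := by unfold sg; split_ifs <;> simp
        rw [h1, one_mul]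
        exact lay_abs y l (by omega) j
      · rw [← pow_add]
        refine pow_le_pow_right₀ (by norm_num) ?_
        have h1 : (s : ℕ) ≤ n := by omega
        have h2 : (l : ℕ) ≤ r := by omega
        nlinarith
    have hB : wlen n r - 1 = n * (r + 1) + 1 := by
      unfold wlen
      omega
    have hlt : (2 : ℤ) ^ (n * (r + 1)) < 2 ^ (wlen n r - 1) := by
      rw [hB]
      exact pow_lt_pow_right₀ (by norm_num) (by omega)
    rw [abs_le] at hb
    exact hdec (by unfold wlen; omega) _ (by linarith [hb.1]) (by linarith [hb.2])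
  choose W hW using hw
  refine ⟨W, fun δ x p a hx hxW hψ => ?_⟩
  have htw : ∀ l s i, tw x p a l s i = pt (mlay y l) s i := by
    intro l s i
    rw [← hW l s i]
    unfold tw
    congr 1
    funext b
    exact hxW l s i b
  have hprev : ∀ l i, prevw x p a l i = lay y l i := by
    intro l i
    unfold prevw
    by_cases h : l = 0
    · rw [dif_pos h, h]
      rfl
    · rw [dif_neg h, htw]
      have hl0 : (l : ℕ) ≠ 0 := fun h' => h (Fin.ext h')
      have e2 := lay_succ y ((l.pred h).castSucc)
      have e : (((l.pred h).castSucc : Fin (r + 1)) : ℕ) + 1 = l := by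
        simp
        omega
      rw [e] at e2
      rw [e2, ← pt_n]
      rfl
  refine ⟨fun l i => ?_, fun l s i => ?_, ?_⟩
  · simp only [chkOK]
    rw [htw, hprev]
    have : x (.data p l i) = y (l, i) := by rw [← hx]; rfl
    rw [this]
    rfl
  · simp only [chkOK]
    rw [htw, htw, htw]
    exact pt_succ _ s i
  · simp only [chkOK]
    rw [htw]
    have e2 : lay y (r + 1) = wht (mlay y (Fin.last r)) := lay_succ y (Fin.last r)
    have e3 : pt (mlay y (Fin.last r)) ((Fin.last n : Fin (n + 1)) : ℕ) a = lay y (r + 1) a := by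
      rw [e2, ← pt_n]
      rfl
    rw [e3]
    unfold psi at hψ
    have : 0 < sN n ^ (r + 2) := by
      unfold sN
      positivity
    rwa [le_div_iff₀ this] at hψ

end P362
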