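import Vale.Agent.P362.UDefs

/-!
# P362, module UADV: the positive-weights adversary argument
-/

namespace P362

open scoped BigOperators Matrix

namespace Adv

section basic

variable {S : Type} [Fintype S]

/-- inner product -/
noncomputable def ip (φ ψ : S → ℂ) : ℂ := ∑ s, star (φ s) * ψ s

theorem ip_eq (φ ψ : S → ℂ) : ip φ ψ = star φ ⬝ᵥ ψ := rfl

theorem ip_unitary [DecidableEq S] {U : Matrix S S ℂ} (hU : U ∈ Matrix.unitaryGroup S ℂ)
    (φ ψ : S → ℂ) : ip (U *ᵥ φ) (U *ᵥ ψ) = ip φ ψ := by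
  rw [ip_eq, ip_eq, Matrix.star_mulVec, ← Matrix.dotProduct_mulVec, Matrix.mulVec_mulVec]
  have h : Uᴴ * U = 1 := by
    rw [← Matrix.star_eq_conjTranspose]
    exact Matrix.mem_unitaryGroup_iff'.mp hU
  rw [h, Matrix.one_mulVec]

theorem ip_self (φ : S → ℂ) : ip φ φ = ((∑ s, ‖φ s‖ ^ 2 : ℝ) : ℂ) := by
  unfold ip
  push_cast
  apply Finset.sum_congr rfl
  intro s _
  rw [Complex.star_def, mul_comm, Complex.mul_conj, Complex.normSq_eq_norm_sq]
  push_cast
  rfl

/-- Cauchy–Schwarz on a subset -/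
theorem csb {T : Type} (A : Finset T) (φ ψ : T → ℂ) :
    ‖∑ s ∈ A, star (φ s) * ψ s‖ ≤
      Real.sqrt (∑ s ∈ A, ‖φ s‖ ^ 2) * Real.sqrt (∑ s ∈ A, ‖ψ s‖ ^ 2) := by
  calc ‖∑ s ∈ A, star (φ s) * ψ s‖ ≤ ∑ s ∈ A, ‖star (φ s) * ψ s‖ := norm_sum_le _ _
    _ = ∑ s ∈ A, ‖φ s‖ * ‖ψ s‖ := by
        apply Finset.sum_congr rfl
        intro s _
        rw [norm_mul, norm_star]
    _ ≤ _ := by
        rw [← Real.sqrt_mul (Finset.sum_nonneg fun s _ => sq_nonneg _)]
        apply Real.le_sqrt_of_sq_le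
        exact Finset.sum_mul_sq_le_sq_mul_sq A _ _

end basic

section orc

variable {ι Z : Type}

/-- weight of the query register at `i` -/
noncomputable def qw [Fintype Z] (φ : ι × Bool × Z → ℂ) (i : ι) : ℝ :=
  ∑ t : Bool × Z, ‖φ (i, t)‖ ^ 2

theorem qw_nonneg [Fintype Z] (φ : ι × Bool × Z → ℂ) (i : ι) : 0 ≤ qw φ i :=
  Finset.sum_nonneg fun _ _ => sq_nonneg _

theorem sum_qw [Fintype ι] [Fintype Z] (φ : ι × Bool × Z → ℂ) :
    ∑ i, qw φ i = ∑ s, ‖φ s‖ ^ 2 := by
  unfold qw
  rw [Fintype.sum_prod_type]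

/-- flipping the answer bit by `c` -/
def fl (c : Bool) : Bool × Z ≃ Bool × Z where
  toFun t := (xor t.1 c, t.2)
  invFun t := (xor t.1 c, t.2)
  left_inv t := by simp
  right_inv t := by simp

variable [Fintype ι] [DecidableEq ι] [Fintype Z] [DecidableEq Z]

theorem oracle_apply (x : ι → Bool) (v : ι × Bool × Z → ℂ) (s : ι × Bool × Z) :
    (oracle x *ᵥ v) s = v (s.1, fl (x s.1) s.2) := by
  unfold Matrix.mulVec dotProduct
  rw [Finset.sum_eq_single (s.1, fl (x s.1) s.2)]
  · simp [oracle, fl]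
  · intro t _ ht
    show (if s = (t.1, xor t.2.1 (x t.1), t.2.2) then (1 : ℂ) else 0) * v t = 0
    rw [if_neg, zero_mul]
    intro h
    apply ht
    rw [h]
    simp [fl]
  · intro h
    exact absurd (Finset.mem_univ _) h

theorem ip_oracle (x y : ι → Bool) (φ ψ : ι × Bool × Z → ℂ) :
    ip (oracle x *ᵥ φ) (oracle y *ᵥ ψ) =
      ∑ i, ∑ t : Bool × Z, star (φ (i, t)) * ψ (i, fl (xor (x i) (y i)) t) := by
  unfold ip
  rw [Fintype.sum_prod_type]
  apply Finset.sum_congr rfl
  intro i _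
  rw [← Equiv.sum_comp (fl (x i))]
  apply Finset.sum_congr rfl
  intro t _
  rw [oracle_apply, oracle_apply]
  have h1 : fl (x i) (fl (x i) t) = t := (fl (x i)).left_inv t
  have h2 : fl (y i) (fl (x i) t) = fl (xor (x i) (y i)) t := by
    simp [fl]
  show star (φ (i, fl (x i) (fl (x i) t))) * ψ (i, fl (y i) (fl (x i) t)) = _
  rw [h1, h2]

theorem ip_oracle_diff (x y : ι → Bool) (i : ι) (hxy : ∀ j, j ≠ i → x j = y j)
    (φ ψ : ι × Bool × Z → ℂ) :
    ‖ip φ ψ - ip (oracle x *ᵥ φ) (oracle y *ᵥ ψ)‖ ≤ 2 * (Real.sqrt (qw φ i) * Real.sqrt (qw ψ i)) := by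
  have h1 : ip φ ψ = ∑ j, ∑ t : Bool × Z, star (φ (j, t)) * ψ (j, t) := by
    unfold ip
    rw [Fintype.sum_prod_type]
  rw [h1, ip_oracle, ← Finset.sum_sub_distrib, Finset.sum_eq_single i]
  · refine (norm_sub_le _ _).trans ?_
    have a1 := csb (Finset.univ : Finset (Bool × Z)) (fun t => φ (i, t)) (fun t => ψ (i, t))
    have a2 := csb (Finset.univ : Finset (Bool × Z)) (fun t => φ (i, t))
      (fun t => ψ (i, fl (xor (x i) (y i)) t))
    have a3 : ∑ t : Bool × Z, ‖ψ (i, fl (xor (x i) (y i)) t)‖ ^ 2 = qw ψ i :=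
      Equiv.sum_comp (fl (xor (x i) (y i))) (fun t => ‖ψ (i, t)‖ ^ 2)
    rw [a3] at a2
    have a4 : ∑ t : Bool × Z, ‖φ (i, t)‖ ^ 2 = qw φ i := rfl
    have a5 : ∑ t : Bool × Z, ‖ψ (i, t)‖ ^ 2 = qw ψ i := rfl
    rw [a4, a5] at a1
    rw [a4] at a2
    linarith
  · intro j _ hj
    have : xor (x j) (y j) = false := by
      rw [hxy j hj]
      simp
    rw [this, sub_eq_zero]
    apply Finset.sum_congr rfl
    intro t _
    simp [fl]
  · intro h
    exact absurd (Finset.mem_univ _) h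

end orc

variable {ι : Type} [Fintype ι] [DecidableEq ι]

theorem norm_state (A : QAlg ι) (x : ι → Bool) (q : ℕ) :
    ∑ s, ‖A.state x q s‖ ^ 2 = 1 := by
  have key : ip (A.state x q) (A.state x q) = 1 := by
    induction q with
    | zero =>
      show ip (A.U 0 *ᵥ Pi.single A.init 1) (A.U 0 *ᵥ Pi.single A.init 1) = 1
      rw [ip_unitary (A.U_unitary 0)]
      unfold ip
      rw [Finset.sum_eq_single A.init]
      · simp
      · intro s _ hs
        rw [Pi.single_eq_of_ne hs]
        simp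
      · intro h
        exact absurd (Finset.mem_univ _) h
    | succ q ih =>
      show ip (A.U (q + 1) *ᵥ (oracle x *ᵥ A.state x q)) (A.U (q + 1) *ᵥ (oracle x *ᵥ A.state x q)) = 1
      rw [ip_unitary (A.U_unitary (q + 1)), ip_oracle, ← ih]
      unfold ip
      rw [Fintype.sum_prod_type]
      simp [fl]
  rw [ip_self] at key
  exact_mod_cast key

/-- overlap of two states with different outcomes -/
theorem overlap (A : QAlg ι) (q : ℕ) (x y : ι → Bool) (hx : 2 / 3 ≤ A.acceptProb q x)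
    (hy : A.acceptProb q y ≤ 1 / 3) : ‖ip (A.state x q) (A.state y q)‖ ≤ 19 / 20 := by
  classical
  have hnx := norm_state A x q
  have hny := norm_state A y q
  set p := A.acceptProb q x with hp
  set r := A.acceptProb q y with hr
  have e1 : ∑ s ∈ A.acc, ‖A.state x q s‖ ^ 2 = p := rfl
  have e2 : ∑ s ∈ A.acc, ‖A.state y q s‖ ^ 2 = r := rfl
  have e3 : ∑ s ∈ A.accᶜ, ‖A.state x q s‖ ^ 2 = 1 - p := by
    rw [← hnx, ← e1, ← Finset.sum_add_sum_compl A.acc]
    ring
  have e4 : ∑ s ∈ A.accᶜ, ‖A.state y q s‖ ^ 2 = 1 - r := by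
    rw [← hny, ← e2, ← Finset.sum_add_sum_compl A.acc]
    ring
  have hr0 : 0 ≤ r := by
    rw [← e2]
    exact Finset.sum_nonneg fun _ _ => sq_nonneg _
  have hp1 : 0 ≤ 1 - p := by
    rw [← e3]
    exact Finset.sum_nonneg fun _ _ => sq_nonneg _
  have b1 := csb A.acc (A.state x q) (A.state y q)
  have b2 := csb A.accᶜ (A.state x q) (A.state y q)
  rw [e1, e2] at b1
  rw [e3, e4] at b2
  have hsplit : ip (A.state x q) (A.state y q) =
      (∑ s ∈ A.acc, star (A.state x q s) * A.state y q s) +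
        ∑ s ∈ A.accᶜ, star (A.state x q s) * A.state y q s := by
    unfold ip
    rw [Finset.sum_add_sum_compl]
  rw [hsplit]
  refine (norm_add_le _ _).trans ?_
  -- weighted AM-GM: √p√r + √(1-p)√(1-r) ≤ 19/20
  have c1 : Real.sqrt p * Real.sqrt r ≤ (1 / 2) * ((7 / 10) * p + (10 / 7) * r) := by
    have s1 := Real.sq_sqrt (show 0 ≤ p by linarith)
    have s2 := Real.sq_sqrt hr0
    nlinarith [sq_nonneg (7 * Real.sqrt p - 10 * Real.sqrt r)]
  have c2 : Real.sqrt (1 - p) * Real.sqrt (1 - r) ≤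
      (1 / 2) * ((10 / 7) * (1 - p) + (7 / 10) * (1 - r)) := by
    have s1 := Real.sq_sqrt hp1
    have s2 := Real.sq_sqrt (show 0 ≤ 1 - r by linarith)
    nlinarith [sq_nonneg (10 * Real.sqrt (1 - p) - 7 * Real.sqrt (1 - r))]
  linarith

theorem ip_symm {S : Type} [Fintype S] (φ ψ : S → ℂ) : ‖ip ψ φ‖ = ‖ip φ ψ‖ := by
  have : ip ψ φ = star (ip φ ψ) := by
    unfold ip
    rw [star_sum]
    apply Finset.sum_congr rfl
    intro s _
    rw [star_mul, star_star]
  rw [this, norm_star]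

omit [Fintype ι] in
theorem flip_flip (x : ι → Bool) (i : ι) : flipS (flipS x {i}) {i} = x := by
  funext j
  unfold flipS
  by_cases h : j ∈ ({i} : Finset ι)
  · simp [h]
  · simp [h]

/-- flipping one bit, as an equivalence -/
def flE (i : ι) : (ι → Bool) ≃ (ι → Bool) where
  toFun x := flipS x {i}
  invFun x := flipS x {i}
  left_inv x := flip_flip x i
  right_inv x := flip_flip x i

/-- progress measure -/
noncomputable def W (A : QAlg ι) (f : (ι → Bool) → Bool) (v : (ι → Bool) → ℝ) (t : ℕ) : ℝ :=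
  ∑ x, ∑ i, if f x ≠ f (flipS x {i}) then
    v x * v (flipS x {i}) * (ip (A.state x t) (A.state (flipS x {i}) t)).re else 0

theorem W_zero (A : QAlg ι) (f : (ι → Bool) → Bool) (v : (ι → Bool) → ℝ) :
    W A f v 0 = ∑ x, ∑ i, if f x ≠ f (flipS x {i}) then v x * v (flipS x {i}) else 0 := by
  unfold W
  apply Finset.sum_congr rfl
  intro x _
  apply Finset.sum_congr rfl
  intro i _
  have h1 : ip (A.state x 0) (A.state (flipS x {i}) 0) = 1 := by
    have h2 : A.state (flipS x {i}) 0 = A.state x 0 := rfl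
    rw [h2, ip_self, norm_state]
    simp
  rw [h1]
  simp

theorem W_last (A : QAlg ι) (f : (ι → Bool) → Bool) (v : (ι → Bool) → ℝ) (hv : ∀ x, 0 ≤ v x)
    (q : ℕ) (hA : ∀ x, (f x = true → 2 / 3 ≤ A.acceptProb q x) ∧
      (f x = false → A.acceptProb q x ≤ 1 / 3)) :
    W A f v q ≤ (19 / 20) *
      ∑ x, ∑ i, if f x ≠ f (flipS x {i}) then v x * v (flipS x {i}) else 0 := by
  unfold W
  rw [Finset.mul_sum]
  apply Finset.sum_le_sum
  intro x _
  rw [Finset.mul_sum]
  apply Finset.sum_le_sum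
  intro i _
  split_ifs with hf
  · have hn : ‖ip (A.state x q) (A.state (flipS x {i}) q)‖ ≤ 19 / 20 := by
      cases hx : f x with
      | true =>
        have hy : f (flipS x {i}) = false := by
          cases hy : f (flipS x {i}) with
          | true => exact absurd (hx.trans hy.symm) hf
          | false => rfl
        exact overlap A q x _ ((hA x).1 hx) ((hA _).2 hy)
      | false =>
        have hy : f (flipS x {i}) = true := by
          cases hy : f (flipS x {i}) with
          | true => rfl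
          | false => exact absurd (hx.trans hy.symm) hf
        rw [← ip_symm]
        exact overlap A q _ x ((hA _).1 hy) ((hA x).2 hx)
    have hre := (Complex.re_le_norm (ip (A.state x q) (A.state (flipS x {i}) q))).trans hn
    have hvv : 0 ≤ v x * v (flipS x {i}) := mul_nonneg (hv _) (hv _)
    nlinarith
  · simp

theorem W_step (A : QAlg ι) (f : (ι → Bool) → Bool) (v : (ι → Bool) → ℝ) (hv : ∀ x, 0 ≤ v x)
    (t : ℕ) : W A f v t - W A f v (t + 1) ≤ 2 * ∑ x, v x ^ 2 := by
  have h1 : W A f v t - W A f v (t + 1) ≤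
      ∑ x, ∑ i, (v x ^ 2 * qw (A.state x t) i +
        v (flipS x {i}) ^ 2 * qw (A.state (flipS x {i}) t) i) := by
    unfold W
    rw [← Finset.sum_sub_distrib]
    apply Finset.sum_le_sum
    intro x _
    rw [← Finset.sum_sub_distrib]
    apply Finset.sum_le_sum
    intro i _
    have hnn : 0 ≤ v x ^ 2 * qw (A.state x t) i +
        v (flipS x {i}) ^ 2 * qw (A.state (flipS x {i}) t) i :=
      add_nonneg (mul_nonneg (sq_nonneg _) (qw_nonneg _ _))
        (mul_nonneg (sq_nonneg _) (qw_nonneg _ _))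
    split_ifs with hf
    · have e1 : ip (A.state x (t + 1)) (A.state (flipS x {i}) (t + 1)) =
          ip (oracle x *ᵥ A.state x t) (oracle (flipS x {i}) *ᵥ A.state (flipS x {i}) t) :=
        ip_unitary (A.U_unitary (t + 1)) _ _
      have e2 := ip_oracle_diff x (flipS x {i}) i (fun j hj => by
        unfold flipS
        rw [if_neg (by simpa using hj)]) (A.state x t) (A.state (flipS x {i}) t)
      have e3 : (ip (A.state x t) (A.state (flipS x {i}) t)).re -
          (ip (A.state x (t + 1)) (A.state (flipS x {i}) (t + 1))).re ≤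
          2 * (Real.sqrt (qw (A.state x t) i) * Real.sqrt (qw (A.state (flipS x {i}) t) i)) := by
        rw [e1, ← Complex.sub_re]
        exact (Complex.re_le_norm _).trans e2
      have hvv : 0 ≤ v x * v (flipS x {i}) := mul_nonneg (hv _) (hv _)
      have e4 := mul_le_mul_of_nonneg_left e3 hvv
      have s1 := Real.sq_sqrt (qw_nonneg (A.state x t) i)
      have s2 := Real.sq_sqrt (qw_nonneg (A.state (flipS x {i}) t) i)
      have e5 : v x * v (flipS x {i}) *
          (2 * (Real.sqrt (qw (A.state x t) i) * Real.sqrt (qw (A.state (flipS x {i}) t) i))) ≤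
          v x ^ 2 * qw (A.state x t) i + v (flipS x {i}) ^ 2 * qw (A.state (flipS x {i}) t) i := by
        have e6 := sq_nonneg (v x * Real.sqrt (qw (A.state x t) i) -
          v (flipS x {i}) * Real.sqrt (qw (A.state (flipS x {i}) t) i))
        have e7 : (v x * Real.sqrt (qw (A.state x t) i) -
          v (flipS x {i}) * Real.sqrt (qw (A.state (flipS x {i}) t) i)) ^ 2 =
          v x ^ 2 * (Real.sqrt (qw (A.state x t) i)) ^ 2 +
          v (flipS x {i}) ^ 2 * (Real.sqrt (qw (A.state (flipS x {i}) t) i)) ^ 2 -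
          v x * v (flipS x {i}) *
          (2 * (Real.sqrt (qw (A.state x t) i) * Real.sqrt (qw (A.state (flipS x {i}) t) i))) := by
          ring
        rw [e7, s1, s2] at e6
        linarith
      linarith
    · simpa using hnn
  have hsum : ∀ x, ∑ i, qw (A.state x t) i = 1 := fun x => by
    rw [sum_qw, norm_state]
  have h2 : ∑ x, ∑ i, (v x ^ 2 * qw (A.state x t) i +
      v (flipS x {i}) ^ 2 * qw (A.state (flipS x {i}) t) i) = 2 * ∑ x, v x ^ 2 := by
    simp_rw [Finset.sum_add_distrib]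
    have a1 : ∑ x, ∑ i, v x ^ 2 * qw (A.state x t) i = ∑ x, v x ^ 2 := by
      apply Finset.sum_congr rfl
      intro x _
      rw [← Finset.mul_sum, hsum, mul_one]
    have a2 : ∑ x, ∑ i, v (flipS x {i}) ^ 2 * qw (A.state (flipS x {i}) t) i =
        ∑ x, ∑ i, v x ^ 2 * qw (A.state x t) i := by
      rw [Finset.sum_comm]
      conv_rhs => rw [Finset.sum_comm]
      apply Finset.sum_congr rfl
      intro i _
      exact Equiv.sum_comp (flE i) (fun x => v x ^ 2 * qw (A.state x t) i)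
    rw [a2, a1]
    ring
  linarith

theorem W_bound (A : QAlg ι) (f : (ι → Bool) → Bool) (v : (ι → Bool) → ℝ) (hv : ∀ x, 0 ≤ v x)
    (t : ℕ) : W A f v 0 - W A f v t ≤ 2 * t * ∑ x, v x ^ 2 := by
  induction t with
  | zero => simp
  | succ t ih =>
    have h := W_step A f v hv t
    push_cast
    linarith

end Adv

open Adv in
/-- UADV: the adversary argument -/
theorem adv {ι : Type} [Fintype ι] [DecidableEq ι] {f : (ι → Bool) → Bool} {q : ℕ}
    (h : QuantComputes q f) {L : ℝ} (hL : 0 ≤ L) {v : (ι → Bool) → ℝ} (hv : ∀ x, 0 ≤ v x)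
    (hv0 : 0 < ∑ x, v x ^ 2) (hvL : L * ∑ x, v x ^ 2 ≤
        ∑ x, ∑ i, if f x ≠ f (flipS x {i}) then v x * v (flipS x {i}) else 0) :
    L ≤ 100 * q := by
  obtain ⟨A, hA⟩ := h
  have h1 := W_bound A f v hv q
  have h2 := W_last A f v hv q hA
  rw [W_zero] at h1
  have h3 : L * ∑ x, v x ^ 2 ≤ (40 * q) * ∑ x, v x ^ 2 := by linarith
  have h4 : L ≤ 40 * q := le_of_mul_le_mul_right h3 hv0
  have hq : (0 : ℝ) ≤ q := by positivity
  linarith

end P362
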