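import Vale.Agent.P362.Mle

/-!
# P362: the known upper bound `α_tot ≤ 4`, definitions
-/

namespace P362

open scoped BigOperators

variable {ι : Type} [Fintype ι] [DecidableEq ι]

/-- flip the bits in `B` -/
def flipS (x : ι → Bool) (B : Finset ι) : ι → Bool := fun i => if i ∈ B then !(x i) else x i

/-- `b` pairwise disjoint sensitive blocks at `z` -/
def SensBlocks (f : (ι → Bool) → Bool) (z : ι → Bool) (b : ℕ) : Prop :=
  ∃ B : Fin b → Finset ι, (∀ i j, i ≠ j → Disjoint (B i) (B j)) ∧
    ∀ i, f (flipS z (B i)) ≠ f z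

/-- the (unnormalised) Fourier coefficient -/
def fhat (f : (ι → Bool) → Bool) (T : Finset ι) : ℤ :=
  ∑ x : ι → Bool, (if f x then 1 else 0) * ∏ i ∈ T, sg (x i)

end P362
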