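import Vale.Agent.P362.UHuang
import Vale.Agent.P362.UAdv

/-!
# P362, modules HUANG and UADV: `deg(f) ≤ C q²` for a `q`-query quantum algorithm
(`huang` is in `UHuang.lean`, `adv` in `UAdv.lean`)
-/

namespace P362

open scoped BigOperators

theorem deg_le {ι : Type} [Fintype ι] [DecidableEq ι] {f : (ι → Bool) → Bool} {q : ℕ}
    (h : QuantComputes q f) {T : Finset ι} (hT : fhat f T ≠ 0) : T.card ≤ 10000 * q ^ 2 := by
  obtain ⟨v, hv, hv0, hvL⟩ := huang hT
  have h1 := adv h (Real.sqrt_nonneg _) hv hv0 hvL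
  have h2 : (T.card : ℝ) ≤ (100 * q) ^ 2 := by
    rw [← Real.sqrt_le_left (by positivity)]
    exact h1
  have h3 : (T.card : ℝ) ≤ ((10000 * q ^ 2 : ℕ) : ℝ) := by
    push_cast
    linarith
  exact_mod_cast h3

end P362
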