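import Vale.Agent.P362.UDefs

/-!
# P362, module HUANG: Huang's sensitivity argument

Signed adjacency operator `A` of the cube in the directions `T`, `A² = |T|`.  With
`S = {x | (-1)^{f x} χ_T(x) = ε}` of size `> 2^{N-1}` there is a nonzero `w` supported on `S` with
`A w = √|T| w`; all the edges inside `S` are sensitive, and `v = |w|` works.
-/

namespace P362

open scoped BigOperators

namespace Huang

variable {ι : Type} [Fintype ι] [DecidableEq ι]

/-- flip one bit -/
theorem flip_apply (x : ι → Bool) (i j : ι) :
    flipS x {i} j = if j = i then !(x j) else x j := by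
  unfold flipS; simp

theorem flip_flip (x : ι → Bool) (i : ι) : flipS (flipS x {i}) {i} = x := by
  funext j
  rw [flip_apply, flip_apply]
  by_cases h : j = i <;> simp [h]

theorem flip_comm (x : ι → Bool) (i j : ι) :
    flipS (flipS x {i}) {j} = flipS (flipS x {j}) {i} := by
  funext k
  simp only [flip_apply]
  by_cases h : k = i <;> by_cases h' : k = j
  · rw [if_pos h, if_pos h', if_pos h, if_pos h']
  · rw [if_pos h, if_neg h', if_neg h', if_pos h]
  · rw [if_neg h, if_pos h', if_neg h]
  · rw [if_neg h, if_neg h', if_neg h]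

/-- real sign of a bit -/
noncomputable def rs (b : Bool) : ℝ := if b then -1 else 1

theorem rs_not (b : Bool) : rs (!b) = -rs b := by cases b <;> simp [rs]

theorem rs_sq (b : Bool) : rs b * rs b = 1 := by cases b <;> simp [rs]

theorem rs_cast (b : Bool) : ((sg b : ℤ) : ℝ) = rs b := by cases b <;> simp [rs, sg]

/-- the product of the signs over a set of coordinates -/
noncomputable def pr (U : Finset ι) (x : ι → Bool) : ℝ := ∏ j ∈ U, rs (x j)

theorem pr_sq (U : Finset ι) (x : ι → Bool) : pr U x * pr U x = 1 := by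
  unfold pr
  rw [← Finset.prod_mul_distrib]
  exact Finset.prod_eq_one fun j _ => rs_sq _

theorem pr_flip_notMem {U : Finset ι} {i : ι} (hi : i ∉ U) (x : ι → Bool) :
    pr U (flipS x {i}) = pr U x := by
  unfold pr
  refine Finset.prod_congr rfl fun j hj => ?_
  rw [flip_apply, if_neg]
  rintro rfl
  exact hi hj

theorem pr_flip_mem {U : Finset ι} {i : ι} (hi : i ∈ U) (x : ι → Bool) :
    pr U (flipS x {i}) = -pr U x := by
  unfold pr
  rw [← Finset.mul_prod_erase U _ hi, ← Finset.mul_prod_erase U _ hi]
  rw [flip_apply, if_pos rfl, rs_not, neg_mul]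
  congr 2
  refine Finset.prod_congr rfl fun j hj => ?_
  rw [flip_apply, if_neg (Finset.ne_of_mem_erase hj)]

/-- an enumeration of the coordinates -/
noncomputable def en (ι : Type) [Fintype ι] : ι → ℕ := fun i => (Fintype.equivFin ι i : ℕ)

theorem en_inj {i j : ι} (h : en ι i = en ι j) : i = j := by
  unfold en at h
  exact (Fintype.equivFin ι).injective (Fin.ext h)

/-- coordinates before `i` -/
noncomputable def bef (T : Finset ι) (i : ι) : Finset ι := T.filter (fun j => en ι j < en ι i)

theorem notMem_bef (T : Finset ι) (i : ι) : i ∉ bef T i := by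
  unfold bef; simp

/-- the signed adjacency operator -/
noncomputable def A (T : Finset ι) (w : (ι → Bool) → ℝ) : (ι → Bool) → ℝ :=
  fun x => ∑ i ∈ T, pr (bef T i) x * w (flipS x {i})

theorem A_cross (T : Finset ι) (w : (ι → Bool) → ℝ) (x : ι → Bool) {i j : ι} (hi : i ∈ T)
    (hj : j ∈ T) (hij : i ≠ j) :
    pr (bef T i) x * (pr (bef T j) (flipS x {i}) * w (flipS (flipS x {i}) {j})) +
    pr (bef T j) x * (pr (bef T i) (flipS x {j}) * w (flipS (flipS x {j}) {i})) = 0 := by
  have key : ∀ i j : ι, i ∈ T → j ∈ T → en ι i < en ι j →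
      pr (bef T i) x * (pr (bef T j) (flipS x {i}) * w (flipS (flipS x {i}) {j})) +
      pr (bef T j) x * (pr (bef T i) (flipS x {j}) * w (flipS (flipS x {j}) {i})) = 0 := by
    intro i j hi hj hlt
    have h1 : i ∈ bef T j := Finset.mem_filter.2 ⟨hi, hlt⟩
    have h2 : j ∉ bef T i := fun h => by
      have := (Finset.mem_filter.1 h).2
      omega
    rw [pr_flip_mem h1, pr_flip_notMem h2, flip_comm x i j]
    ring
  rcases lt_trichotomy (en ι i) (en ι j) with h | h | h
  · exact key i j hi hj h
  · exact absurd (en_inj h) hij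
  · rw [add_comm]
    exact key j i hj hi h

theorem A_A (T : Finset ι) (w : (ι → Bool) → ℝ) (x : ι → Bool) :
    A T (A T w) x = T.card * w x := by
  unfold A
  simp_rw [Finset.mul_sum]
  -- the double sum
  set F : ι → ι → ℝ := fun i j =>
    pr (bef T i) x * (pr (bef T j) (flipS x {i}) * w (flipS (flipS x {i}) {j})) with hF
  have hdiag : ∀ i ∈ T, F i i = w x := by
    intro i _
    simp only [hF]
    rw [pr_flip_notMem (notMem_bef T i), flip_flip, ← mul_assoc, pr_sq, one_mul]
  have h1 : ∑ i ∈ T, ∑ j ∈ T, F i j = ∑ i ∈ T, ∑ j ∈ T, (if i = j then w x else 0) := by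
    have h2 : ∑ i ∈ T, ∑ j ∈ T, F i j + ∑ i ∈ T, ∑ j ∈ T, F i j =
        ∑ i ∈ T, ∑ j ∈ T, (if i = j then w x else 0) +
          ∑ i ∈ T, ∑ j ∈ T, (if i = j then w x else 0) := by
      nth_rewrite 2 [Finset.sum_comm]
      rw [← Finset.sum_add_distrib, ← Finset.sum_add_distrib]
      refine Finset.sum_congr rfl fun i hi => ?_
      rw [← Finset.sum_add_distrib, ← Finset.sum_add_distrib]
      refine Finset.sum_congr rfl fun j hj => ?_
      by_cases hij : i = j
      · subst hij
        rw [hdiag i hi, if_pos rfl]
      · rw [if_neg hij, add_zero]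
        exact A_cross T w x hi hj hij
    linarith
  rw [h1]
  rw [Finset.sum_congr rfl (fun i hi => Finset.sum_ite_eq T i (fun _ => w x))]
  rw [Finset.sum_congr rfl (fun i hi => if_pos hi)]
  simp

/-- `A` as a linear map -/
noncomputable def AL (T : Finset ι) : ((ι → Bool) → ℝ) →ₗ[ℝ] ((ι → Bool) → ℝ) where
  toFun := A T
  map_add' u w := by
    funext x
    simp only [A, Pi.add_apply, mul_add, Finset.sum_add_distrib]
  map_smul' c w := by
    funext x
    simp only [A, Pi.smul_apply, smul_eq_mul, RingHom.id_apply, Finset.mul_sum]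
    refine Finset.sum_congr rfl fun i _ => ?_
    ring

/-- eigenspace -/
noncomputable def K (T : Finset ι) (s : ℝ) : Submodule ℝ ((ι → Bool) → ℝ) :=
  LinearMap.ker (AL T - s • LinearMap.id)

theorem mem_K {T : Finset ι} {s : ℝ} {w : (ι → Bool) → ℝ} :
    w ∈ K T s ↔ ∀ x, A T w x = s * w x := by
  unfold K
  rw [LinearMap.mem_ker, LinearMap.sub_apply, LinearMap.smul_apply, LinearMap.id_apply,
    sub_eq_zero]
  constructor
  · intro h x
    exact congrFun h x
  · intro h
    funext x
    exact h x

/-- multiplication by the character of `T` -/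
noncomputable def DL (T : Finset ι) : ((ι → Bool) → ℝ) →ₗ[ℝ] ((ι → Bool) → ℝ) where
  toFun w := fun x => pr T x * w x
  map_add' u w := by
    funext x
    simp only [Pi.add_apply, mul_add]
  map_smul' c w := by
    funext x
    simp only [Pi.smul_apply, smul_eq_mul, RingHom.id_apply]
    ring

theorem DL_DL (T : Finset ι) (w : (ι → Bool) → ℝ) : DL T (DL T w) = w := by
  funext x
  change pr T x * (pr T x * w x) = w x
  rw [← mul_assoc, pr_sq, one_mul]

theorem A_DL (T : Finset ι) (w : (ι → Bool) → ℝ) (x : ι → Bool) :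
    A T (DL T w) x = -(pr T x * A T w x) := by
  unfold A
  rw [Finset.mul_sum, ← Finset.sum_neg_distrib]
  refine Finset.sum_congr rfl fun i hi => ?_
  change pr (bef T i) x * (pr T (flipS x {i}) * w (flipS x {i})) = _
  rw [pr_flip_mem hi]
  ring

theorem DL_mem {T : Finset ι} {s : ℝ} {w : (ι → Bool) → ℝ} (h : w ∈ K T s) :
    DL T w ∈ K T (-s) := by
  rw [mem_K] at h ⊢
  intro x
  rw [A_DL, h x]
  change -(pr T x * (s * w x)) = -s * (pr T x * w x)
  ring

theorem finrank_K_le (T : Finset ι) (s : ℝ) :
    Module.finrank ℝ (K T (-s)) ≤ Module.finrank ℝ (K T s) := by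
  have hmem : ∀ w ∈ K T (-s), DL T w ∈ K T s := by
    intro w hw
    have := DL_mem hw
    rwa [neg_neg] at this
  apply LinearMap.finrank_le_finrank_of_injective (f := (DL T).restrict hmem)
  intro u w h
  apply Subtype.ext
  have h' : DL T u.1 = DL T w.1 := congrArg Subtype.val h
  rw [← DL_DL T u.1, h', DL_DL]

theorem finrank_K (T : Finset ι) (hT : 1 ≤ T.card) :
    2 ^ Fintype.card ι ≤ 2 * Module.finrank ℝ (K T (Real.sqrt T.card)) := by
  set s := Real.sqrt T.card with hs
  have hspos : 0 < s := by
    rw [hs]; apply Real.sqrt_pos.2; exact_mod_cast hT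
  have hss : s * s = T.card := Real.mul_self_sqrt (Nat.cast_nonneg _)
  have htop : K T s ⊔ K T (-s) = ⊤ := by
    rw [eq_top_iff]
    intro u _
    rw [Submodule.mem_sup]
    refine ⟨fun x => (2 * s)⁻¹ * (s * u x + A T u x), ?_,
      fun x => (2 * s)⁻¹ * (s * u x - A T u x), ?_, ?_⟩
    · rw [mem_K]
      intro x
      have e : (fun x => (2 * s)⁻¹ * (s * u x + A T u x)) =
          (2 * s)⁻¹ • (s • u + AL T u) := by
        funext x; rfl
      have h1 : A T (fun x => (2 * s)⁻¹ * (s * u x + A T u x)) x =
          (2 * s)⁻¹ * (s * A T u x + A T (A T u) x) := by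
        rw [e]
        change (AL T ((2 * s)⁻¹ • (s • u + AL T u))) x = _
        rw [map_smul, map_add, map_smul]
        rfl
      rw [h1, A_A, ← hss]
      ring
    · rw [mem_K]
      intro x
      have e : (fun x => (2 * s)⁻¹ * (s * u x - A T u x)) =
          (2 * s)⁻¹ • (s • u - AL T u) := by
        funext x; rfl
      have h1 : A T (fun x => (2 * s)⁻¹ * (s * u x - A T u x)) x =
          (2 * s)⁻¹ * (s * A T u x - A T (A T u) x) := by
        rw [e]
        change (AL T ((2 * s)⁻¹ • (s • u - AL T u))) x = _
        rw [map_smul, map_sub, map_smul]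
        rfl
      rw [h1, A_A, ← hss]
      ring
    · funext x
      change (2 * s)⁻¹ * (s * u x + A T u x) + (2 * s)⁻¹ * (s * u x - A T u x) = u x
      field_simp
      ring
  have h1 := Submodule.finrank_sup_add_finrank_inf_eq (K T s) (K T (-s))
  rw [htop, finrank_top] at h1
  have h2 : Module.finrank ℝ ((ι → Bool) → ℝ) = 2 ^ Fintype.card ι := by
    rw [Module.finrank_fintype_fun_eq_card]
    simp
  have h3 := finrank_K_le T s
  omega

/-- a nonzero eigenfunction supported on a big set -/
theorem exists_eigen (T : Finset ι) (hT : 1 ≤ T.card) (S : Finset (ι → Bool))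
    (hS : 2 ^ Fintype.card ι < 2 * S.card) :
    ∃ w : (ι → Bool) → ℝ, w ≠ 0 ∧ (∀ x ∉ S, w x = 0) ∧
      ∀ x, A T w x = Real.sqrt T.card * w x := by
  set s := Real.sqrt T.card with hs
  let P : K T s →ₗ[ℝ] ({x // x ∉ S} → ℝ) :=
    { toFun := fun w x => w.1 x.1
      map_add' := fun u w => rfl
      map_smul' := fun c w => rfl }
  by_contra hcon
  push Not at hcon
  have hinj : Function.Injective P := by
    rw [← LinearMap.ker_eq_bot, LinearMap.ker_eq_bot']
    intro w hw
    by_contra hne
    have hw1 : w.1 ≠ 0 := fun h => hne (Subtype.ext h)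
    obtain ⟨x, hx⟩ := hcon w.1 hw1 (fun x hx => congrFun hw ⟨x, hx⟩)
    exact hx (mem_K.1 w.2 x)
  have h1 := LinearMap.finrank_le_finrank_of_injective hinj
  rw [Module.finrank_fintype_fun_eq_card] at h1
  have h2 : Fintype.card {x // x ∉ S} = 2 ^ Fintype.card ι - S.card := by
    rw [Fintype.card_subtype_compl]
    simp
  have h3 := finrank_K T hT
  rw [← hs] at h3
  rw [h2] at h1
  have h4 : S.card ≤ 2 ^ Fintype.card ι := by
    have := Finset.card_le_univ S
    simpa using this
  omega

end Huang

open Huang

/-- HUANG: if `f̂(T) ≠ 0` there are nonnegative weights `v`, supported on a subcube in the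
directions `T`, with large weight on the sensitive edges. -/
theorem huang {ι : Type} [Fintype ι] [DecidableEq ι] {f : (ι → Bool) → Bool} {T : Finset ι}
    (hT : fhat f T ≠ 0) :
    ∃ v : (ι → Bool) → ℝ, (∀ x, 0 ≤ v x) ∧ 0 < ∑ x, v x ^ 2 ∧
      Real.sqrt T.card * ∑ x, v x ^ 2 ≤
        ∑ x, ∑ i, if f x ≠ f (flipS x {i}) then v x * v (flipS x {i}) else 0 := by
  by_cases hcard : T.card = 0
  · refine ⟨fun _ => 1, fun _ => zero_le_one, ?_, ?_⟩
    · simp
    · rw [hcard]
      simp only [Nat.cast_zero, Real.sqrt_zero, zero_mul]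
      refine Finset.sum_nonneg fun x _ => Finset.sum_nonneg fun i _ => ?_
      split_ifs <;> norm_num
  have hT1 : 1 ≤ T.card := Nat.one_le_iff_ne_zero.2 hcard
  -- the two halves
  set g : (ι → Bool) → ℝ := fun x => rs (f x) * pr T x with hg
  have hg1 : ∀ x, g x = 1 ∨ g x = -1 := by
    intro x
    have : g x * g x = 1 := by
      simp only [hg]
      calc rs (f x) * pr T x * (rs (f x) * pr T x) = (rs (f x) * rs (f x)) * (pr T x * pr T x) := by
            ring
        _ = 1 := by rw [rs_sq, pr_sq, one_mul]
    exact mul_self_eq_one_iff.1 this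
  have hsumpr : ∑ x : ι → Bool, pr T x = 0 := by
    obtain ⟨i, hi⟩ := Finset.card_pos.1 (by omega : 0 < T.card)
    have h1 : ∑ x : ι → Bool, pr T x = ∑ x : ι → Bool, pr T (flipS x {i}) := by
      refine (Fintype.sum_bijective (fun x => flipS x {i}) ?_ _ _ fun x => rfl).symm
      exact Function.Involutive.bijective fun x => flip_flip x i
    have h2 : ∑ x : ι → Bool, pr T (flipS x {i}) = -∑ x : ι → Bool, pr T x := by
      rw [← Finset.sum_neg_distrib]
      exact Finset.sum_congr rfl fun x _ => pr_flip_mem hi x
    linarith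
  have hsumg : ∑ x : ι → Bool, g x = -2 * (fhat f T : ℝ) := by
    have h1 : ∀ x, g x = pr T x - 2 * ((if f x then 1 else 0) * pr T x) := by
      intro x
      simp only [hg]
      cases f x <;> simp [rs] <;> ring
    simp_rw [h1]
    rw [Finset.sum_sub_distrib, hsumpr, ← Finset.mul_sum]
    unfold fhat
    push_cast
    have : ∀ x : ι → Bool, ((if f x then (1 : ℝ) else 0) * pr T x) =
        ((if f x = true then (1 : ℝ) else 0) * ∏ i ∈ T, ((sg (x i) : ℤ) : ℝ)) := by
      intro x
      simp only [pr, rs_cast]
    simp_rw [this]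
    ring
  obtain ⟨ε, hε, hS⟩ : ∃ ε : ℝ, (ε = 1 ∨ ε = -1) ∧
      2 ^ Fintype.card ι < 2 * (Finset.univ.filter (fun x => g x = ε)).card := by
    have hcount : (∑ x : ι → Bool, g x) =
        ((Finset.univ.filter (fun x => g x = 1)).card : ℝ) -
          ((Finset.univ.filter (fun x => g x = -1)).card : ℝ) := by
      have h1 : ∀ x, g x = (if g x = 1 then (1 : ℝ) else 0) - (if g x = -1 then (1 : ℝ) else 0) := by
        intro x
        rcases hg1 x with h | h <;> rw [h] <;> norm_num
      rw [Finset.sum_congr rfl (fun x _ => h1 x), Finset.sum_sub_distrib, Finset.sum_boole,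
        Finset.sum_boole]
    have htot : (Finset.univ.filter (fun x => g x = 1)).card +
        (Finset.univ.filter (fun x => g x = -1)).card = 2 ^ Fintype.card ι := by
      have h1 : (Finset.univ.filter (fun x => g x = -1)) =
          (Finset.univ.filter (fun x => ¬ g x = 1)) := by
        ext x
        simp only [Finset.mem_filter, Finset.mem_univ, true_and]
        rcases hg1 x with h | h <;> rw [h] <;> norm_num
      rw [h1, Finset.card_filter_add_card_filter_not]
      simp
    have hne : (Finset.univ.filter (fun x => g x = 1)).card ≠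
        (Finset.univ.filter (fun x => g x = -1)).card := by
      intro h
      rw [hcount, h, sub_self] at hsumg
      have : (fhat f T : ℝ) = 0 := by linarith
      exact hT (by exact_mod_cast this)
    rcases lt_or_gt_of_ne hne with h | h
    · exact ⟨-1, Or.inr rfl, by omega⟩
    · exact ⟨1, Or.inl rfl, by omega⟩
  obtain ⟨w, hw0, hwS, hw⟩ := exists_eigen T hT1 _ hS
  refine ⟨fun x => |w x|, fun x => abs_nonneg _, ?_, ?_⟩
  · obtain ⟨x, hx⟩ := Function.ne_iff.1 hw0
    have h1 : 0 < |w x| ^ 2 := by
      have : w x ≠ 0 := hx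
      positivity
    exact lt_of_lt_of_le h1 (Finset.single_le_sum (f := fun x => |w x| ^ 2)
      (fun x _ => by positivity) (Finset.mem_univ x))
  · rw [Finset.mul_sum]
    refine Finset.sum_le_sum fun x _ => ?_
    have h1 : Real.sqrt T.card * |w x| ^ 2 = w x * A T w x := by
      rw [hw x, sq_abs]; ring
    rw [h1]
    unfold A
    rw [Finset.mul_sum]
    have h2 : ∀ i ∈ T, w x * (pr (bef T i) x * w (flipS x {i})) ≤
        if f x ≠ f (flipS x {i}) then |w x| * |w (flipS x {i})| else 0 := by
      intro i hi
      by_cases hsens : f x ≠ f (flipS x {i})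
      · rw [if_pos hsens]
        calc w x * (pr (bef T i) x * w (flipS x {i}))
            ≤ |w x * (pr (bef T i) x * w (flipS x {i}))| := le_abs_self _
          _ = |w x| * |w (flipS x {i})| := by
              rw [abs_mul, abs_mul]
              have : |pr (bef T i) x| = 1 := by
                have h := pr_sq (bef T i) x
                rcases mul_self_eq_one_iff.1 h with h | h <;> rw [h] <;> norm_num
              rw [this, one_mul]
      · rw [if_neg hsens]
        push Not at hsens
        -- one of the ends is not in `S`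
        have hgx : g (flipS x {i}) = -g x := by
          simp only [hg]
          rw [← hsens, pr_flip_mem hi]
          ring
        have : w x = 0 ∨ w (flipS x {i}) = 0 := by
          by_cases hx : g x = ε
          · right
            apply hwS
            rw [Finset.mem_filter, not_and]
            intro _
            rw [hgx, hx]
            rcases hε with h | h <;> rw [h] <;> norm_num
          · left
            apply hwS
            rw [Finset.mem_filter, not_and]
            exact fun _ => hx
        rcases this with h | h <;> rw [h] <;> simp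
    calc ∑ i ∈ T, w x * (pr (bef T i) x * w (flipS x {i}))
        ≤ ∑ i ∈ T, (if f x ≠ f (flipS x {i}) then |w x| * |w (flipS x {i})| else 0) :=
          Finset.sum_le_sum h2
      _ ≤ ∑ i, (if f x ≠ f (flipS x {i}) then |w x| * |w (flipS x {i})| else 0) := by
          refine Finset.sum_le_sum_of_subset_of_nonneg (Finset.subset_univ T) fun i _ _ => ?_
          split_ifs
          · positivity
          · exact le_refl _

end P362
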