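import Vale.Agent.P362.Model

/-!
# P362, section 7: the (nonnegative) adversary bound for the quantum query model
-/

namespace P362

open scoped BigOperators Matrix ComplexConjugate

namespace Up

set_option linter.unusedSectionVars false

variable {ι : Type} [Fintype ι] [DecidableEq ι]

/-- inner product -/
def ip {S : Type} [Fintype S] (u v : S → ℂ) : ℂ := ∑ s, conj (u s) * v s

theorem ip_self {S : Type} [Fintype S] (u : S → ℂ) : ip u u = ((∑ s, ‖u s‖ ^ 2 : ℝ) : ℂ) := by
  unfold ip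
  push_cast
  refine Finset.sum_congr rfl fun s _ => ?_
  rw [Complex.conj_mul']

theorem ip_unitary {S : Type} [Fintype S] [DecidableEq S] {U : Matrix S S ℂ}
    (hU : U ∈ Matrix.unitaryGroup S ℂ) (u v : S → ℂ) : ip (U *ᵥ u) (U *ᵥ v) = ip u v := by
  have e : ∀ a b : S → ℂ, ip a b = star a ⬝ᵥ b := fun a b => rfl
  rw [e, e, Matrix.star_mulVec, ← Matrix.dotProduct_mulVec, Matrix.mulVec_mulVec]
  have : Uᴴ * U = 1 := by
    have := Matrix.mem_unitaryGroup_iff'.mp hU
    rwa [Matrix.star_eq_conjTranspose] at this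
  rw [this, Matrix.one_mulVec]

theorem oracle_mulVec {Z : Type} [Fintype Z] [DecidableEq Z] (x : ι → Bool)
    (v : ι × Bool × Z → ℂ) (i : ι) (b : Bool) (z : Z) :
    (oracle x *ᵥ v) (i, b, z) = v (i, xor b (x i), z) := by
  simp only [Matrix.mulVec, dotProduct, oracle]
  rw [Finset.sum_eq_single (i, xor b (x i), z)]
  · simp
  · rintro ⟨j, c, w⟩ _ hne
    rw [if_neg, zero_mul]
    intro h
    apply hne
    simp only [Prod.mk.injEq] at h ⊢
    obtain ⟨h1, h2, h3⟩ := h
    subst h1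
    subst h3
    refine ⟨rfl, ?_, rfl⟩
    rw [h2]
    simp
  · intro h
    exact absurd (Finset.mem_univ _) h

/-- block inner product -/
def ipi {Z : Type} [Fintype Z] (i : ι) (u v : ι × Bool × Z → ℂ) : ℂ :=
  ∑ b, ∑ z, conj (u (i, b, z)) * v (i, b, z)

/-- block norm squared -/
noncomputable def ns {Z : Type} [Fintype Z] (i : ι) (u : ι × Bool × Z → ℂ) : ℝ :=
  ∑ b, ∑ z, ‖u (i, b, z)‖ ^ 2

theorem ip_eq {Z : Type} [Fintype Z] (u v : ι × Bool × Z → ℂ) :
    ip u v = ∑ i, ipi i u v := by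
  unfold ip ipi
  rw [Fintype.sum_prod_type]
  refine Finset.sum_congr rfl fun i _ => ?_
  rw [Fintype.sum_prod_type]

theorem ns_sum {Z : Type} [Fintype Z] (u : ι × Bool × Z → ℂ) :
    ∑ i, ns i u = ∑ s, ‖u s‖ ^ 2 := by
  unfold ns
  rw [Fintype.sum_prod_type]
  refine Finset.sum_congr rfl fun i _ => ?_
  rw [Fintype.sum_prod_type]

theorem ns_nonneg {Z : Type} [Fintype Z] (i : ι) (u : ι × Bool × Z → ℂ) : 0 ≤ ns i u :=
  Finset.sum_nonneg fun _ _ => Finset.sum_nonneg fun _ _ => by positivity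

theorem norm_sum_le_sqrt {κ : Type} (s : Finset κ) (u v : κ → ℂ) :
    ‖∑ k ∈ s, conj (u k) * v k‖ ≤
      Real.sqrt (∑ k ∈ s, ‖u k‖ ^ 2) * Real.sqrt (∑ k ∈ s, ‖v k‖ ^ 2) := by
  calc ‖∑ k ∈ s, conj (u k) * v k‖ ≤ ∑ k ∈ s, ‖conj (u k) * v k‖ := norm_sum_le _ _
    _ = ∑ k ∈ s, ‖u k‖ * ‖v k‖ := by
        refine Finset.sum_congr rfl fun k _ => ?_
        rw [norm_mul, RCLike.norm_conj]
    _ ≤ _ := Real.sum_mul_le_sqrt_mul_sqrt _ _ _

theorem ipi_le {Z : Type} [Fintype Z] (i : ι) (u v : ι × Bool × Z → ℂ) :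
    ‖ipi i u v‖ ≤ Real.sqrt (ns i u) * Real.sqrt (ns i v) := by
  have h := norm_sum_le_sqrt (Finset.univ : Finset (Bool × Z)) (fun k => u (i, k.1, k.2))
    (fun k => v (i, k.1, k.2))
  unfold ipi ns
  rw [Fintype.sum_prod_type, Fintype.sum_prod_type, Fintype.sum_prod_type] at h
  exact h

theorem sum_bool_xor {M : Type} [AddCommMonoid M] (g : Bool → M) (c : Bool) :
    ∑ b, g (xor b c) = ∑ b, g b := by
  cases c
  · simp
  · simp [add_comm]

theorem ipi_oracle {Z : Type} [Fintype Z] [DecidableEq Z] (i : ι) (x y : ι → Bool)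
    (h : x i = y i) (u v : ι × Bool × Z → ℂ) :
    ipi i (oracle x *ᵥ u) (oracle y *ᵥ v) = ipi i u v := by
  unfold ipi
  simp only [oracle_mulVec]
  rw [← h]
  exact sum_bool_xor (fun b => ∑ z, conj (u (i, b, z)) * v (i, b, z)) (x i)

theorem ns_oracle {Z : Type} [Fintype Z] [DecidableEq Z] (i : ι) (x : ι → Bool)
    (u : ι × Bool × Z → ℂ) : ns i (oracle x *ᵥ u) = ns i u := by
  unfold ns
  simp only [oracle_mulVec]
  exact sum_bool_xor (fun b => ∑ z, ‖u (i, b, z)‖ ^ 2) (x i)

theorem ip_oracle_diff {Z : Type} [Fintype Z] [DecidableEq Z] (x y : ι → Bool)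
    (u v : ι × Bool × Z → ℂ) :
    ‖ip (oracle x *ᵥ u) (oracle y *ᵥ v) - ip u v‖ ≤
      ∑ i, if x i ≠ y i then 2 * (Real.sqrt (ns i u) * Real.sqrt (ns i v)) else 0 := by
  rw [ip_eq, ip_eq, ← Finset.sum_sub_distrib]
  refine (norm_sum_le _ _).trans (Finset.sum_le_sum fun i _ => ?_)
  split_ifs with h
  · have h1 := ipi_le i (oracle x *ᵥ u) (oracle y *ᵥ v)
    have h2 := ipi_le i u v
    rw [ns_oracle, ns_oracle] at h1
    calc _ ≤ ‖ipi i (oracle x *ᵥ u) (oracle y *ᵥ v)‖ + ‖ipi i u v‖ := norm_sub_le _ _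
      _ ≤ _ := by linarith
  · rw [ipi_oracle i x y (not_not.mp h)]
    simp

theorem norm_state' (A : QAlg ι) (x : ι → Bool) (q : ℕ) : ∑ s, ‖A.state x q s‖ ^ 2 = 1 := by
  induction q with
  | zero =>
    have h := ip_unitary (A.U_unitary 0) (Pi.single A.init 1) (Pi.single A.init 1)
    rw [ip_self, ip_self] at h
    have h1 : ∑ s, ‖(Pi.single A.init 1 : ι × Bool × A.Z → ℂ) s‖ ^ 2 = 1 := by
      rw [Finset.sum_eq_single A.init]
      · simp
      · intro b _ hb
        simp [Pi.single_eq_of_ne hb]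
      · simp
    rw [h1] at h
    exact_mod_cast h
  | succ q ih =>
    have h := ip_unitary (A.U_unitary (q + 1)) (oracle x *ᵥ A.state x q) (oracle x *ᵥ A.state x q)
    rw [ip_self, ip_self] at h
    have h1 : ∑ s, ‖(oracle x *ᵥ A.state x q) s‖ ^ 2 = 1 := by
      rw [← ns_sum]
      simp only [ns_oracle]
      rw [ns_sum, ih]
    rw [h1] at h
    exact_mod_cast h

theorem step_diff (A : QAlg ι) (x y : ι → Bool) (q : ℕ) :
    ‖ip (A.state x (q + 1)) (A.state y (q + 1)) - ip (A.state x q) (A.state y q)‖ ≤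
      ∑ i, if x i ≠ y i then
        2 * (Real.sqrt (ns i (A.state x q)) * Real.sqrt (ns i (A.state y q))) else 0 := by
  have h : ip (A.state x (q + 1)) (A.state y (q + 1)) =
      ip (oracle x *ᵥ A.state x q) (oracle y *ᵥ A.state y q) :=
    ip_unitary (A.U_unitary (q + 1)) _ _
  rw [h]
  exact ip_oracle_diff x y _ _

theorem init_ip (A : QAlg ι) (x y : ι → Bool) : ip (A.state x 0) (A.state y 0) = 1 := by
  have h : A.state x 0 = A.state y 0 := rfl
  rw [h, ip_self, norm_state']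
  simp

/-- final inner product of two inputs with different values -/
theorem final_ip (A : QAlg ι) (x y : ι → Bool) (q : ℕ) (hx : 2 / 3 ≤ A.acceptProb q x)
    (hy : A.acceptProb q y ≤ 1 / 3) :
    ‖ip (A.state x q) (A.state y q)‖ ≤ 17 / 18 := by
  set a := A.acceptProb q x with ha
  set b := A.acceptProb q y with hb
  have hsx := norm_state' A x q
  have hsy := norm_state' A y q
  have hcx : ∑ s ∈ A.accᶜ, ‖A.state x q s‖ ^ 2 = 1 - a := by
    rw [← hsx, ← Finset.sum_add_sum_compl A.acc]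
    simp [ha, QAlg.acceptProb]
  have hcy : ∑ s ∈ A.accᶜ, ‖A.state y q s‖ ^ 2 = 1 - b := by
    rw [← hsy, ← Finset.sum_add_sum_compl A.acc]
    simp [hb, QAlg.acceptProb]
  have ha0 : 0 ≤ a := by rw [ha]; unfold QAlg.acceptProb; positivity
  have hb0 : 0 ≤ b := by rw [hb]; unfold QAlg.acceptProb; positivity
  have ha1 : 0 ≤ 1 - a := by rw [← hcx]; positivity
  have hb1 : 0 ≤ 1 - b := by rw [← hcy]; positivity
  have h1 : ip (A.state x q) (A.state y q) =
      (∑ s ∈ A.acc, conj (A.state x q s) * A.state y q s) +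
      ∑ s ∈ A.accᶜ, conj (A.state x q s) * A.state y q s := by
    rw [Finset.sum_add_sum_compl]; rfl
  have h2 := norm_sum_le_sqrt A.acc (A.state x q) (A.state y q)
  have h3 := norm_sum_le_sqrt A.accᶜ (A.state x q) (A.state y q)
  rw [hcx, hcy] at h3
  have h2' : ‖∑ s ∈ A.acc, conj (A.state x q s) * A.state y q s‖ ≤ Real.sqrt a * Real.sqrt b := h2
  have h4 : Real.sqrt a * Real.sqrt b ≤ (2 / 3 * a + 3 / 2 * b) / 2 := by
    have e1 := Real.sq_sqrt ha0
    have e2 := Real.sq_sqrt hb0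
    nlinarith [sq_nonneg (2 * Real.sqrt a - 3 * Real.sqrt b)]
  have h5 : Real.sqrt (1 - a) * Real.sqrt (1 - b) ≤ (3 / 2 * (1 - a) + 2 / 3 * (1 - b)) / 2 := by
    have e1 := Real.sq_sqrt ha1
    have e2 := Real.sq_sqrt hb1
    nlinarith [sq_nonneg (3 * Real.sqrt (1 - a) - 2 * Real.sqrt (1 - b))]
  rw [h1]
  refine (norm_add_le _ _).trans ?_
  linarith

/-- The adversary bound. -/
theorem adv {f : (ι → Bool) → Bool} {q : ℕ} (hf : QuantComputes q f) {X : Type} [Fintype X]
    (e : X → ι → Bool) (W : X → X → ℝ) (hW0 : ∀ a b, 0 ≤ W a b)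
    (hWf : ∀ a b, f (e a) = f (e b) → W a b = 0)
    (hWi : ∀ i, ∀ c : X → ℝ, (∀ a, 0 ≤ c a) →
      ∑ a, ∑ b, (if e a i ≠ e b i then W a b * (c a * c b) else 0) ≤ ∑ a, c a ^ 2)
    (v : X → ℝ) (hv : ∀ a, 0 ≤ v a) :
    ∑ a, ∑ b, W a b * (v a * v b) ≤ 36 * q * ∑ a, v a ^ 2 := by
  obtain ⟨A, hA⟩ := hf
  set Φ : ℕ → ℂ := fun t => ∑ a, ∑ b, ((W a b * (v a * v b) : ℝ) : ℂ) *
    ip (A.state (e a) t) (A.state (e b) t) with hΦ
  have hstep : ∀ t, ‖Φ (t + 1) - Φ t‖ ≤ 2 * ∑ a, v a ^ 2 := by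
    intro t
    set n : X → ι → ℝ := fun a i => Real.sqrt (ns i (A.state (e a) t)) with hn
    have h1 : Φ (t + 1) - Φ t = ∑ a, ∑ b, ((W a b * (v a * v b) : ℝ) : ℂ) *
        (ip (A.state (e a) (t + 1)) (A.state (e b) (t + 1)) -
          ip (A.state (e a) t) (A.state (e b) t)) := by
      rw [hΦ]
      simp only
      rw [← Finset.sum_sub_distrib]
      refine Finset.sum_congr rfl fun a _ => ?_
      rw [← Finset.sum_sub_distrib]
      refine Finset.sum_congr rfl fun b _ => ?_
      ring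
    have hw : ∀ a b, 0 ≤ W a b * (v a * v b) := fun a b =>
      mul_nonneg (hW0 a b) (mul_nonneg (hv a) (hv b))
    calc ‖Φ (t + 1) - Φ t‖ ≤ ∑ a, ∑ b, (W a b * (v a * v b)) *
          ∑ i, (if e a i ≠ e b i then 2 * (n a i * n b i) else 0) := by
          rw [h1]
          refine (norm_sum_le _ _).trans (Finset.sum_le_sum fun a _ => ?_)
          refine (norm_sum_le _ _).trans (Finset.sum_le_sum fun b _ => ?_)
          rw [norm_mul, Complex.norm_real, Real.norm_of_nonneg (hw a b)]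
          exact mul_le_mul_of_nonneg_left (step_diff A (e a) (e b) t) (hw a b)
      _ = ∑ i, 2 * ∑ a, ∑ b, (if e a i ≠ e b i then
            W a b * ((v a * n a i) * (v b * n b i)) else 0) := by
          have e1 : ∀ a b, (W a b * (v a * v b)) *
              ∑ i, (if e a i ≠ e b i then 2 * (n a i * n b i) else 0) =
              ∑ i, 2 * (if e a i ≠ e b i then W a b * ((v a * n a i) * (v b * n b i)) else 0) := by
            intro a b
            rw [Finset.mul_sum]
            refine Finset.sum_congr rfl fun i _ => ?_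
            split_ifs
            · ring
            · ring
          simp only [e1]
          rw [Finset.sum_congr rfl fun a _ => Finset.sum_comm, Finset.sum_comm]
          simp only [Finset.mul_sum]
      _ ≤ ∑ i, 2 * ∑ a, (v a * n a i) ^ 2 := by
          refine Finset.sum_le_sum fun i _ => ?_
          have := hWi i (fun a => v a * n a i) (fun a => mul_nonneg (hv a) (Real.sqrt_nonneg _))
          linarith
      _ = 2 * ∑ a, v a ^ 2 := by
          rw [← Finset.mul_sum, Finset.sum_comm]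
          congr 1
          refine Finset.sum_congr rfl fun a _ => ?_
          have : ∀ i, (v a * n a i) ^ 2 = v a ^ 2 * ns i (A.state (e a) t) := by
            intro i
            rw [mul_pow, hn]
            simp only
            rw [Real.sq_sqrt (ns_nonneg _ _)]
          simp only [this]
          rw [← Finset.mul_sum, ns_sum, norm_state', mul_one]
  have htot : ‖Φ q - Φ 0‖ ≤ q * (2 * ∑ a, v a ^ 2) := by
    have : ∀ t : ℕ, ‖Φ t - Φ 0‖ ≤ t * (2 * ∑ a, v a ^ 2) := by
      intro t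
      induction t with
      | zero => simp
      | succ t ih =>
        have h1 : Φ (t + 1) - Φ 0 = (Φ (t + 1) - Φ t) + (Φ t - Φ 0) := by ring
        rw [h1]
        refine (norm_add_le _ _).trans ?_
        push_cast
        have := hstep t
        linarith
    exact this q
  have h0 : Φ 0 = ((∑ a, ∑ b, W a b * (v a * v b) : ℝ) : ℂ) := by
    rw [hΦ]
    simp only [init_ip, mul_one]
    push_cast
    rfl
  have hq : ‖Φ q‖ ≤ 17 / 18 * ∑ a, ∑ b, W a b * (v a * v b) := by
    rw [hΦ, Finset.mul_sum]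
    refine (norm_sum_le _ _).trans (Finset.sum_le_sum fun a _ => ?_)
    rw [Finset.mul_sum]
    refine (norm_sum_le _ _).trans (Finset.sum_le_sum fun b _ => ?_)
    have hw : 0 ≤ W a b * (v a * v b) := mul_nonneg (hW0 a b) (mul_nonneg (hv a) (hv b))
    rw [norm_mul, Complex.norm_real, Real.norm_of_nonneg hw, mul_comm (17 / 18 : ℝ)]
    by_cases hab : f (e a) = f (e b)
    · rw [hWf a b hab]; simp
    · refine mul_le_mul_of_nonneg_left ?_ hw
      cases hfa : f (e a) with
      | true =>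
        have hfb : f (e b) = false := by
          cases hfb : f (e b)
          · rfl
          · exact absurd (hfa.trans hfb.symm) hab
        exact final_ip A _ _ q ((hA _).1 hfa) ((hA _).2 hfb)
      | false =>
        have hfb : f (e b) = true := by
          cases hfb : f (e b)
          · exact absurd (hfa.trans hfb.symm) hab
          · rfl
        have h1 := final_ip A _ _ q ((hA _).1 hfb) ((hA _).2 hfa)
        have h2 : ip (A.state (e a) q) (A.state (e b) q) =
            conj (ip (A.state (e b) q) (A.state (e a) q)) := by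
          unfold ip
          rw [map_sum]
          refine Finset.sum_congr rfl fun s _ => ?_
          rw [map_mul, Complex.conj_conj, mul_comm]
        rw [h2, RCLike.norm_conj]
        exact h1
  set S := ∑ a, ∑ b, W a b * (v a * v b) with hS
  have hS0 : 0 ≤ S := Finset.sum_nonneg fun a _ => Finset.sum_nonneg fun b _ =>
    mul_nonneg (hW0 a b) (mul_nonneg (hv a) (hv b))
  have h3 : S ≤ ‖Φ q - Φ 0‖ + ‖Φ q‖ := by
    have : ‖Φ 0‖ = S := by rw [h0, Complex.norm_real, Real.norm_of_nonneg hS0]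
    rw [← this]
    calc ‖Φ 0‖ = ‖Φ q - (Φ q - Φ 0)‖ := by congr 1; ring
      _ ≤ ‖Φ q‖ + ‖Φ q - Φ 0‖ := norm_sub_le _ _
      _ = _ := by ring
  have h4 : S / 18 ≤ q * (2 * ∑ a, v a ^ 2) := by linarith
  linarith

end Up

end P362
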