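import Mathlib

/-!
# P362, section 7: Huang's eigenvector
-/

namespace P362

open scoped BigOperators

set_option linter.unusedSectionVars false

namespace Up

/-- flip a bit -/
def flp {J : Type} [DecidableEq J] (i : J) (y : J → Bool) : J → Bool :=
  Function.update y i (!(y i))

section flp

variable {J : Type} [DecidableEq J]

@[simp] theorem flp_same (i : J) (y : J → Bool) : flp i y i = !(y i) := by simp [flp]

theorem flp_ne {i j : J} (h : j ≠ i) (y : J → Bool) : flp i y j = y j := by simp [flp, h]

@[simp] theorem flp_flp (i : J) (y : J → Bool) : flp i (flp i y) = y := by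
  funext j
  by_cases h : j = i
  · subst h; simp
  · rw [flp_ne h, flp_ne h]

theorem flp_comm (i j : J) (y : J → Bool) : flp i (flp j y) = flp j (flp i y) := by
  funext k
  by_cases hi : k = i
  · subst hi
    by_cases hj : k = j
    · subst hj; rfl
    · rw [flp_same, flp_ne hj, flp_ne hj, flp_same]
  · rw [flp_ne hi]
    by_cases hj : k = j
    · subst hj
      rw [flp_same, flp_same, flp_ne hi]
    · rw [flp_ne hj, flp_ne hj, flp_ne hi]

/-- the equivalence given by flipping -/
def flpE (i : J) : (J → Bool) ≃ (J → Bool) where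
  toFun := flp i
  invFun := flp i
  left_inv := flp_flp i
  right_inv := flp_flp i

end flp

/-- sign of a bit -/
def sb (b : Bool) : ℝ := if b then -1 else 1

theorem sb_not (b : Bool) : sb (!b) = -sb b := by cases b <;> simp [sb]

theorem sb_sq (b : Bool) : sb b * sb b = 1 := by cases b <;> simp [sb]

section par

variable {J : Type} [Fintype J] [DecidableEq J]

/-- parity sign -/
def par (y : J → Bool) : ℝ := ∏ i, sb (y i)

theorem par_sq (y : J → Bool) : par y * par y = 1 := by
  unfold par
  rw [← Finset.prod_mul_distrib]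
  exact Finset.prod_eq_one fun j _ => sb_sq _

theorem par_flp (i : J) (y : J → Bool) : par (flp i y) = -par y := by
  unfold par
  rw [← Finset.mul_prod_erase Finset.univ _ (Finset.mem_univ i),
    ← Finset.mul_prod_erase Finset.univ (fun i => sb (y i)) (Finset.mem_univ i), flp_same, sb_not,
    neg_mul]
  congr 2
  refine Finset.prod_congr rfl fun k hk => ?_
  rw [flp_ne (Finset.ne_of_mem_erase hk)]

end par

variable {J : Type} [Fintype J] [LinearOrder J]

/-- the signs of the signed hypercube -/
def sgn (i : J) (y : J → Bool) : ℝ := ∏ j ∈ Finset.univ.filter (fun j => j < i), sb (y j)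

theorem sgn_sq (i : J) (y : J → Bool) : sgn i y * sgn i y = 1 := by
  unfold sgn
  rw [← Finset.prod_mul_distrib]
  exact Finset.prod_eq_one fun j _ => sb_sq _

theorem sgn_abs (i : J) (y : J → Bool) : |sgn i y| = 1 := by
  have h := sgn_sq i y
  have h2 : |sgn i y| * |sgn i y| = 1 := by rw [abs_mul_abs_self, h]
  have h3 := abs_nonneg (sgn i y)
  nlinarith

theorem sgn_flp_ge {i j : J} (h : ¬ i < j) (y : J → Bool) : sgn j (flp i y) = sgn j y := by
  unfold sgn
  refine Finset.prod_congr rfl fun k hk => ?_
  rw [flp_ne]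
  rintro rfl
  exact h (Finset.mem_filter.mp hk).2

theorem sgn_flp_lt {i j : J} (h : i < j) (y : J → Bool) : sgn j (flp i y) = -sgn j y := by
  unfold sgn
  have hi : i ∈ Finset.univ.filter (fun k => k < j) := by simp [h]
  rw [← Finset.mul_prod_erase _ _ hi, ← Finset.mul_prod_erase _ _ hi, flp_same, sb_not, neg_mul]
  congr 2
  refine Finset.prod_congr rfl fun k hk => ?_
  rw [flp_ne (Finset.ne_of_mem_erase hk)]

/-- the signed adjacency operator -/
noncomputable def hop : ((J → Bool) → ℝ) →ₗ[ℝ] ((J → Bool) → ℝ) where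
  toFun g y := ∑ i, sgn i y * g (flp i y)
  map_add' g g' := by
    funext y
    simp only [Pi.add_apply, mul_add, Finset.sum_add_distrib]
  map_smul' c g := by
    funext y
    simp only [Pi.smul_apply, smul_eq_mul, RingHom.id_apply, Finset.mul_sum]
    exact Finset.sum_congr rfl fun i _ => by ring

theorem hop_apply (g : (J → Bool) → ℝ) (y : J → Bool) :
    hop g y = ∑ i, sgn i y * g (flp i y) := rfl

theorem hop_hop (g : (J → Bool) → ℝ) : hop (hop g) = (Fintype.card J : ℝ) • g := by
  funext y
  rw [hop_apply]
  simp only [hop_apply]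
  set T : J → J → ℝ := fun i j => sgn i y * (sgn j (flp i y) * g (flp j (flp i y))) with hT
  have h0 : ∑ i, sgn i y * ∑ j, sgn j (flp i y) * g (flp j (flp i y)) = ∑ i, ∑ j, T i j := by
    refine Finset.sum_congr rfl fun i _ => ?_
    rw [Finset.mul_sum]
  rw [h0]
  have hd : ∀ i, T i i = g y := by
    intro i
    rw [hT]
    simp only
    rw [sgn_flp_ge (lt_irrefl i), flp_flp, ← mul_assoc, sgn_sq, one_mul]
  have hc : ∀ i j, i ≠ j → T i j + T j i = 0 := by
    intro i j hij
    rw [hT]
    simp only
    rw [flp_comm j i]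
    rcases lt_or_gt_of_ne hij with h | h
    · rw [sgn_flp_lt h, sgn_flp_ge (not_lt.mpr h.le)]
      ring
    · rw [sgn_flp_lt h, sgn_flp_ge (not_lt.mpr h.le)]
      ring
  have h1 : (∑ i, ∑ j, T i j) + (∑ i, ∑ j, T i j) = 2 * (Fintype.card J * g y) := by
    have e1 : (∑ i, ∑ j, T i j) = ∑ i, ∑ j, T j i := Finset.sum_comm
    have e2 : (∑ i, ∑ j, T i j) + (∑ i, ∑ j, T j i) =
        ∑ i : J, ∑ j : J, if i = j then 2 * g y else 0 := by
      rw [← Finset.sum_add_distrib]
      refine Finset.sum_congr rfl fun i _ => ?_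
      rw [← Finset.sum_add_distrib]
      refine Finset.sum_congr rfl fun j _ => ?_
      split_ifs with h
      · subst h
        rw [hd]
        ring
      · exact hc i j h
    rw [← e1] at e2
    rw [e2]
    simp
    ring
  simp only [Pi.smul_apply, smul_eq_mul]
  linarith

theorem hop_par (g : (J → Bool) → ℝ) :
    hop (fun y => par y * g y) = fun y => -(par y * hop g y) := by
  funext y
  rw [hop_apply, hop_apply, Finset.mul_sum, ← Finset.sum_neg_distrib]
  refine Finset.sum_congr rfl fun i _ => ?_
  rw [par_flp]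
  ring

/-- the parity involution -/
noncomputable def parE : ((J → Bool) → ℝ) ≃ₗ[ℝ] ((J → Bool) → ℝ) where
  toFun g y := par y * g y
  invFun g y := par y * g y
  map_add' g g' := by funext y; simp [mul_add]
  map_smul' c g := by funext y; simp; ring
  left_inv g := by funext y; simp only; rw [← mul_assoc, par_sq, one_mul]
  right_inv g := by funext y; simp only; rw [← mul_assoc, par_sq, one_mul]

/-- eigenspaces -/
noncomputable def eig (c : ℝ) : Submodule ℝ ((J → Bool) → ℝ) :=
  LinearMap.ker (hop - c • (LinearMap.id : ((J → Bool) → ℝ) →ₗ[ℝ] ((J → Bool) → ℝ)))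

theorem mem_eig {c : ℝ} {g : (J → Bool) → ℝ} : g ∈ eig c ↔ hop g = c • g := by
  unfold eig
  rw [LinearMap.mem_ker]
  simp [sub_eq_zero]

theorem finrank_eig_neg (c : ℝ) :
    Module.finrank ℝ (eig (J := J) (-c)) ≤ Module.finrank ℝ (eig (J := J) c) := by
  have h : (eig (J := J) (-c)).map (parE (J := J) : ((J → Bool) → ℝ) →ₗ[ℝ] ((J → Bool) → ℝ)) ≤
      eig c := by
    rintro _ ⟨g, hg, rfl⟩
    rw [SetLike.mem_coe, mem_eig] at hg
    rw [mem_eig]
    show hop (fun y => par y * g y) = c • fun y => par y * g y
    rw [hop_par, hg]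
    funext y
    simp
    ring
  calc Module.finrank ℝ (eig (J := J) (-c))
      = Module.finrank ℝ ((eig (J := J) (-c)).map
        (parE (J := J) : ((J → Bool) → ℝ) →ₗ[ℝ] ((J → Bool) → ℝ))) :=
        (LinearEquiv.finrank_map_eq parE _).symm
    _ ≤ _ := Submodule.finrank_mono h

theorem finrank_eig (hJ : 0 < Fintype.card J) :
    2 ^ Fintype.card J ≤ 2 * Module.finrank ℝ (eig (J := J) (Real.sqrt (Fintype.card J))) := by
  set c := Real.sqrt (Fintype.card J) with hc
  have hc0 : 0 < c := Real.sqrt_pos.mpr (by exact_mod_cast hJ)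
  have hcc : c * c = Fintype.card J := Real.mul_self_sqrt (Nat.cast_nonneg _)
  have htop : (eig (J := J) c) ⊔ (eig (J := J) (-c)) = ⊤ := by
    rw [eq_top_iff]
    intro g _
    have h1 : hop g + c • g ∈ eig (J := J) c := by
      rw [mem_eig, map_add, map_smul, hop_hop, smul_add, smul_smul, hcc, add_comm]
    have h2 : hop g - c • g ∈ eig (J := J) (-c) := by
      rw [mem_eig, map_sub, map_smul, hop_hop, smul_sub, smul_smul, neg_mul, hcc, neg_smul,
        neg_smul, sub_neg_eq_add, add_comm, sub_eq_add_neg]
    have h3 : g = (1 / (2 * c)) • (hop g + c • g) + (-(1 / (2 * c))) • (hop g - c • g) := by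
      rw [smul_add, smul_sub, smul_smul, smul_smul]
      have : 1 / (2 * c) * c = 1 / 2 := by field_simp
      rw [this, neg_mul, this]
      funext y
      simp
      ring
    rw [h3]
    exact Submodule.add_mem_sup (Submodule.smul_mem _ _ h1) (Submodule.smul_mem _ _ h2)
  have h4 := Submodule.finrank_add_le_finrank_add_finrank (eig (J := J) c) (eig (J := J) (-c))
  rw [htop, finrank_top] at h4
  have h5 : Module.finrank ℝ ((J → Bool) → ℝ) = 2 ^ Fintype.card J := by
    rw [Module.finrank_pi]
    simp
  rw [h5] at h4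
  have h6 := finrank_eig_neg (J := J) c
  omega

/-- functions supported on `S` -/
def supp (S : Finset (J → Bool)) : Submodule ℝ ((J → Bool) → ℝ) where
  carrier := {g | ∀ y, y ∉ S → g y = 0}
  add_mem' := by
    intro a b ha hb y hy
    simp [ha y hy, hb y hy]
  zero_mem' := fun y _ => rfl
  smul_mem' := by
    intro c a ha y hy
    simp [ha y hy]

theorem finrank_supp (S : Finset (J → Bool)) : S.card ≤ Module.finrank ℝ (supp S) := by
  classical
  let φ : (S → ℝ) →ₗ[ℝ] supp S :=
    { toFun := fun g => ⟨fun y => if h : y ∈ S then g ⟨y, h⟩ else 0, fun y hy => by simp [hy]⟩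
      map_add' := by
        intro a b
        ext y
        by_cases h : y ∈ S <;> simp [h]
      map_smul' := by
        intro c a
        ext y
        by_cases h : y ∈ S <;> simp [h] }
  have hφ : Function.Injective φ := by
    intro a b hab
    funext s
    have h := congrFun (congrArg Subtype.val hab) s.1
    simpa [φ] using h
  have h := LinearMap.finrank_le_finrank_of_injective hφ
  rw [Module.finrank_pi] at h
  simpa using h

theorem huang (S : Finset (J → Bool)) (hS : 2 ^ Fintype.card J < 2 * S.card) :
    ∃ v : (J → Bool) → ℝ, v ≠ 0 ∧ (∀ y, y ∉ S → v y = 0) ∧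
      Real.sqrt (Fintype.card J) * ∑ y, v y ^ 2 ≤ ∑ y, ∑ i, |v y| * |v (flp i y)| := by
  rcases Nat.eq_zero_or_pos (Fintype.card J) with h0 | hJ
  · have hne : S.Nonempty := by
      rw [← Finset.card_pos]
      have : 0 < 2 ^ Fintype.card J := by positivity
      omega
    obtain ⟨a, ha⟩ := hne
    refine ⟨Pi.single a 1, ?_, ?_, ?_⟩
    · intro h
      have := congrFun h a
      simp at this
    · intro y hy
      rw [Pi.single_eq_of_ne]
      rintro rfl
      exact hy ha
    · rw [h0]
      simp only [Nat.cast_zero, Real.sqrt_zero, zero_mul]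
      positivity
  · set c := Real.sqrt (Fintype.card J) with hc
    have h1 := finrank_eig hJ
    rw [← hc] at h1
    have h2 := finrank_supp S
    have h3 : ¬ Disjoint (eig (J := J) c) (supp S) := by
      intro hd
      have h4 := Submodule.finrank_add_finrank_le_of_disjoint hd
      have h5 : Module.finrank ℝ ((J → Bool) → ℝ) = 2 ^ Fintype.card J := by
        rw [Module.finrank_pi]
        simp
      rw [h5] at h4
      omega
    rw [Submodule.disjoint_def] at h3
    push Not at h3
    obtain ⟨v, hv1, hv2, hv0⟩ := h3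
    refine ⟨v, hv0, hv2, ?_⟩
    have he := mem_eig.mp hv1
    calc c * ∑ y, v y ^ 2 = ∑ y, v y * (hop v y) := by
          rw [he, Finset.mul_sum]
          refine Finset.sum_congr rfl fun y _ => ?_
          simp
          ring
      _ = ∑ y, ∑ i, sgn i y * (v y * v (flp i y)) := by
          refine Finset.sum_congr rfl fun y _ => ?_
          rw [hop_apply, Finset.mul_sum]
          refine Finset.sum_congr rfl fun i _ => ?_
          ring
      _ ≤ _ := by
          refine Finset.sum_le_sum fun y _ => Finset.sum_le_sum fun i _ => ?_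
          calc sgn i y * (v y * v (flp i y)) ≤ |sgn i y * (v y * v (flp i y))| := le_abs_self _
            _ = |v y| * |v (flp i y)| := by rw [abs_mul, sgn_abs, one_mul, abs_mul]

end Up

end P362
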