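import Vale.Agent.P362.Model

/-!
# P362, section 7: `D ≤ bs · deg` (Midrijanis)
-/

namespace P362

open scoped BigOperators

set_option linter.unusedSectionVars false

namespace Up

variable {ι : Type} [Fintype ι] [DecidableEq ι]

/-- flip all bits of a block -/
def fl (B : Finset ι) (x : ι → Bool) : ι → Bool := fun i => xor (x i) (decide (i ∈ B))

theorem fl_empty (x : ι → Bool) : fl ∅ x = x := by
  funext i; simp [fl]

theorem fl_insert {i : ι} {B : Finset ι} (h : i ∉ B) (x : ι → Bool) :
    fl (insert i B) x = fl B (fl {i} x) := by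
  funext k
  by_cases hk : k = i
  · subst hk; simp [fl, h]
  · simp [fl, hk]

theorem fl_fl_single (i : ι) (x : ι → Bool) : fl {i} (fl {i} x) = x := by
  funext k
  by_cases hk : k = i
  · subst hk; simp [fl]
  · simp [fl, hk]

/-- alternating sum of `g` over the `M`-subcube through `x` -/
def alt (g : (ι → Bool) → ℝ) (M : Finset ι) (x : ι → Bool) : ℝ :=
  ∑ B ∈ M.powerset, (-1 : ℝ) ^ B.card * g (fl B x)

theorem alt_insert (g : (ι → Bool) → ℝ) {M : Finset ι} {i : ι} (h : i ∉ M) (x : ι → Bool) :
    alt g (insert i M) x = alt g M x - alt g M (fl {i} x) := by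
  unfold alt
  rw [Finset.sum_powerset_insert h, sub_eq_add_neg, ← Finset.sum_neg_distrib]
  congr 1
  refine Finset.sum_congr rfl fun B hB => ?_
  have hiB : i ∉ B := fun hi => h (Finset.mem_powerset.mp hB hi)
  rw [Finset.card_insert_of_notMem hiB, fl_insert hiB, pow_succ]
  ring

theorem alt_flip_mem (g : (ι → Bool) → ℝ) {M : Finset ι} {i : ι} (h : i ∈ M) (x : ι → Bool) :
    alt g M (fl {i} x) = -alt g M x := by
  rw [← Finset.insert_erase h, alt_insert g (Finset.notMem_erase i M),
    alt_insert g (Finset.notMem_erase i M), fl_fl_single]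
  ring

/-- a function on a subcube invariant under single flips is constant -/
theorem const_of_flip {α : Type} (h : (ι → Bool) → α) (K : Finset ι) (z : ι → Bool)
    (hh : ∀ x, (∀ i ∈ K, x i = z i) → ∀ i, i ∉ K → h (fl {i} x) = h x) (x y : ι → Bool)
    (hx : ∀ i ∈ K, x i = z i) (hy : ∀ i ∈ K, y i = z i) : h x = h y := by
  have key : ∀ S : Finset ι, Disjoint S K → ∀ x, (∀ i ∈ K, x i = z i) → h (fl S x) = h x := by
    intro S
    induction S using Finset.induction_on with
    | empty => intro _ x _; rw [fl_empty]
    | insert i S hi ih =>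
      intro hd x hx
      have hiK : i ∉ K := Finset.disjoint_left.mp hd (Finset.mem_insert_self i S)
      have hd' : Disjoint S K := hd.mono_left (Finset.subset_insert i S)
      rw [fl_insert hi, ih hd' _ ?_, hh x hx i hiK]
      intro k hk
      have : k ≠ i := by rintro rfl; exact hiK hk
      simp [fl, this, hx k hk]
  set S := Finset.univ.filter (fun i => x i ≠ y i) with hS
  have hd : Disjoint S K := by
    rw [Finset.disjoint_left]
    intro i hi hK
    exact (Finset.mem_filter.mp hi).2 (by rw [hx i hK, hy i hK])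
  have h1 := key S hd x hx
  have h2 : fl S x = y := by
    funext i
    simp only [fl, hS, Finset.mem_filter, Finset.mem_univ, true_and]
    cases hxi : x i <;> cases hyi : y i <;> simp
  rw [← h1, h2]

theorem exists_block (g : (ι → Bool) → ℝ) {M : Finset ι} (hM : M.Nonempty) (x : ι → Bool)
    (h : alt g M x ≠ 0) : ∃ B ⊆ M, g (fl B x) ≠ g x := by
  by_contra hcon
  push Not at hcon
  apply h
  unfold alt
  have : ∀ B ∈ M.powerset, (-1 : ℝ) ^ B.card * g (fl B x) = (-1 : ℝ) ^ B.card * g x :=
    fun B hB => by rw [hcon B (Finset.mem_powerset.mp hB)]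
  rw [Finset.sum_congr rfl this, ← Finset.sum_mul]
  have h0 : ∑ B ∈ M.powerset, (-1 : ℝ) ^ B.card = 0 := by
    have := Finset.sum_powerset_neg_one_pow_card_of_nonempty hM
    exact_mod_cast this
  rw [h0, zero_mul]

/-- query all variables of `M` -/
theorem query_all {α : Type} (M : Finset ι) (D : ℕ) (G : (ι → Bool) → DTree ι α)
    (hG : ∀ z, (G z).depth ≤ D) (z : ι → Bool) :
    ∃ T : DTree ι α, T.depth ≤ M.card + D ∧
      ∀ x, T.eval x = (G (fun i => if i ∈ M then x i else z i)).eval x := by
  induction M using Finset.induction_on generalizing z with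
  | empty => exact ⟨G z, by simpa using hG z, fun x => by simp⟩
  | insert i M hi ih =>
    obtain ⟨T0, hT0, h0⟩ := ih (Function.update z i false)
    obtain ⟨T1, hT1, h1⟩ := ih (Function.update z i true)
    refine ⟨DTree.node i T0 T1, ?_, ?_⟩
    · simp only [DTree.depth]
      rw [Finset.card_insert_of_notMem hi]
      omega
    · intro x
      simp only [DTree.eval]
      have key : ∀ b : Bool, x i = b → (fun k => if k ∈ M then x k else Function.update z i b k) =
          fun k => if k ∈ insert i M then x k else z k := by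
        intro b hb
        funext k
        by_cases hk : k = i
        · subst hk
          simp [hi, hb]
        · simp [hk]
      cases hxi : x i with
      | true => simp only [if_true]; rw [h1, key true hxi]
      | false => simp only [Bool.false_eq_true, if_false]; rw [h0, key false hxi]

theorem alt_empty (g : (ι → Bool) → ℝ) (x : ι → Bool) : alt g ∅ x = g x := by
  unfold alt
  simp [fl_empty]

theorem ex_max (g : (ι → Bool) → ℝ) (K : Finset ι) (z x y : ι → Bool)
    (hx : ∀ i ∈ K, x i = z i) (hy : ∀ i ∈ K, y i = z i) (hne : g x ≠ g y) :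
    ∃ M : Finset ι, Disjoint M K ∧ M.Nonempty ∧ ∀ x, (∀ i ∈ K, x i = z i) → alt g M x ≠ 0 := by
  classical
  set 𝒯 : Finset (Finset ι) := Finset.univ.filter
    (fun M => Disjoint M K ∧ ∃ x, (∀ i ∈ K, x i = z i) ∧ alt g M x ≠ 0) with h𝒯
  have h1 : ∃ x0, (∀ i ∈ K, x0 i = z i) ∧ ∃ i0, i0 ∉ K ∧ g (fl {i0} x0) ≠ g x0 := by
    by_contra hcon
    push Not at hcon
    exact hne (const_of_flip g K z hcon x y hx hy)
  obtain ⟨x0, hx0, i0, hi0, hgi⟩ := h1
  have h2 : {i0} ∈ 𝒯 := by
    rw [h𝒯, Finset.mem_filter]
    refine ⟨Finset.mem_univ _, by simpa using hi0, x0, hx0, ?_⟩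
    have : ({i0} : Finset ι) = insert i0 ∅ := by simp
    rw [this, alt_insert g (Finset.notMem_empty _), alt_empty, alt_empty]
    intro h
    exact hgi (by linarith)
  obtain ⟨M, hM, hmax⟩ := Finset.exists_max_image 𝒯 Finset.card ⟨_, h2⟩
  have hM' := hM
  rw [h𝒯, Finset.mem_filter] at hM'
  obtain ⟨-, hMK, x1, hx1, hx1a⟩ := hM'
  refine ⟨M, hMK, ?_, ?_⟩
  · rw [← Finset.card_pos]
    have h9 := hmax _ h2
    rw [Finset.card_singleton] at h9
    omega
  · intro x2 hx2
    have h3 : ∀ x, (∀ i ∈ K, x i = z i) → ∀ i, i ∉ K →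
        (alt g M (fl {i} x)) ^ 2 = (alt g M x) ^ 2 := by
      intro x hx i hi
      by_cases hiM : i ∈ M
      · rw [alt_flip_mem g hiM, neg_sq]
      · have h4 : alt g (insert i M) x = 0 := by
          by_contra hne'
          have h5 : insert i M ∈ 𝒯 := by
            rw [h𝒯, Finset.mem_filter]
            refine ⟨Finset.mem_univ _, ?_, x, hx, hne'⟩
            rw [Finset.disjoint_insert_left]
            exact ⟨hi, hMK⟩
          have h6 := hmax _ h5
          rw [Finset.card_insert_of_notMem hiM] at h6
          omega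
        rw [alt_insert g hiM] at h4
        have : alt g M (fl {i} x) = alt g M x := by linarith
        rw [this]
    have h7 := const_of_flip (fun x => (alt g M x) ^ 2) K z h3 x2 x1 hx2 hx1
    intro h8
    simp only [h8] at h7
    have : alt g M x1 = 0 := by
      have : (alt g M x1) ^ 2 = 0 := by rw [← h7]; ring
      exact pow_eq_zero_iff (two_ne_zero) |>.mp this
    exact hx1a this

theorem card_le_of_alt (g : (ι → Bool) → ℝ) (b : ℕ) (x : ι → Bool)
    (hb : ∀ P : Finset (Finset ι), (∀ B ∈ P, ∀ B' ∈ P, B ≠ B' → Disjoint B B') →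
      (∀ B ∈ P, g (fl B x) ≠ g x) → P.card ≤ b) (P : Finset (Finset ι))
    (hP : ∀ B ∈ P, ∀ B' ∈ P, B ≠ B' → Disjoint B B') (hn : ∀ B ∈ P, B.Nonempty)
    (ha : ∀ M ∈ P, alt g M x ≠ 0) : P.card ≤ b := by
  classical
  have h : ∀ M, ∃ B, M ∈ P → (B ⊆ M ∧ g (fl B x) ≠ g x) := by
    intro M
    by_cases hM : M ∈ P
    · obtain ⟨B, hB, hB'⟩ := exists_block g (hn M hM) x (ha M hM)
      exact ⟨B, fun _ => ⟨hB, hB'⟩⟩
    · exact ⟨∅, fun h => absurd h hM⟩
  choose β hβ using h
  have hdis : ∀ M ∈ P, ∀ M' ∈ P, M ≠ M' → Disjoint (β M) (β M') := fun M hM M' hM' hne =>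
    (hP M hM M' hM' hne).mono (hβ M hM).1 (hβ M' hM').1
  have hinj : Set.InjOn β P := by
    intro M hM M' hM' heq
    by_contra hne
    have h1 := hdis M hM M' hM' hne
    rw [← heq, Finset.disjoint_self_iff_empty] at h1
    have h2 := (hβ M hM).2
    rw [h1, fl_empty] at h2
    exact h2 rfl
  rw [← Finset.card_image_of_injOn hinj]
  refine hb _ ?_ ?_
  · intro B hB B' hB' hne
    obtain ⟨M, hM, rfl⟩ := Finset.mem_image.mp hB
    obtain ⟨M', hM', rfl⟩ := Finset.mem_image.mp hB'
    exact hdis M hM M' hM' (fun h => hne (by rw [h]))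
  · intro B hB
    obtain ⟨M, hM, rfl⟩ := Finset.mem_image.mp hB
    exact (hβ M hM).2

/-- Midrijanis: decision trees from bounds on disjoint sensitive blocks and on the degree. -/
theorem mid (f : (ι → Bool) → Bool) (g : (ι → Bool) → ℝ)
    (hg : ∀ x y, g x = g y ↔ f x = f y) (b d : ℕ)
    (hb : ∀ x, ∀ P : Finset (Finset ι), (∀ B ∈ P, ∀ B' ∈ P, B ≠ B' → Disjoint B B') →
      (∀ B ∈ P, f (fl B x) ≠ f x) → P.card ≤ b)
    (hd : ∀ M x, alt g M x ≠ 0 → M.card ≤ d) :
    ∃ T : DTree ι Bool, T.depth ≤ b * d ∧ ∀ x, T.eval x = f x := by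
  classical
  have key : ∀ r : ℕ, ∀ (K : Finset ι) (z : ι → Bool) (P : Finset (Finset ι)),
      (∀ B ∈ P, ∀ B' ∈ P, B ≠ B' → Disjoint B B') → (∀ B ∈ P, B ⊆ K) → (∀ B ∈ P, B.Nonempty) →
      (∀ x, (∀ i ∈ K, x i = z i) → ∀ M ∈ P, alt g M x ≠ 0) → b ≤ P.card + r →
      ∃ T : DTree ι Bool, T.depth ≤ r * d ∧ ∀ x, (∀ i ∈ K, x i = z i) → T.eval x = f x := by
    intro r
    induction r with
    | zero =>
      intro K z P hPd hPK hPn hPa hPb
      refine ⟨DTree.leaf (f z), by simp [DTree.depth], ?_⟩
      intro x hx
      by_contra hne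
      have hne' : g z ≠ g x := fun h => hne ((hg z x).mp h)
      obtain ⟨M, hMK, hMn, hMa⟩ := ex_max g K z z x (fun i _ => rfl) hx hne'
      have hMP : M ∉ P := by
        intro hM
        have := hMK.mono_right (hPK M hM)
        rw [Finset.disjoint_self_iff_empty] at this
        exact hMn.ne_empty this
      have h1 := card_le_of_alt g b z (fun P' h1 h2 => hb z P' h1 fun B hB h3 => h2 B hB
        ((hg _ _).mpr h3)) (insert M P) ?_ ?_ ?_
      · rw [Finset.card_insert_of_notMem hMP] at h1
        omega
      · intro B hB B' hB' hne2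
        rcases Finset.mem_insert.mp hB with rfl | hB1
        · rcases Finset.mem_insert.mp hB' with rfl | hB2
          · exact absurd rfl hne2
          · exact hMK.mono_right (hPK _ hB2)
        · rcases Finset.mem_insert.mp hB' with rfl | hB2
          · exact (hMK.mono_right (hPK _ hB1)).symm
          · exact hPd B hB1 B' hB2 hne2
      · intro B hB
        rcases Finset.mem_insert.mp hB with rfl | hB1
        · exact hMn
        · exact hPn B hB1
      · intro B hB
        rcases Finset.mem_insert.mp hB with rfl | hB1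
        · exact hMa z (fun i _ => rfl)
        · exact hPa z (fun i _ => rfl) B hB1
    | succ r ih =>
      intro K z P hPd hPK hPn hPa hPb
      by_cases hcon : ∀ x, (∀ i ∈ K, x i = z i) → f z = f x
      · exact ⟨DTree.leaf (f z), by simp [DTree.depth], fun x hx => hcon x hx⟩
      · push Not at hcon
        obtain ⟨x, hx, hne⟩ := hcon
        have hne' : g z ≠ g x := fun h => hne ((hg z x).mp h)
        obtain ⟨M, hMK, hMn, hMa⟩ := ex_max g K z z x (fun i _ => rfl) hx hne'
        have hMP : M ∉ P := by
          intro hM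
          have := hMK.mono_right (hPK M hM)
          rw [Finset.disjoint_self_iff_empty] at this
          exact hMn.ne_empty this
        have hPd' : ∀ B ∈ insert M P, ∀ B' ∈ insert M P, B ≠ B' → Disjoint B B' := by
          intro B hB B' hB' hne2
          rcases Finset.mem_insert.mp hB with rfl | hB1
          · rcases Finset.mem_insert.mp hB' with rfl | hB2
            · exact absurd rfl hne2
            · exact hMK.mono_right (hPK _ hB2)
          · rcases Finset.mem_insert.mp hB' with rfl | hB2
            · exact (hMK.mono_right (hPK _ hB1)).symm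
            · exact hPd B hB1 B' hB2 hne2
        have hex : ∀ z' : ι → Bool, ∃ T : DTree ι Bool, T.depth ≤ r * d ∧
            ((∀ i ∈ K, z' i = z i) →
              ∀ x, (∀ i ∈ K ∪ M, x i = z' i) → T.eval x = f x) := by
          intro z'
          by_cases hz' : ∀ i ∈ K, z' i = z i
          · have hih := ih (K ∪ M) z' (insert M P) hPd' ?_ ?_ ?_ ?_
            · obtain ⟨T, hT, hT'⟩ := hih
              exact ⟨T, hT, fun _ => hT'⟩
            · intro B hB
              rcases Finset.mem_insert.mp hB with rfl | hB1
              · exact Finset.subset_union_right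
              · exact (hPK B hB1).trans Finset.subset_union_left
            · intro B hB
              rcases Finset.mem_insert.mp hB with rfl | hB1
              · exact hMn
              · exact hPn B hB1
            · intro y hy B hB
              have hy' : ∀ i ∈ K, y i = z i := fun i hi => by
                rw [hy i (Finset.mem_union_left _ hi), hz' i hi]
              rcases Finset.mem_insert.mp hB with rfl | hB1
              · exact hMa y hy'
              · exact hPa y hy' B hB1
            · rw [Finset.card_insert_of_notMem hMP]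
              omega
          · exact ⟨DTree.leaf true, by simp [DTree.depth], fun h => absurd h hz'⟩
        choose G hG1 hG2 using hex
        obtain ⟨T, hT, hT'⟩ := query_all M (r * d) G hG1 z
        refine ⟨T, ?_, ?_⟩
        · have := hd M z (hMa z fun i _ => rfl)
          rw [add_mul, one_mul]
          omega
        · intro y hy
          rw [hT']
          refine hG2 _ ?_ y ?_
          · intro i hi
            have h9 : i ∉ M := fun hiM => (Finset.disjoint_left.mp hMK hiM) hi
            show (if i ∈ M then y i else z i) = z i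
            rw [if_neg h9]
          · intro i hi
            by_cases hiM : i ∈ M
            · simp [hiM]
            · have hiK : i ∈ K := by
                rcases Finset.mem_union.mp hi with h | h
                · exact h
                · exact absurd h hiM
              simp [hiM, hy i hiK]
  obtain ⟨T, hT, h⟩ := key b ∅ (fun _ => false) ∅ (by simp) (by simp) (by simp) (by simp) (by simp)
  exact ⟨T, hT, fun x => h x (by simp)⟩

end Up

end P362
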