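import Vale.Agent.P362.UpAdv
import Vale.Agent.P362.UpHuang
import Vale.Agent.P362.UpMid
import Vale.Agent.P362.Realize

/-!
# P362, section 7: `R(f) ≤ C (1 + Q(f))^4`
-/

namespace P362

open scoped BigOperators

set_option linter.unusedSectionVars false

namespace Up

section blocks

variable {ι : Type} [Fintype ι] [DecidableEq ι]

/-- inputs of the star -/
def stE (x : ι → Bool) (P : Finset (Finset ι)) : Option P → ι → Bool
  | none => x
  | some B => fl B.1 x

/-- weights of the star -/
def stW (P : Finset (Finset ι)) : Option P → Option P → ℝ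
  | none, some _ => 1
  | some _, none => 1
  | _, _ => 0

theorem fl_ne_iff (B : Finset ι) (x : ι → Bool) (i : ι) : x i ≠ fl B x i ↔ i ∈ B := by
  unfold fl
  by_cases h : i ∈ B
  · simp [h]
  · simp [h]

theorem bs_le {f : (ι → Bool) → Bool} {q : ℕ} (hf : QuantComputes q f) (x : ι → Bool)
    (P : Finset (Finset ι)) (hP : ∀ B ∈ P, ∀ B' ∈ P, B ≠ B' → Disjoint B B')
    (hs : ∀ B ∈ P, f (fl B x) ≠ f x) : P.card ≤ 1296 * q ^ 2 := by
  classical
  rcases Nat.eq_zero_or_pos P.card with h0 | h0
  · rw [h0]; exact Nat.zero_le _
  set m : ℝ := (P.card : ℝ) with hm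
  have hm0 : 0 < m := by rw [hm]; exact_mod_cast h0
  have hcard : (Fintype.card P : ℝ) = m := by rw [Fintype.card_coe]
  have h := adv hf (stE x P) (stW P) ?_ ?_ ?_ (fun a => if a = none then Real.sqrt m else 1) ?_
  · simp only [Fintype.sum_option, stW] at h
    simp only [if_true, reduceCtorEq, if_false, zero_mul, one_mul, mul_one, Finset.sum_const,
      Finset.card_univ, nsmul_eq_mul, hcard, one_pow, zero_add, mul_zero, add_zero,
      Real.sq_sqrt hm0.le] at h
    have h1 : m * Real.sqrt m ≤ 36 * q * m := by linarith
    have h2 : Real.sqrt m ≤ 36 * q := by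
      rw [mul_comm (36 * (q : ℝ))] at h1
      exact le_of_mul_le_mul_left h1 hm0
    have h3 : m ≤ 1296 * (q : ℝ) ^ 2 := by
      have := mul_self_le_mul_self (Real.sqrt_nonneg m) h2
      rw [Real.mul_self_sqrt hm0.le] at this
      nlinarith
    rw [hm] at h3
    exact_mod_cast h3
  · intro a b
    cases a <;> cases b <;> simp [stW]
  · intro a b hab
    cases a with
    | none =>
      cases b with
      | none => rfl
      | some B => exact absurd hab.symm (hs B.1 B.2)
    | some B =>
      cases b with
      | none => exact absurd hab (hs B.1 B.2)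
      | some B' => rfl
  · intro i c hc
    have e1 : ∀ B : P, (if stE x P none i ≠ stE x P (some B) i then
        stW P none (some B) * (c none * c (some B)) else 0) =
        if i ∈ B.1 then c none * c (some B) else 0 := by
      intro B
      have hiff : stE x P none i ≠ stE x P (some B) i ↔ i ∈ B.1 := fl_ne_iff B.1 x i
      by_cases h : i ∈ B.1
      · rw [if_pos (hiff.mpr h), if_pos h]
        simp [stW]
      · rw [if_neg (fun h' => h (hiff.mp h')), if_neg h]
    have e2 : ∀ B : P, (if stE x P (some B) i ≠ stE x P none i then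
        stW P (some B) none * (c (some B) * c none) else 0) =
        if i ∈ B.1 then c none * c (some B) else 0 := by
      intro B
      have hiff : stE x P (some B) i ≠ stE x P none i ↔ i ∈ B.1 := by
        rw [ne_comm]
        exact fl_ne_iff B.1 x i
      by_cases h : i ∈ B.1
      · rw [if_pos (hiff.mpr h), if_pos h]
        simp [stW, mul_comm]
      · rw [if_neg (fun h' => h (hiff.mp h')), if_neg h]
    have e3 : ∀ B B' : P, (if stE x P (some B) i ≠ stE x P (some B') i then
        stW P (some B) (some B') * (c (some B) * c (some B')) else 0) = 0 := by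
      intro B B'
      simp [stW]
    simp only [Fintype.sum_option, e1, e2, e3, ne_eq, not_true_eq_false, if_false,
      Finset.sum_const_zero, add_zero, zero_add]
    by_cases hex : ∃ B : P, i ∈ B.1
    · obtain ⟨B, hB⟩ := hex
      have h1 : ∑ B' : P, (if i ∈ B'.1 then c none * c (some B') else 0) =
          c none * c (some B) := by
        rw [Finset.sum_eq_single B]
        · rw [if_pos hB]
        · intro B' _ hne
          rw [if_neg]
          intro hB'
          have : Disjoint B'.1 B.1 := hP _ B'.2 _ B.2 (fun h => hne (Subtype.ext h))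
          exact (Finset.disjoint_left.mp this hB') hB
        · intro h; exact absurd (Finset.mem_univ _) h
      rw [h1]
      have h2 : c (some B) ^ 2 ≤ ∑ B' : P, c (some B') ^ 2 :=
        Finset.single_le_sum (f := fun B' : P => c (some B') ^ 2) (fun _ _ => sq_nonneg _)
          (Finset.mem_univ B)
      nlinarith [sq_nonneg (c none - c (some B))]
    · push Not at hex
      have h1 : ∑ B' : P, (if i ∈ B'.1 then c none * c (some B') else 0) = 0 :=
        Finset.sum_eq_zero fun B' _ => if_neg (hex B')
      rw [h1]
      have h2 : 0 ≤ ∑ B' : P, c (some B') ^ 2 := Finset.sum_nonneg fun _ _ => sq_nonneg _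
      have h3 := sq_nonneg (c none)
      linarith
  · intro a
    split_ifs
    · exact Real.sqrt_nonneg _
    · exact zero_le_one

end blocks

section deg

variable {ι : Type} [Fintype ι] [LinearOrder ι]

/-- embedding of the `M`-cube as the `M`-subcube through `x` -/
def sub (x : ι → Bool) (M : Finset ι) (y : M → Bool) : ι → Bool :=
  fun i => xor (x i) (if h : i ∈ M then y ⟨i, h⟩ else false)

theorem alt_eq (g : (ι → Bool) → ℝ) (M : Finset ι) (x : ι → Bool) :
    alt g M x = ∑ y : M → Bool, par y * g (sub x M y) := by
  unfold alt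
  symm
  refine Finset.sum_bij' (fun y _ => (Finset.univ.filter (fun i : M => y i = true)).map
    (Function.Embedding.subtype _)) (fun B _ => fun i => decide (i.1 ∈ B)) ?_ ?_ ?_ ?_ ?_
  · intro y _
    rw [Finset.mem_powerset]
    intro i hi
    simp only [Finset.mem_map, Finset.mem_filter, Finset.mem_univ, true_and] at hi
    obtain ⟨a, _, rfl⟩ := hi
    exact a.2
  · intro B _
    exact Finset.mem_univ _
  · intro y _
    funext i
    simp
  · intro B hB
    rw [Finset.mem_powerset] at hB
    ext i
    simp only [Finset.mem_map, Finset.mem_filter, Finset.mem_univ, true_and,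
      Function.Embedding.coe_subtype, decide_eq_true_eq]
    constructor
    · rintro ⟨a, ha, rfl⟩
      exact ha
    · intro hi
      exact ⟨⟨i, hB hi⟩, hi, rfl⟩
  · intro y _
    rw [Finset.card_map]
    congr 1
    · unfold par sb
      rw [Finset.prod_ite]
      simp
    · congr 1
      funext i
      unfold sub fl
      congr 1
      by_cases hi : i ∈ M
      · cases hy : y ⟨i, hi⟩
        · simp [hi, hy]
        · simp [hi, hy]
      · simp [hi]

theorem sub_flp (x : ι → Bool) (M : Finset ι) (y : M → Bool) (a : M) (i : ι) :
    sub x M y i ≠ sub x M (flp a y) i ↔ i = a.1 := by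
  unfold sub
  by_cases hi : i ∈ M
  · by_cases h : i = a.1
    · subst h
      simp
    · have : flp a y ⟨i, hi⟩ = y ⟨i, hi⟩ := flp_ne (fun h' => h (congrArg Subtype.val h')) y
      simp [hi, this, h]
  · have : i ≠ a.1 := fun h => hi (h ▸ a.2)
    simp [hi, this]

theorem deg_le {f : (ι → Bool) → Bool} {q : ℕ} (hf : QuantComputes q f) (x : ι → Bool)
    (M : Finset ι) (h : alt (fun x => sb (f x)) M x ≠ 0) : M.card ≤ 1296 * q ^ 2 := by
  classical
  rw [alt_eq] at h
  -- the larger of the two classes
  have hS : ∃ S : Finset (M → Bool), 2 ^ Fintype.card M < 2 * S.card ∧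
      ∀ y ∈ S, ∀ a, flp a y ∈ S → f (sub x M y) ≠ f (sub x M (flp a y)) := by
    set S1 : Finset (M → Bool) := Finset.univ.filter (fun y => sb (f (sub x M y)) = par y) with hS1
    have hcls : ∀ y, y ∉ S1 → sb (f (sub x M y)) = -par y := by
      intro y hy
      rw [hS1, Finset.mem_filter] at hy
      have h1 : par y = 1 ∨ par y = -1 := by
        have := par_sq y
        exact mul_self_eq_one_iff.mp this
      have h2 : sb (f (sub x M y)) = 1 ∨ sb (f (sub x M y)) = -1 :=
        mul_self_eq_one_iff.mp (sb_sq _)
      push Not at hy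
      have h3 := hy (Finset.mem_univ _)
      rcases h1 with h1 | h1 <;> rcases h2 with h2 | h2 <;> rw [h1, h2] at h3 ⊢
      · exact absurd rfl h3
      · norm_num
      · exact absurd rfl h3
    have hsum : ∑ y : M → Bool, par y * sb (f (sub x M y)) = (S1.card : ℝ) - (S1ᶜ).card := by
      rw [← Finset.sum_add_sum_compl S1]
      have e1 : ∑ y ∈ S1, par y * sb (f (sub x M y)) = S1.card := by
        rw [Finset.sum_congr rfl (g := fun _ => (1 : ℝ))]
        · simp
        · intro y hy
          rw [(Finset.mem_filter.mp hy).2, par_sq]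
      have e2 : ∑ y ∈ S1ᶜ, par y * sb (f (sub x M y)) = -(S1ᶜ).card := by
        rw [Finset.sum_congr rfl (g := fun _ => (-1 : ℝ))]
        · simp
        · intro y hy
          rw [hcls y (Finset.mem_compl.mp hy), mul_neg, par_sq]
      rw [e1, e2]
      ring
    rw [hsum] at h
    have hne : S1.card ≠ (S1ᶜ).card := by
      intro he
      rw [he] at h
      exact h (sub_self _)
    have htot : S1.card + (S1ᶜ).card = 2 ^ Fintype.card M := by
      rw [Finset.card_add_card_compl]
      simp
    have hinj : ∀ b b' : Bool, sb b ≠ sb b' → b ≠ b' := fun b b' h1 h2 => h1 (by rw [h2])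
    rcases lt_or_gt_of_ne hne with hlt | hgt
    · refine ⟨S1ᶜ, by omega, ?_⟩
      intro y hy a ha
      apply hinj
      rw [hcls y (Finset.mem_compl.mp hy), hcls _ (Finset.mem_compl.mp ha), par_flp]
      have := par_sq y
      intro h1
      nlinarith
    · refine ⟨S1, by omega, ?_⟩
      intro y hy a ha
      apply hinj
      rw [(Finset.mem_filter.mp hy).2, (Finset.mem_filter.mp ha).2, par_flp]
      have := par_sq y
      intro h1
      nlinarith
  obtain ⟨S, hS1, hS2⟩ := hS
  obtain ⟨v, hv0, hvS, hv⟩ := huang S hS1
  rw [Fintype.card_coe] at hv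
  -- adversary weights
  set W : (M → Bool) → (M → Bool) → ℝ := fun y y' =>
    if y ∈ S ∧ y' ∈ S ∧ ∃ a, y' = flp a y then 1 else 0 with hW
  have hadv := adv hf (sub x M) W ?_ ?_ ?_ (fun y => |v y|) (fun y => abs_nonneg _)
  · have hV : 0 < ∑ y, v y ^ 2 := by
      obtain ⟨y, hy⟩ := Function.ne_iff.mp hv0
      exact Finset.sum_pos' (fun _ _ => sq_nonneg _) ⟨y, Finset.mem_univ _, by
        have : v y ≠ 0 := hy
        positivity⟩
    have h1 : ∑ y, ∑ i, |v y| * |v (flp i y)| ≤ ∑ y, ∑ y', W y y' * (|v y| * |v y'|) := by
      refine Finset.sum_le_sum fun y _ => ?_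
      have hinj : Function.Injective (fun a : M => flp a y) := by
        intro a a' haa
        by_contra hne
        have h1 := congrFun haa a
        simp only [flp_same, flp_ne hne] at h1
        cases hya : y a <;> simp [hya] at h1
      have h2 : ∑ i, |v y| * |v (flp i y)| =
          ∑ y' ∈ Finset.univ.image (fun a : M => flp a y), |v y| * |v y'| := by
        rw [Finset.sum_image fun a _ a' _ haa => hinj haa]
      rw [h2]
      calc ∑ y' ∈ Finset.univ.image (fun a : M => flp a y), |v y| * |v y'|
          = ∑ y' ∈ Finset.univ.image (fun a : M => flp a y), W y y' * (|v y| * |v y'|) := by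
            refine Finset.sum_congr rfl fun y' hy' => ?_
            obtain ⟨a, _, rfl⟩ := Finset.mem_image.mp hy'
            by_cases hyS : y ∈ S
            · by_cases hyS' : flp a y ∈ S
              · rw [hW]
                simp only
                rw [if_pos ⟨hyS, hyS', a, rfl⟩, one_mul]
              · rw [hvS _ hyS']; simp
            · rw [hvS _ hyS]; simp
        _ ≤ _ := by
            refine Finset.sum_le_univ_sum_of_nonneg fun y' => ?_
            rw [hW]
            simp only
            split_ifs <;> positivity
    have h2 : Real.sqrt M.card * ∑ y, v y ^ 2 ≤ 36 * q * ∑ y, v y ^ 2 := by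
      refine hv.trans (h1.trans ?_)
      simpa [sq_abs] using hadv
    have h3 : Real.sqrt M.card ≤ 36 * q := le_of_mul_le_mul_right h2 hV
    have h4 := mul_self_le_mul_self (Real.sqrt_nonneg _) h3
    rw [Real.mul_self_sqrt (Nat.cast_nonneg _)] at h4
    have h5 : (M.card : ℝ) ≤ 1296 * (q : ℝ) ^ 2 := by nlinarith
    exact_mod_cast h5
  · intro a b
    rw [hW]
    simp only
    split_ifs <;> norm_num
  · intro a b hab
    rw [hW]
    simp only
    rw [if_neg]
    rintro ⟨ha, hb, c, rfl⟩
    exact hS2 a ha c hb hab
  · intro i c hc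
    by_cases hi : i ∈ M
    · set a : M := ⟨i, hi⟩ with ha
      calc ∑ y, ∑ y', (if sub x M y i ≠ sub x M y' i then W y y' * (c y * c y') else 0)
          ≤ ∑ y, c y * c (flp a y) := by
            refine Finset.sum_le_sum fun y _ => ?_
            calc ∑ y', (if sub x M y i ≠ sub x M y' i then W y y' * (c y * c y') else 0)
                ≤ ∑ y', (if y' = flp a y then c y * c y' else 0) := by
                  refine Finset.sum_le_sum fun y' _ => ?_
                  by_cases h1 : y' = flp a y
                  · rw [if_pos h1]
                    have h2 : W y y' * (c y * c y') ≤ c y * c y' := by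
                      have h3 : W y y' ≤ 1 := by
                        rw [hW]; simp only; split_ifs <;> norm_num
                      have := mul_nonneg (hc y) (hc y')
                      nlinarith
                    split_ifs
                    · exact h2
                    · exact mul_nonneg (hc _) (hc _)
                  · rw [if_neg h1]
                    split_ifs with h2
                    · have : W y y' = 0 := by
                        rw [hW]
                        simp only
                        rw [if_neg]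
                        rintro ⟨_, _, b, rfl⟩
                        rw [sub_flp] at h2
                        exact h1 (by rw [show b = a from Subtype.ext h2.symm])
                      rw [this, zero_mul]
                    · exact le_refl _
              _ = c y * c (flp a y) := by simp
        _ ≤ ∑ y, (c y ^ 2 + c (flp a y) ^ 2) / 2 :=
            Finset.sum_le_sum fun y _ => by nlinarith [sq_nonneg (c y - c (flp a y))]
        _ = ∑ y, c y ^ 2 := by
            rw [← Finset.sum_div, Finset.sum_add_distrib]
            have : ∑ y, c (flp a y) ^ 2 = ∑ y, c y ^ 2 :=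
              Equiv.sum_comp (flpE a) (fun y => c y ^ 2)
            rw [this]
            ring
    · have h0 : ∀ y y', ¬ (sub x M y i ≠ sub x M y' i) := by
        intro y y'
        unfold sub
        simp [hi]
      simp only [h0, if_false, Finset.sum_const_zero]
      positivity

end deg

/-- every function has a quantum algorithm -/
theorem exists_quant {n : ℕ} (hn : 1 ≤ n) (f : (Fin n → Bool) → Bool) :
    ∃ q, QuantComputes q f := by
  have : Nonempty (Fin n) := ⟨⟨0, hn⟩⟩
  obtain ⟨T, -, hT⟩ := query_all (Finset.univ : Finset (Fin n)) 0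
    (fun z => DTree.leaf (f z)) (fun z => by simp [DTree.depth]) (fun _ => false)
  have hT' : ∀ x, T.eval x = f x := fun x => by rw [hT]; simp [DTree.eval]
  obtain ⟨A, hA⟩ := realize (AccFam.dt T T.depth le_rfl)
  refine ⟨T.depth, A, fun x => ?_⟩
  rw [hA, hT']
  constructor
  · intro h; rw [h]; norm_num
  · intro h; rw [h]; norm_num

theorem rand_of_tree {ι : Type} {f : (ι → Bool) → Bool} {T : DTree ι Bool}
    (hT : ∀ x, T.eval x = f x) {d : ℕ} (hd : T.depth ≤ d) : R f ≤ d := by
  refine Nat.sInf_le ⟨PMF.pure T, ?_, ?_⟩
  · intro T' hT'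
    rw [PMF.support_pure, Set.mem_singleton_iff] at hT'
    rw [hT']; exact hd
  · intro x
    rw [PMF.toOuterMeasure_pure_apply, if_pos (by simp [hT x])]
    rw [ENNReal.div_le_iff_le_mul (by simp) (by simp)]
    norm_num

/-- the known upper bound -/
theorem four_bound {n : ℕ} (hn : 1 ≤ n) (f : (Fin n → Bool) → Bool) :
    (R f : ℝ) ≤ 1679616 * (Q f : ℝ) ^ 4 := by
  have hq : QuantComputes (Q f) f := Nat.sInf_mem (s := {q | QuantComputes q f})
    (exists_quant hn f)
  obtain ⟨T, hT, hTf⟩ := mid f (fun x => sb (f x)) (fun x y => by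
      constructor
      · intro h
        cases hx : f x <;> cases hy : f y <;> simp [hx, hy, sb] at h ⊢ <;> norm_num at h
      · intro h; simp only [h]) (1296 * Q f ^ 2) (1296 * Q f ^ 2)
    (fun x P h1 h2 => bs_le hq x P h1 h2) (fun M x h => deg_le hq x M h)
  have h := rand_of_tree hTf hT
  have h2 : (R f : ℝ) ≤ ((1296 * Q f ^ 2 * (1296 * Q f ^ 2) : ℕ) : ℝ) := by exact_mod_cast h
  refine h2.trans (le_of_eq ?_)
  push_cast
  ring

end Up

theorem four_mem_admissible : (4 : ℝ) ∈ admissible := by
  refine ⟨by norm_num, 1679616, fun n hn f => ?_⟩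
  refine (Up.four_bound hn f).trans ?_
  have h0 : (0 : ℝ) ≤ (Q f : ℝ) := Nat.cast_nonneg _
  have e : (1 + (Q f : ℝ)) ^ (4 : ℝ) = (1 + (Q f : ℝ)) ^ 4 := by
    exact_mod_cast Real.rpow_natCast (1 + (Q f : ℝ)) 4
  rw [e]
  have : (Q f : ℝ) ^ 4 ≤ (1 + (Q f : ℝ)) ^ 4 := by gcongr; linarith
  linarith

end P362
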